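import Vale.Agent.P255.Spec

/-! A local flow of class `C^1` with its linearization. -/

open scoped ContDiff Topology NNReal
open Set Filter Metric

namespace Vale.Agent.P255

namespace Of

variable {V : Type} [NormedAddCommGroup V] [NormedSpace ℝ V]

lemma gron_pos {e e' : ℝ → V} {δ K c : ℝ} (h : ∀ t ∈ Ioo (-δ) δ, HasDerivAt e (e' t) t)
    (h0 : e 0 = 0) (hb : ∀ t ∈ Ioo (-δ) δ, ‖e' t‖ ≤ K * ‖e t‖ + c) {t : ℝ} (ht : 0 ≤ t)
    (htδ : t < δ) : ‖e t‖ ≤ gronwallBound 0 K c t := by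
  have m : ∀ x ∈ Icc 0 t, x ∈ Ioo (-δ) δ := fun x hx => ⟨by linarith [hx.1], by linarith [hx.2]⟩
  have := norm_le_gronwallBound_of_norm_deriv_right_le (f := e) (f' := e') (δ := 0) (K := K)
    (ε := c) (a := 0) (b := t) (fun x hx => (h x (m x hx)).continuousAt.continuousWithinAt)
    (fun x hx => (h x (m x (Ico_subset_Icc_self hx))).hasDerivWithinAt) (by simp [h0])
    (fun x hx => hb x (m x (Ico_subset_Icc_self hx))) t ⟨ht, le_rfl⟩
  simpa using this

lemma gron {e e' : ℝ → V} {δ K c : ℝ} (h : ∀ t ∈ Ioo (-δ) δ, HasDerivAt e (e' t) t)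
    (h0 : e 0 = 0) (hb : ∀ t ∈ Ioo (-δ) δ, ‖e' t‖ ≤ K * ‖e t‖ + c) {t : ℝ}
    (ht : t ∈ Ioo (-δ) δ) : ‖e t‖ ≤ gronwallBound 0 K c |t| := by
  rcases le_total 0 t with q | q
  · rw [abs_of_nonneg q]
    exact gron_pos h h0 hb q ht.2
  · rw [abs_of_nonpos q]
    have m : ∀ x ∈ Ioo (-δ) δ, -x ∈ Ioo (-δ) δ := fun x hx => ⟨by linarith [hx.2], by linarith [hx.1]⟩
    have := gron_pos (e := fun x => e (-x)) (e' := fun x => -e' (-x)) (δ := δ) (K := K) (c := c)
      (fun x hx => by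
        simpa [Function.comp_def] using (h (-x) (m x hx)).scomp x (hasDerivAt_neg x))
      (by simpa using h0)
      (fun x hx => by simpa using hb (-x) (m x hx)) (neg_nonneg.2 q) (by linarith [ht.1])
    simpa using this

lemma taylor {F : V → V} {z₀ : V} {ρ : ℝ} {K : ℝ≥0}
    (hF : ∀ x ∈ ball z₀ ρ, DifferentiableAt ℝ F x)
    (hK : LipschitzOnWith K (fderiv ℝ F) (ball z₀ ρ)) {a b : V} (ha : a ∈ ball z₀ ρ)
    (hb : b ∈ ball z₀ ρ) : ‖F a - F b - fderiv ℝ F b (a - b)‖ ≤ K * ‖a - b‖ ^ 2 := by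
  have := ((convex_ball z₀ ρ).inter (convex_closedBall b ‖a - b‖)).norm_image_sub_le_of_norm_fderiv_le'
    (f := F) (φ := fderiv ℝ F b) (C := K * ‖a - b‖) (fun x hx => hF x hx.1)
    (fun x hx => (hK.norm_sub_le hx.1 hb).trans
      (mul_le_mul_of_nonneg_left (mem_closedBall_iff_norm.1 hx.2) K.2))
    ⟨hb, mem_closedBall_self (norm_nonneg _)⟩ ⟨ha, mem_closedBall_iff_norm.2 le_rfl⟩
  calc _ ≤ _ := this
    _ = _ := by ring

end Of

open Of in
theorem oStmt : OStmt := by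
  intro V _ _ _ F Ω hΩ hF z₀ hz
  have hc : ∀ x ∈ Ω, ContDiffAt ℝ ∞ F x := fun x hx => hF.contDiffAt (hΩ.mem_nhds hx)
  have h1 : ContDiffAt ℝ 1 F z₀ := (hc z₀ hz).of_le (by exact_mod_cast le_top)
  have h2 : ContDiffAt ℝ 1 (fderiv ℝ F) z₀ := ((hc z₀ hz).fderiv_right (m := ∞) (by simp)).of_le
    (by exact_mod_cast le_top)
  obtain ⟨K, T, hT, hK⟩ := h2.exists_lipschitzOnWith
  obtain ⟨ρ, hρ, hb⟩ := Metric.mem_nhds_iff.1 (inter_mem hT (hΩ.mem_nhds hz))
  have hK' : LipschitzOnWith K (fderiv ℝ F) (ball z₀ ρ) := hK.mono fun x hx => (hb hx).1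
  have hd : ∀ x ∈ ball z₀ ρ, DifferentiableAt ℝ F x := fun x hx =>
    (hc x (hb hx).2).differentiableAt (by simp)
  have hB : ∀ x ∈ ball z₀ ρ, ‖fderiv ℝ F x‖ ≤ ‖fderiv ℝ F z₀‖ + K * ρ + 1 := fun x hx => by
    have a := hK'.norm_sub_le hx (mem_ball_self hρ)
    have b := mul_le_mul_of_nonneg_left (mem_ball_iff_norm.1 hx).le K.2
    have c := norm_le_norm_add_norm_sub' (fderiv ℝ F x) (fderiv ℝ F z₀)
    change (K : ℝ) * _ ≤ (K : ℝ) * _ at b
    linarith
  set B : ℝ := ‖fderiv ℝ F z₀‖ + K * ρ + 1 with hBd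
  have B0 : 0 < B := by positivity
  let G : V × (V →L[ℝ] V) → V × (V →L[ℝ] V) := fun p => (F p.1, (fderiv ℝ F p.1).comp p.2)
  have hG : ContDiffAt ℝ 1 G (z₀, ContinuousLinearMap.id ℝ V) :=
    (h1.comp _ contDiffAt_fst).prodMk ((h2.comp _ contDiffAt_fst).clm_comp contDiffAt_snd)
  obtain ⟨ε, hε, a, r, L, K', hr, hpl⟩ := IsPicardLindelof.of_contDiffAt_one hG
  obtain ⟨α, hα, L', hL⟩ := (hpl 0).exists_forall_mem_closedBall_eq_hasDerivWithinAt_lipschitzOnWith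
  simp only [zero_sub, zero_add] at hα hL
  set x₀ : V × (V →L[ℝ] V) := (z₀, ContinuousLinearMap.id ℝ V) with hx₀
  have hr' : (0 : ℝ) < r := hr
  have hcont : ContinuousOn (Function.uncurry α) (closedBall x₀ r ×ˢ Icc (-ε) ε) :=
    continuousOn_prod_of_continuousOn_lipschitzOnWith _ L'
      (fun x hx => HasDerivWithinAt.continuousOn (hα x hx).2) hL
  have hca : ContinuousAt (Function.uncurry α) (x₀, 0) := hcont.continuousAt
    (prod_mem_nhds (closedBall_mem_nhds _ hr') (Icc_mem_nhds (by linarith) hε))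
  have hev : ∀ᶠ p : (V × (V →L[ℝ] V)) × ℝ in 𝓝 (x₀, 0), (α p.1 p.2).1 ∈ ball z₀ ρ := by
    have : (Function.uncurry α (x₀, 0)).1 = z₀ := by
      exact congrArg Prod.fst (hα x₀ (mem_closedBall_self hr'.le)).1
    exact (continuousAt_fst.comp hca).eventually_mem (by
      rw [Function.comp, this]; exact ball_mem_nhds _ hρ)
  obtain ⟨δ0, hδ0, hδ⟩ := Metric.eventually_nhds_iff_ball.1 hev
  set δ := min δ0 (min r ε) with hδd
  have δp : 0 < δ := lt_min hδ0 (lt_min hr' hε)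
  have δ1 : δ ≤ δ0 := min_le_left _ _
  have δ2 : δ ≤ r := (min_le_right _ _).trans (min_le_left _ _)
  have δ3 : δ ≤ ε := (min_le_right _ _).trans (min_le_right _ _)
  let ι : V → V × (V →L[ℝ] V) := fun z => (z, ContinuousLinearMap.id ℝ V)
  have dι : ∀ z w, dist (ι z) (ι w) = dist z w := fun z w => by simp [ι, Prod.dist_eq]
  have mι : ∀ z ∈ ball z₀ δ, ι z ∈ closedBall x₀ r := fun z hz' => by
    have : dist (ι z) (ι z₀) ≤ r := by rw [dι]; exact (mem_ball.1 hz').le.trans δ2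
    exact this
  have mI : ∀ s ∈ Ioo (-δ) δ, s ∈ Icc (-ε) ε := fun s hs => ⟨by linarith [hs.1], by linarith [hs.2]⟩
  have st : ∀ z ∈ ball z₀ δ, ∀ s ∈ Ioo (-δ) δ, (α (ι z) s).1 ∈ ball z₀ ρ := by
    intro z hz' s hs
    refine hδ (ι z, s) ?_
    rw [mem_ball, Prod.dist_eq, max_lt_iff]
    refine ⟨?_, ?_⟩
    · have : dist (ι z) (ι z₀) < δ0 := by rw [dι]; exact lt_of_lt_of_le (mem_ball.1 hz') δ1
      exact this
    · simp only [dist_zero_right, Real.norm_eq_abs, abs_lt]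
      exact ⟨by linarith [hs.1], by linarith [hs.2]⟩
  have dv : ∀ z ∈ ball z₀ δ, ∀ s ∈ Ioo (-δ) δ, HasDerivAt (α (ι z)) (G (α (ι z) s)) s :=
    fun z hz' s hs => ((hα _ (mι z hz')).2 s (mI s hs)).hasDerivAt
      (Icc_mem_nhds (by linarith [hs.1]) (by linarith [hs.2]))
  have d1 : ∀ z ∈ ball z₀ δ, ∀ s ∈ Ioo (-δ) δ,
      HasDerivAt (fun r => (α (ι z) r).1) (F (α (ι z) s).1) s := fun z hz' s hs =>
    (ContinuousLinearMap.fst ℝ V (V →L[ℝ] V)).hasFDerivAt.comp_hasDerivAt s (dv z hz' s hs)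
  have d2 : ∀ z ∈ ball z₀ δ, ∀ s ∈ Ioo (-δ) δ, HasDerivAt (fun r => (α (ι z) r).2)
      ((fderiv ℝ F (α (ι z) s).1).comp (α (ι z) s).2) s := fun z hz' s hs =>
    (ContinuousLinearMap.snd ℝ V (V →L[ℝ] V)).hasFDerivAt.comp_hasDerivAt s (dv z hz' s hs)
  have lip : ∀ z ∈ ball z₀ δ, ∀ w ∈ ball z₀ δ, ∀ s ∈ Ioo (-δ) δ,
      dist (α (ι z) s) (α (ι w) s) ≤ L' * dist z w := fun z hz' w hw s hs => by
    rw [← dι]
    exact (hL s (mI s hs)).dist_le_mul _ (mι z hz') _ (mι w hw)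
  have fd : ∀ z ∈ ball z₀ δ, ∀ s ∈ Ioo (-δ) δ,
      HasFDerivAt (fun z => (α (ι z) s).1) (α (ι z) s).2 z := by
    intro z hz' s hs
    rw [hasFDerivAt_iff_isLittleO_nhds_zero]
    refine Asymptotics.IsBigO.trans_isLittleO ?_ (Asymptotics.isLittleO_norm_pow_id one_lt_two)
    refine Asymptotics.IsBigO.of_bound (K * L' ^ 2 / B * (Real.exp (B * |s|) - 1)) ?_
    have : ∀ᶠ h in 𝓝 (0 : V), z + h ∈ ball z₀ δ :=
      (continuous_const.add continuous_id).continuousAt.eventually_mem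
        (by simpa using isOpen_ball.mem_nhds hz')
    filter_upwards [this] with h hh
    have := gron (e := fun r => (α (ι (z + h)) r).1 - (α (ι z) r).1 - (α (ι z) r).2 h)
      (e' := fun r => F (α (ι (z + h)) r).1 - F (α (ι z) r).1
        - ((fderiv ℝ F (α (ι z) r).1).comp (α (ι z) r).2) h) (δ := δ) (K := B)
      (c := K * (L' * ‖h‖) ^ 2)
      (fun t ht => ((d1 _ hh t ht).sub (d1 _ hz' t ht)).sub (by
        simpa using (d2 _ hz' t ht).clm_apply (hasDerivAt_const t h)))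
      (by simp [(hα _ (mι _ hh)).1, (hα _ (mι _ hz')).1, ι])
      (fun t ht => by
        have t1 := taylor hd hK' (st _ hh t ht) (st _ hz' t ht)
        have t2 : ‖(α (ι (z + h)) t).1 - (α (ι z) t).1‖ ≤ L' * ‖h‖ := by
          have := lip _ hh _ hz' t ht
          rw [dist_eq_norm (z + h), add_sub_cancel_left, Prod.dist_eq, dist_eq_norm] at this
          exact (le_max_left _ _).trans this
        have t3 := (fderiv ℝ F (α (ι z) t).1).le_of_opNorm_le (hB _ (st _ hz' t ht))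
          ((α (ι (z + h)) t).1 - (α (ι z) t).1 - (α (ι z) t).2 h)
        have t4 : (K : ℝ) * ‖(α (ι (z + h)) t).1 - (α (ι z) t).1‖ ^ 2 ≤ K * (L' * ‖h‖) ^ 2 := by
          gcongr
        have e : F (α (ι (z + h)) t).1 - F (α (ι z) t).1
            - ((fderiv ℝ F (α (ι z) t).1).comp (α (ι z) t).2) h =
            (F (α (ι (z + h)) t).1 - F (α (ι z) t).1
              - fderiv ℝ F (α (ι z) t).1 ((α (ι (z + h)) t).1 - (α (ι z) t).1)) +
            fderiv ℝ F (α (ι z) t).1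
              ((α (ι (z + h)) t).1 - (α (ι z) t).1 - (α (ι z) t).2 h) := by
          simp only [ContinuousLinearMap.comp_apply, map_sub]
          abel
        rw [e]
        linarith [norm_add_le (F (α (ι (z + h)) t).1 - F (α (ι z) t).1
              - fderiv ℝ F (α (ι z) t).1 ((α (ι (z + h)) t).1 - (α (ι z) t).1))
            (fderiv ℝ F (α (ι z) t).1
              ((α (ι (z + h)) t).1 - (α (ι z) t).1 - (α (ι z) t).2 h))]) hs
    rw [gronwallBound_of_K_ne_0 B0.ne'] at this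
    refine this.trans (le_of_eq ?_)
    simp only [norm_pow, norm_norm]
    ring
  refine ⟨δ, δp, ball z₀ δ, isOpen_ball, mem_ball_self δp, fun s z => (α (ι z) s).1,
    fun s z => (α (ι z) s).2, fun s hs z hz' => ?_, fun z hz' => ⟨?_, ?_, fun s hs =>
      ⟨(hb (st z hz' s hs)).2, d1 z hz' s hs, fd z hz' s hs, d2 z hz' s hs⟩⟩⟩
  · refine (contDiffAt_one_iff.2 ⟨fun z => (α (ι z) s).2, ball z₀ δ, isOpen_ball.mem_nhds hz', ?_,
      fun w hw => fd w hw s hs⟩).contDiffWithinAt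
    exact (LipschitzOnWith.of_dist_le_mul (K := L') fun x hx y hy =>
      (le_max_right _ _).trans (lip x hx y hy s hs)).continuousOn
  · simp only [(hα _ (mι _ hz')).1, ι]
  · simp only [(hα _ (mι _ hz')).1, ι]

end Vale.Agent.P255
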