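import Vale.Agent.P255.Spec

/-! Module B of P255: chart facts and the bridge to Mathlib's Riemannian metrics. -/

open scoped Manifold ContDiff Topology
open Set Filter Bundle

namespace Vale.Agent.P255
namespace Bm

variable {M : Type} [TopologicalSpace M] [ChartedSpace E3 M] [IsManifold 𝓘(ℝ, E3) ∞ M]

lemma md (a : M) : (chartAt E3 a).MDifferentiable 𝓘(ℝ, E3) 𝓘(ℝ, E3) := mdifferentiable_chart a

lemma DiD {a p : M} (hp : p ∈ (chartAt E3 a).source) (u : E3) :
    Di a (chartAt E3 a p) (D a p u) = u :=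
  DFunLike.congr_fun ((md a).symm_comp_deriv hp) u

lemma DDi {a : M} {y : E3} (hy : y ∈ (chartAt E3 a).target) (u : E3) :
    D a ((chartAt E3 a).symm y) (Di a y u) = u :=
  DFunLike.congr_fun ((md a).comp_symm_deriv hy) u

lemma fd {a b : M} {y : E3} (hy : y ∈ (chartAt E3 a).target)
    (hb : (chartAt E3 a).symm y ∈ (chartAt E3 b).source) :
    fderiv ℝ (fun y => chartAt E3 b ((chartAt E3 a).symm y)) y =
      (D b ((chartAt E3 a).symm y)).comp (Di a y) :=
  mfderiv_eq_fderiv.symm.trans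
    (mfderiv_comp y ((md b).mdifferentiableAt hb) ((md a).mdifferentiableAt_symm hy))

lemma pull (g : M → Bil) {a p : M} (hp : p ∈ (chartAt E3 a).source) (u v : E3) :
    locB g a (chartAt E3 a p) (D a p u) (D a p v) = g p u v := by
  rw [locB, ContinuousLinearMap.bilinearComp_apply, DiD hp, DiD hp, (chartAt E3 a).left_inv hp]

lemma facts (g : M → Bil) (h : IsMet g) : ChartFacts g where
  cm a := ⟨(chartAt E3 a).open_target, h.smooth a, fun y _ u v => h.symm _ _ _,
    fun y hy u u0 => h.pos _ _ fun e : Di a y u = 0 =>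
      u0 (by rw [← DDi hy u, e, map_zero])⟩
  pull _ _ := pull g
  self a := mfderiv_extChartAt_self (I := 𝓘(ℝ, E3)) (x := a)
  bij a _ := (md a).mfderiv_bijective
  chg a b p ha hb := by
    have e := (chartAt E3 a).left_inv ha
    rw [fd ((chartAt E3 a).map_source ha) (e.symm ▸ hb), e]
    ext1 u
    exact congrArg (D b p) (DiD ha u).symm
  sm a b := contMDiffOn_iff_contDiffOn.1 (contMDiffOn_chart.comp
    ((contMDiffOn_chart_symm (I := 𝓘(ℝ, E3))).mono inter_subset_left) inter_subset_right)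
  law a b y hy u v := by
    rw [fd hy.1 hy.2]
    exact (pull g hy.2 _ _).symm

lemma key (g : M → Bil) {a p : M} (hp : p ∈ (chartAt E3 a).source) :
    (trivializationAt Bil (fun x : M => TangentSpace 𝓘(ℝ, E3) x →L[ℝ]
      TangentSpace 𝓘(ℝ, E3) x →L[ℝ] ℝ) a ⟨p, g p⟩).2 = locB g a (chartAt E3 a p) := by
  have e : ∀ v, (trivializationAt E3 (TangentSpace 𝓘(ℝ, E3)) a).symm p v =
      Di a (chartAt E3 a p) v := fun v => by
    have := DFunLike.congr_fun (TangentBundle.symmL_trivializationAt (I := 𝓘(ℝ, E3)) hp) v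
    rw [ModelWithCorners.range_eq_univ, mfderivWithin_univ] at this
    exact (Trivialization.symmL_apply _ hp v).symm.trans this
  ext1 u; ext1 v
  refine (inCoordinates_apply_eq₂ (E₃ := Bundle.Trivial M ℝ) hp hp
    (mem_univ _)).trans ?_
  rw [e, e, locB, (chartAt E3 a).left_inv hp]
  simp only [Trivial.fiberBundle_trivializationAt', Trivial.linearMapAt_trivialization,
    LinearMap.id_coe, id_eq]
  rfl

omit [IsManifold 𝓘(ℝ, E3) ∞ M] in
lemma bdd (B : Bil) (h : ∀ u, u ≠ 0 → 0 < B u u) :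
    Bornology.IsVonNBounded ℝ {v : E3 | B v v < 1} := by
  obtain ⟨w, w1, hw⟩ := (isCompact_sphere (0 : E3) 1).exists_isMinOn
    (NormedSpace.sphere_nonempty.2 zero_le_one) (f := fun v => B v v)
    (B.continuous₂.comp (continuous_id.prodMk continuous_id)).continuousOn
  have c0 := h w (Metric.ne_of_mem_sphere w1 one_ne_zero)
  refine (NormedSpace.isVonNBounded_closedBall ℝ E3 (1 + 1 / B w w)).subset fun v hv => ?_
  rw [mem_closedBall_zero_iff]
  by_contra! k
  have p1 : 0 < 1 / B w w := by positivity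
  have v0 : 0 < ‖v‖ := by linarith
  have := hw (show ‖v‖⁻¹ • v ∈ Metric.sphere (0 : E3) 1 by
    simp [norm_smul, inv_mul_cancel₀ v0.ne'])
  simp only [mem_ofPred_eq, map_smul, smul_apply, smul_eq_mul] at this hv
  rw [← mul_assoc, ← mul_inv, ← div_eq_inv_mul, le_div_iff₀ (by positivity)] at this
  have e : B w w * (1 / B w w) = 1 := by field_simp
  nlinarith [mul_lt_mul_of_pos_left k c0, mul_pos c0 v0]

lemma sec {E N : Type} [NormedAddCommGroup E] [NormedSpace ℝ E] [TopologicalSpace N]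
    [ChartedSpace E N] [IsManifold 𝓘(ℝ, E) ∞ N] (g : Metric E N) (a : N) :
    ContMDiffOn 𝓘(ℝ, E) 𝓘(ℝ, E →L[ℝ] E →L[ℝ] ℝ) ∞ (fun p => (trivializationAt (E →L[ℝ] E →L[ℝ] ℝ)
      (fun x : N => TangentSpace 𝓘(ℝ, E) x →L[ℝ] TangentSpace 𝓘(ℝ, E) x →L[ℝ] ℝ) a
      ⟨p, g.inner p⟩).2) (chartAt E a).source :=
  haveI : ∀ x : N, IsTopologicalAddGroup (TangentSpace 𝓘(ℝ, E) x →L[ℝ] ℝ) := fun _ =>
    inferInstanceAs (IsTopologicalAddGroup (E →L[ℝ] ℝ))
  haveI : ∀ x : N, ContinuousAdd (TangentSpace 𝓘(ℝ, E) x →L[ℝ] ℝ) := fun _ =>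
    inferInstanceAs (ContinuousAdd (E →L[ℝ] ℝ))
  haveI : ∀ x : N, ContinuousSMul ℝ (TangentSpace 𝓘(ℝ, E) x →L[ℝ] ℝ) := fun _ =>
    inferInstanceAs (ContinuousSMul ℝ (E →L[ℝ] ℝ))
  (Trivialization.contMDiffOn_section_iff _ (chartAt E a).open_source
    (by exact fun x hx => ⟨hx, hx, mem_univ _⟩)).1 g.contMDiff.contMDiffOn

end Bm

open Bm in
theorem bStmt : BStmt := fun M _ _ _ => by
  refine ⟨fun g => ⟨g.inner, ⟨g.symm, g.pos, fun a => ?_⟩, rfl⟩,
    fun g h => ⟨⟨g, h.symm, h.pos, fun p => bdd _ (h.pos p), fun p => ?_⟩, rfl⟩, facts⟩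
  · refine (contMDiffOn_iff_contDiffOn.1 ((sec g a).comp (contMDiffOn_chart_symm (I := 𝓘(ℝ, E3)))
      (chartAt E3 a).mapsTo_symm)).congr fun y hy => ?_
    have := key g.inner ((chartAt E3 a).map_target hy)
    rw [(chartAt E3 a).right_inv hy] at this
    exact this.symm
  · refine (contMDiffAt_section p).2 ?_
    have n := chart_source_mem_nhds E3 p
    refine ContMDiffAt.congr_of_eventuallyEq ?_ (eventually_of_mem n fun x hx => key g hx)
    exact ((contMDiffOn_iff_contDiffOn.2 (h.smooth p)).comp contMDiffOn_chart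
      (chartAt E3 p).mapsTo).contMDiffAt n

end Vale.Agent.P255
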