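import Mathlib

/-! Topological lemmas for the Cartan-Hadamard covering. -/

open scoped Topology unitInterval
open Set Filter

namespace Vale.Agent.P255.Cv

variable {E X : Type} [TopologicalSpace E] [TopologicalSpace X] {f : E → X}

/-- bounded lifts extend -/
theorem lift_of_compact [T2Space X] (hf : IsLocalHomeomorph f) {c : ℝ → X}
    (hc : ContinuousOn c (Icc 0 1)) {e : E} (he : f e = c 0) {K : Set E} (hK : IsCompact K)
    (hKc : IsClosed K)
    (hb : ∀ s ∈ Icc (0 : ℝ) 1, ∀ Γ : ℝ → E, ContinuousOn Γ (Icc 0 s) → Γ 0 = e →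
      (∀ t ∈ Icc 0 s, f (Γ t) = c t) → Γ s ∈ K) :
    ∃ Γ : ℝ → E, ContinuousOn Γ (Icc 0 1) ∧ Γ 0 = e ∧ ∀ t ∈ Icc (0 : ℝ) 1, f (Γ t) = c t := by
  set P : Set (ℝ × E) := {z | z.1 ∈ Icc (0 : ℝ) 1 ∧ ∃ Γ : ℝ → E, ContinuousOn Γ (Icc 0 z.1) ∧
    Γ 0 = e ∧ (∀ t ∈ Icc 0 z.1, f (Γ t) = c t) ∧ Γ z.1 = z.2} with hP
  have hPK : P ⊆ Icc (0 : ℝ) 1 ×ˢ K := by
    rintro ⟨s, e'⟩ ⟨hs, Γ, h1, h2, h3, h4⟩
    exact ⟨hs, h4 ▸ hb s hs Γ h1 h2 h3⟩
  have hcl : closure P ⊆ Icc (0 : ℝ) 1 ×ˢ K := closure_minimal hPK (isClosed_Icc.prod hKc)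
  have hcp : IsCompact (closure P) :=
    (isCompact_Icc.prod hK).of_isClosed_subset isClosed_closure hcl
  have h0 : ((0 : ℝ), e) ∈ P := by
    refine ⟨⟨le_rfl, zero_le_one⟩, fun _ => e, continuousOn_const, rfl, ?_, rfl⟩
    intro t ht
    have : t = 0 := le_antisymm ht.2 ht.1
    rw [this, he]
  obtain ⟨⟨s, e'⟩, hz, hmax⟩ := hcp.exists_isMaxOn ⟨_, subset_closure h0⟩
    continuous_fst.continuousOn
  have hs : s ∈ Icc (0 : ℝ) 1 := (hcl hz).1
  have hfe : f e' = c s := by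
    have hcl2 : IsClosed {z : ℝ × E | z.1 ∈ Icc (0 : ℝ) 1 ∧ f z.2 = c z.1} := by
      have h1 : ContinuousOn (fun z : ℝ × E => f z.2) (Prod.fst ⁻¹' Icc (0 : ℝ) 1) :=
        (hf.continuous.comp continuous_snd).continuousOn
      have h2 : ContinuousOn (fun z : ℝ × E => c z.1) (Prod.fst ⁻¹' Icc (0 : ℝ) 1) :=
        hc.comp continuous_fst.continuousOn fun _ h => h
      exact (isClosed_Icc.preimage continuous_fst).isClosed_eq h1 h2
    have : P ⊆ {z : ℝ × E | z.1 ∈ Icc (0 : ℝ) 1 ∧ f z.2 = c z.1} := by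
      rintro ⟨s, e'⟩ ⟨hs, Γ, -, -, h3, h4⟩
      exact ⟨hs, by rw [← h4]; exact h3 s ⟨hs.1, le_rfl⟩⟩
    exact (closure_minimal this hcl2 hz).2
  obtain ⟨q, hq, hfq⟩ := hf e'
  have htg : c s ∈ q.target := by rw [← hfe, hfq]; exact q.map_source hq
  obtain ⟨δ, hδ, hδ'⟩ : ∃ δ > 0, ∀ t ∈ Icc (0 : ℝ) 1, |t - s| < δ → c t ∈ q.target := by
    have := (hc s hs).preimage_mem_nhdsWithin (q.open_target.mem_nhds htg)
    obtain ⟨δ, hδ, h⟩ := Metric.mem_nhdsWithin_iff.mp this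
    exact ⟨δ, hδ, fun t ht h' => h ⟨by simpa [Real.dist_eq] using h', ht⟩⟩
  obtain ⟨⟨s₁, e₁⟩, ⟨hn1, hn2⟩, hs₁, Γ, g1, g2, g3, g4⟩ := mem_closure_iff.mp hz
    (Metric.ball s δ ×ˢ q.source) (Metric.isOpen_ball.prod q.open_source)
    ⟨Metric.mem_ball_self hδ, hq⟩
  simp only [Metric.mem_ball, Real.dist_eq] at hn1 hn2 hs₁ g1 g3 g4
  have key : ∀ u ∈ Icc (0 : ℝ) 1, u < s + δ → ∃ Γ : ℝ → E, ContinuousOn Γ (Icc 0 u) ∧
      Γ 0 = e ∧ ∀ t ∈ Icc 0 u, f (Γ t) = c t := by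
    intro u hu hus
    have hin : ∀ t ∈ Icc (0 : ℝ) u, s₁ ≤ t → c t ∈ q.target := by
      intro t ht h
      refine hδ' t ⟨ht.1, ht.2.trans hu.2⟩ ?_
      rw [abs_lt] at hn1 ⊢
      constructor <;> linarith [ht.2, hn1.1]
    refine ⟨fun t => if t ≤ s₁ then Γ t else q.symm (c t), ?_, ?_, ?_⟩
    · refine ContinuousOn.if ?_ ?_ ?_
      · rintro t ⟨ht, hfr⟩
        have h1 : t = s₁ := frontier_le_subset_eq continuous_id continuous_const hfr
        subst h1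
        rw [← g3 t ⟨ht.1, le_rfl⟩, g4, hfq, q.left_inv hn2]
      · refine g1.mono ?_
        rintro t ⟨ht, h⟩
        exact ⟨ht.1, closure_minimal (s := {a | a ≤ s₁}) (fun _ h => h) isClosed_Iic h⟩
      · have hsub : Icc 0 u ∩ closure {t | ¬ t ≤ s₁} ⊆ Icc 0 u ∩ Ici s₁ := by
          refine inter_subset_inter_right _ (closure_minimal ?_ isClosed_Ici)
          intro t ht
          exact le_of_lt (not_le.mp ht)
        refine ContinuousOn.mono ?_ hsub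
        refine q.continuousOn_symm.comp (hc.mono ?_) ?_
        · exact fun t ht => ⟨ht.1.1, ht.1.2.trans hu.2⟩
        · exact fun t ht => hin t ht.1 ht.2
    · simp only [hs₁.1, if_true, g2]
    · intro t ht
      by_cases h : t ≤ s₁
      · simp only [h, if_true]; exact g3 t ⟨ht.1, h⟩
      · simp only [h, if_false]
        rw [hfq]; exact q.right_inv (hin t ht (le_of_lt (not_le.mp h)))
  have hu : min 1 (s + δ / 2) ∈ Icc (0 : ℝ) 1 :=
    ⟨le_min zero_le_one (by linarith [hs.1]), min_le_left _ _⟩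
  obtain ⟨Γ', k1, k2, k3⟩ := key _ hu ((min_le_right _ _).trans_lt (by linarith))
  have hmem : (min 1 (s + δ / 2), Γ' (min 1 (s + δ / 2))) ∈ closure P :=
    subset_closure ⟨hu, Γ', k1, k2, k3, rfl⟩
  have hle : min 1 (s + δ / 2) ≤ s := hmax hmem
  have h1 : 1 ≤ s := by
    rcases min_le_iff.mp hle with h | h
    · exact h
    · linarith
  exact key 1 ⟨zero_le_one, le_rfl⟩ (by linarith)

/-- a contraction whose tracks lift from both ends gives an evenly covered neighbourhood -/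
theorem evenly [T2Space E] [Nonempty E] (hf : IsLocalHomeomorph f) {A : Type} [TopologicalSpace A]
    [PreconnectedSpace A] {j : A → X} (hj : Topology.IsOpenEmbedding j) (a₀ : A)
    (H : C(I × A, A)) (H0 : ∀ a, H (0, a) = a₀) (H1 : ∀ a, H (1, a) = a)
    (Hc : ∀ t, H (t, a₀) = a₀)
    (l0 : ∀ e, f e = j a₀ → ∀ a, ∃ Γ : I → E, Continuous Γ ∧ Γ 0 = e ∧ ∀ t, f (Γ t) = j (H (t, a)))
    (l1 : ∀ e a, f e = j a → ∃ Γ : I → E, Continuous Γ ∧ Γ 1 = e ∧ ∀ t, f (Γ t) = j (H (t, a))) :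
    IsEvenlyCovered f (j a₀) (f ⁻¹' {j a₀}) := by
  have sep : IsSeparatedMap f := T2Space.isSeparatedMap f
  have inj := hf.isLocallyInjective
  have hd : DiscreteTopology (f ⁻¹' {j a₀}) :=
    (IsDiscrete.of_openPartialHomeomorph f subset_rfl fun e _ => by
      obtain ⟨q, h1, h2⟩ := hf e
      exact ⟨q, h1, h2.symm⟩).1
  choose Γ Γc Γ0 Γl using fun (i : f ⁻¹' {j a₀}) (a : A) => l0 i i.2 a
  have hσ : ∀ i, Continuous fun a => Γ i a 1 := by
    intro i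
    have := hf.continuous_lift sep ((⟨j, hj.continuous⟩ : C(A, X)).comp H)
      (g := fun z => Γ i z.2 z.1) (funext fun z => Γl i z.2 z.1)
      (by simp only [Γ0]; exact continuous_const) (fun a => Γc i a)
    exact this.comp (Continuous.prodMk_right 1)
  have ex : ∀ e a, f e = j a → ∃ i, Γ i a 1 = e := by
    intro e a h
    obtain ⟨Δ, d1, d2, d3⟩ := l1 e a h
    refine ⟨⟨Δ 0, by simp [d3, H0]⟩, ?_⟩
    rw [← d2]
    refine congr_fun (sep.eq_of_comp_eq inj (Γc _ a) d1 ?_ 0 (Γ0 _ a)) 1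
    funext t
    simp only [Function.comp, Γl, d3]
  have fσ : ∀ i a, f (Γ i a 1) = j a := fun i a => by rw [Γl, H1]
  rcases isEmpty_or_nonempty (f ⁻¹' {j a₀}) with hem | hne
  · refine .of_preimage_eq_empty _ (hj.isOpen_range.mem_nhds ⟨a₀, rfl⟩) ?_
    refine eq_empty_of_forall_notMem ?_
    rintro e ⟨a, ha⟩
    obtain ⟨i, -⟩ := ex e a ha.symm
    exact hem.elim i
  have hemb : ∀ i, Topology.IsOpenEmbedding fun a => Γ i a 1 := by
    intro i
    refine hf.isOpenEmbedding_of_comp ?_ (hσ i)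
    have : (f ∘ fun a => Γ i a 1) = j := funext fun a => fσ i a
    rw [this]; exact hj
  refine .of_trivialization (t := hj.isOpen_range.trivializationDiscrete
    (fun i => range fun a => Γ i a 1) (range j) ?_ ?_ ?_ ?_ ?_) ⟨a₀, rfl⟩
  · intro i W hW
    refine ⟨fun h => (h.preimage hf.continuous).inter (hemb i).isOpen_range, fun h => ?_⟩
    have h1 : W = j '' ((fun a => Γ i a 1) ⁻¹' (f ⁻¹' W ∩ range fun a => Γ i a 1)) := by
      ext x
      constructor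
      · intro hx
        obtain ⟨a, rfl⟩ := hW hx
        exact ⟨a, ⟨by simpa [fσ] using hx, a, rfl⟩, rfl⟩
      · rintro ⟨a, ⟨ha, -⟩, rfl⟩
        simpa [fσ] using ha
    rw [h1]
    exact hj.isOpenMap _ (h.preimage (hσ i))
  · rintro i _ ⟨a, rfl⟩ _ ⟨b, rfl⟩ h
    simp only [fσ] at h
    rw [hj.injective h]
  · rintro i _ ⟨a, rfl⟩
    exact ⟨_, ⟨a, rfl⟩, fσ i a⟩
  · intro i k hik
    refine Set.disjoint_left.mpr ?_
    rintro _ ⟨a, rfl⟩ ⟨b, hb⟩
    have hab : b = a := hj.injective (by rw [← fσ k b, ← fσ i a]; exact congrArg f hb)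
    subst hab
    have h1 : (fun a => Γ k a 1) = fun a => Γ i a 1 :=
      sep.eq_of_comp_eq inj (hσ k) (hσ i) (funext fun a => by simp [fσ]) b hb
    have h2 : ∀ i, Γ i a₀ 1 = i := fun i => by
      rw [← Γ0 i a₀]
      exact sep.const_of_comp inj (Γc i a₀) (fun t t' => by rw [Γl, Γl, Hc, Hc]) 1 0
    apply hik
    apply Subtype.ext
    rw [← h2 i, ← h2 k]
    exact (congr_fun h1 a₀).symm
  · rintro e ⟨a, ha⟩
    obtain ⟨i, hi⟩ := ex e a ha.symm
    exact mem_iUnion.mpr ⟨i, a, hi⟩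

end Vale.Agent.P255.Cv
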