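import Vale.Agent.P255.Spec
import Vale.Agent.P255.CTop

/-! Module C: the exponential map of a complete metric without conjugate points is a covering. -/

open scoped Manifold ContDiff Topology unitInterval
open Set Filter

namespace Vale.Agent.P255

namespace Cv

theorem equivOf (A : E3 →L[ℝ] E3) (h : Function.Injective A) :
    ∃ e : E3 ≃L[ℝ] E3, (e : E3 →L[ℝ] E3) = A :=
  ⟨(LinearEquiv.ofInjectiveEndo (A : E3 →ₗ[ℝ] E3) h).toContinuousLinearEquiv, by ext; rfl⟩

variable {M : Type} [TopologicalSpace M] [ChartedSpace E3 M] {g : M → Bil}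

theorem gloc (hc : ChartFacts g) (x : M) (u v : E3) :
    locB g x (chartAt E3 x x) u v = g x u v := by
  have := hc.pull x x (mem_chart_source E3 x) u v
  rwa [hc.self x] at this

theorem gsymm (hc : ChartFacts g) (x : M) (u v : E3) : g x u v = g x v u := by
  rw [← gloc hc, ← gloc hc]
  exact (hc.cm x).symm _ (mem_chart_target E3 x) u v

theorem gpos (hc : ChartFacts g) (x : M) (u : E3) (hu : u ≠ 0) : 0 < g x u u := by
  rw [← gloc hc]
  exact (hc.cm x).pos _ (mem_chart_target E3 x) u hu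

theorem gnn (hc : ChartFacts g) (x : M) (u : E3) : 0 ≤ g x u u := by
  by_cases hu : u = 0
  · simp [hu]
  · exact (gpos hc x u hu).le

theorem gamgm (hc : ChartFacts g) (x : M) (u v : E3) : |2 * g x u v| ≤ g x u u + g x v v := by
  have h1 := gnn hc x (u + v)
  have h2 := gnn hc x (u - v)
  have h3 := gsymm hc x u v
  simp only [map_add, map_sub, add_apply, sub_apply] at h1 h2
  rw [abs_le]
  constructor <;> linarith

/-- local form of the Gauss lemma computation -/
theorem gauss_loc (hA : AStmt) (hc : ChartFacts g) (hg : GeoFacts g) {γ : ℝ → M} {J : ℝ → E3}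
    (hγ : IsGeodesic (un g) γ) (hJ : IsJacobi (un g) γ J) (a : M) (s : ℝ)
    (hs : γ s ∈ (chartAt E3 a).source) :
    HasDerivAt (fun r => g (γ r) (J r) (vel γ r))
      (locB g a (chartAt E3 a (γ s))
        (covD (ub (locB g a)) (fun r => chartAt E3 a (γ r)) (locVec a γ J) s)
        (deriv (fun r => chartAt E3 a (γ r)) s)) s := by
  obtain ⟨-, -, -, -, hC, -⟩ := hA
  have hgeo := hγ.2 a s hs
  have hjac := hJ a s hs
  rw [loc_un] at hgeo hjac
  have h1 := hC _ _ (hc.cm a) (fun r => chartAt E3 a (γ r)) (locVec a γ J)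
    (deriv fun r => chartAt E3 a (γ r)) s ((chartAt E3 a).map_source hs) hgeo.1 hjac.1 hgeo.2.1
  rw [hgeo.2.2, map_zero, add_zero] at h1
  refine h1.congr_of_eventuallyEq ?_
  filter_upwards [hγ.1.continuousAt.preimage_mem_nhds ((chartAt E3 a).open_source.mem_nhds hs)]
    with r hr
  rw [hg.dv γ hγ a r hr, locVec_eq, hc.pull a _ hr]

theorem gauss_two (hA : AStmt) (hc : ChartFacts g) (hg : GeoFacts g) {γ : ℝ → M} {J : ℝ → E3}
    (hγ : IsGeodesic (un g) γ) (hJ : IsJacobi (un g) γ J) (s : ℝ) :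
    HasDerivAt (deriv fun r => g (γ r) (J r) (vel γ r)) 0 s := by
  have hA' := hA
  obtain ⟨-, -, -, -, hC, hS⟩ := hA'
  obtain ⟨a, hs⟩ : ∃ a, γ s ∈ (chartAt E3 a).source := ⟨_, mem_chart_source E3 _⟩
  have hgeo := hγ.2 a s hs
  have hjac := hJ a s hs
  rw [loc_un] at hgeo hjac
  have h1 := hC _ _ (hc.cm a) (fun r => chartAt E3 a (γ r))
    (covD (ub (locB g a)) (fun r => chartAt E3 a (γ r)) (locVec a γ J))
    (deriv fun r => chartAt E3 a (γ r)) s ((chartAt E3 a).map_source hs) hgeo.1 hjac.2.1 hgeo.2.1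
  rw [hgeo.2.2, map_zero, add_zero, eq_neg_of_add_eq_zero_left hjac.2.2, map_neg, neg_apply,
    hS _ _ (hc.cm a) _ ((chartAt E3 a).map_source hs), neg_zero] at h1
  refine h1.congr_of_eventuallyEq ?_
  filter_upwards [hγ.1.continuousAt.preimage_mem_nhds ((chartAt E3 a).open_source.mem_nhds hs)]
    with r hr
  exact (gauss_loc hA hc hg hγ hJ a r hr).deriv

/-- the Gauss lemma -/
theorem gauss (hA : AStmt) (hc : ChartFacts g) (hg : GeoFacts g) {γ : ℝ → M} {J : ℝ → E3}
    (hγ : IsGeodesic (un g) γ) (hJ : IsJacobi (un g) γ J) {p : M} (h0 : γ 0 = p) (hJ0 : J 0 = 0) :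
    g (γ 1) (J 1) (vel γ 1) = g p (deriv (locVec p γ J) 0) (vel γ 0) := by
  subst h0
  set h : ℝ → ℝ := fun r => g (γ r) (J r) (vel γ r) with hh
  have hd : ∀ s, HasDerivAt h (deriv h s) s := fun s =>
    (gauss_loc hA hc hg hγ hJ (γ s) s (mem_chart_source E3 _)).differentiableAt.hasDerivAt
  have h2 : ∀ s, deriv h s = deriv h 0 := fun s =>
    is_const_of_deriv_eq_zero (fun s => (gauss_two hA hc hg hγ hJ s).differentiableAt)
      (fun s => (gauss_two hA hc hg hγ hJ s).deriv) s 0
  have h3 : ∀ s, HasDerivAt (fun r => h r - r * deriv h 0) 0 s := fun s => by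
    have := (hd s).sub ((hasDerivAt_id s).mul_const (deriv h 0))
    rw [h2 s, one_mul, sub_self] at this
    exact this
  have h4 := is_const_of_deriv_eq_zero (fun s => (h3 s).differentiableAt)
    (fun s => (h3 s).deriv) 1 0
  have h5 : h 0 = 0 := by simp [hh, hJ0]
  have h6 : h 1 = deriv h 0 := by
    simp only [one_mul, zero_mul, h5] at h4
    linarith
  change h 1 = _
  rw [h6, (gauss_loc hA hc hg hγ hJ (γ 0) 0 (mem_chart_source E3 _)).deriv, gloc hc]
  obtain ⟨Γ, hΓ⟩ := hA.1 _ _ (hc.cm (γ 0))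
  have h7 : locVec (γ 0) γ J 0 = 0 := by rw [locVec_eq, hJ0, map_zero]
  simp only [covD]
  rw [hΓ.eq _ (mem_chart_target E3 _), h7, map_zero, add_zero]
  rfl

variable {geo : M → E3 → ℝ → M}

theorem dinj (hf : GeoFam g geo) (he : ExpC1 g geo) (hn : NoConjugatePoints (un g)) (p : M)
    (v : E3) :
    Function.Injective (fderiv ℝ (fun v' => chartAt E3 (geo p v 1) (geo p v' 1)) v) := by
  refine (injective_iff_map_eq_zero _).mpr fun w hw => ?_
  obtain ⟨J, h1, h2, h3, h4⟩ := (he p v).2.2 w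
  have h5 := hn (geo p v) J (hf p v).1 h1 0 1 zero_ne_one h2 (h4.trans hw)
  have h6 : locVec p (geo p v) J = fun _ => 0 := by
    funext s
    have : J s = 0 := h5 s
    rw [locVec_eq, this, map_zero]
  rw [← h3, h6, deriv_const]

theorem locHomeo (hf : GeoFam g geo) (he : ExpC1 g geo) (hn : NoConjugatePoints (un g)) (p : M) :
    IsLocalHomeomorph fun v => geo p v 1 := by
  have hcont : Continuous fun v => geo p v 1 :=
    continuous_iff_continuousAt.mpr fun v => (he p v).1
  refine IsLocalHomeomorph.mk _ fun v => ?_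
  obtain ⟨A, hA⟩ := equivOf _ (dinj hf he hn p v)
  have h1 := (he p v).2.1
  have h2 : HasFDerivAt (fun v' => chartAt E3 (geo p v 1) (geo p v' 1)) (A : E3 →L[ℝ] E3) v := by
    rw [hA]; exact (h1.differentiableAt one_ne_zero).hasFDerivAt
  refine ⟨((h1.toOpenPartialHomeomorph _ h2 one_ne_zero).trans
    (chartAt E3 (geo p v 1)).symm).restrOpen _
      ((chartAt E3 (geo p v 1)).open_source.preimage hcont), ?_, ?_⟩
  · refine ⟨⟨h1.mem_toOpenPartialHomeomorph_source h2 one_ne_zero, ?_⟩, mem_chart_source E3 _⟩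
    exact mem_chart_target E3 _
  · intro v' hv'
    exact ((chartAt E3 (geo p v 1)).left_inv hv'.2).symm

/-- the derivative of the exponential map in any chart, with the Gauss estimate -/
theorem keyLoc (hA : AStmt) (hc : ChartFacts g) (hg : GeoFacts g) (hf : GeoFam g geo)
    (he : ExpC1 g geo) (hn : NoConjugatePoints (un g)) (p : M) (v : E3) (a : M)
    (ha : geo p v 1 ∈ (chartAt E3 a).source) :
    ∃ A : E3 ≃L[ℝ] E3, HasFDerivAt (fun v' => chartAt E3 a (geo p v' 1)) (A : E3 →L[ℝ] E3) v ∧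
      ∀ w, |2 * g p w v| ≤ locB g a (chartAt E3 a (geo p v 1)) (A w) (A w) + g p v v := by
  set x := geo p v 1 with hx
  set F := fderiv ℝ (fun v' => chartAt E3 x (geo p v' 1)) v with hF
  obtain ⟨A, hAe⟩ := equivOf ((D a x).comp F) ((hc.bij a x ha).1.comp (dinj hf he hn p v))
  refine ⟨A, ?_, fun w => ?_⟩
  · have h1 : HasFDerivAt (fun v' => chartAt E3 x (geo p v' 1)) F v :=
      ((he p v).2.1.differentiableAt one_ne_zero).hasFDerivAt
    have hm : chartAt E3 x x ∈
        (chartAt E3 x).target ∩ (chartAt E3 x).symm ⁻¹' (chartAt E3 a).source :=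
      ⟨mem_chart_target E3 x, by
        rw [mem_preimage, (chartAt E3 x).left_inv (mem_chart_source E3 x)]; exact ha⟩
    have ho : IsOpen ((chartAt E3 x).target ∩ (chartAt E3 x).symm ⁻¹' (chartAt E3 a).source) :=
      (chartAt E3 x).symm.isOpen_inter_preimage (chartAt E3 a).open_source
    have h2 := (((hc.sm x a).contDiffAt (ho.mem_nhds hm)).differentiableAt (by simp)).hasFDerivAt
    have h3 := hc.chg x a x (mem_chart_source E3 x) ha
    rw [hc.self x, ContinuousLinearMap.comp_id] at h3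
    rw [← h3] at h2
    have h4 := h2.comp v h1
    rw [hAe]
    refine h4.congr_of_eventuallyEq ?_
    filter_upwards [(he p v).1.preimage_mem_nhds
      ((chartAt E3 x).open_source.mem_nhds (mem_chart_source E3 x))] with v' hv'
    simp only [Function.comp]
    rw [(chartAt E3 x).left_inv hv']
  · obtain ⟨J, h1, h2, h3, h4⟩ := (he p v).2.2 w
    have h5 := gauss hA hc hg (hf p v).1 h1 (hf p v).2.1 h2
    rw [h3, (hf p v).2.2, h4] at h5
    have h6 := hg.speed _ (hf p v).1 1
    rw [(hf p v).2.1, (hf p v).2.2] at h6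
    have h7 : A w = D a x (F w) := by
      have := congrArg (fun B : E3 →L[ℝ] E3 => B w) hAe
      exact this
    rw [h7, hc.pull a x ha, ← h5, ← h6]
    exact gamgm hc _ _ _

theorem compactBall (B : Bil) (hB : ∀ u, u ≠ 0 → 0 < B u u) (R : ℝ) :
    IsCompact {v : E3 | B v v ≤ R} := by
  have hcont : Continuous fun v : E3 => B v v := by fun_prop
  obtain ⟨u, hu, hmin⟩ := (isCompact_sphere (0 : E3) 1).exists_isMinOn
    (NormedSpace.sphere_nonempty.mpr zero_le_one) hcont.continuousOn
  have hu0 : u ≠ 0 := by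
    rintro rfl
    simp at hu
  have hm := hB u hu0
  have hlow : ∀ v : E3, B u u * ‖v‖ ^ 2 ≤ B v v := by
    intro v
    by_cases hv : v = 0
    · simp [hv]
    · have hn : 0 < ‖v‖ := norm_pos_iff.mpr hv
      have h1 : (‖v‖⁻¹ • v) ∈ Metric.sphere (0 : E3) 1 := by
        simp [norm_smul, hn.ne']
      have h2 : B u u ≤ B (‖v‖⁻¹ • v) (‖v‖⁻¹ • v) := hmin h1
      simp only [map_smul, smul_apply, smul_eq_mul] at h2
      have h3 : ‖v‖⁻¹ * (‖v‖⁻¹ * B v v) * ‖v‖ ^ 2 = B v v := by field_simp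
      rw [← h3]
      gcongr
  refine Metric.isCompact_of_isClosed_isBounded (isClosed_le hcont continuous_const) ?_
  refine (Metric.isBounded_closedBall (x := (0 : E3)) (r := R / B u u + 1)).subset ?_
  intro v hv
  rw [mem_closedBall_zero_iff]
  have h1 : ‖v‖ ^ 2 ≤ R / B u u := by
    rw [le_div_iff₀ hm]
    linarith [hlow v, show B v v ≤ R from hv]
  nlinarith [sq_nonneg (‖v‖ - 1), norm_nonneg v]

/-- segments in a chart lift -/
theorem liftSeg [T2Space M] (hA : AStmt) (hc : ChartFacts g) (hg : GeoFacts g)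
    (hf : GeoFam g geo) (he : ExpC1 g geo) (hn : NoConjugatePoints (un g)) (p a : M) (y d : E3)
    (hseg : ∀ t ∈ Icc (0 : ℝ) 1, y + t • d ∈ (chartAt E3 a).target) (e : E3)
    (hfe : geo p e 1 = (chartAt E3 a).symm y) :
    ∃ Γ : ℝ → E3, ContinuousOn Γ (Icc 0 1) ∧ Γ 0 = e ∧
      ∀ t ∈ Icc (0 : ℝ) 1, geo p (Γ t) 1 = (chartAt E3 a).symm (y + t • d) := by
  have hl : Continuous fun t : ℝ => y + t • d := by fun_prop
  have hb : ContinuousOn (fun t : ℝ => locB g a (y + t • d) d d) (Icc 0 1) := by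
    have h1 : ContinuousOn (fun t : ℝ => locB g a (y + t • d)) (Icc 0 1) :=
      (hc.cm a).smooth.continuousOn.comp hl.continuousOn hseg
    exact (h1.clm_apply continuousOn_const).clm_apply continuousOn_const
  obtain ⟨C, hC⟩ := isCompact_Icc.bddAbove_image hb
  have hC' : ∀ t ∈ Icc (0 : ℝ) 1, locB g a (y + t • d) d d ≤ max C 0 := fun t ht =>
    (hC ⟨t, ht, rfl⟩).trans (le_max_left _ _)
  have hcont : Continuous fun v : E3 => g p v v := by fun_prop
  refine lift_of_compact (locHomeo hf he hn p) (c := fun t => (chartAt E3 a).symm (y + t • d))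
    ((chartAt E3 a).continuousOn_symm.comp hl.continuousOn hseg) (by simpa using hfe)
    (compactBall (g p) (gpos hc p) (gronwallBound (g p e e) 1 (max C 0) 1))
    (isClosed_le hcont continuous_const) ?_
  intro s hs Γ h1 h2 h3
  have hsub : Icc 0 s ⊆ Icc (0 : ℝ) 1 := Icc_subset_Icc le_rfl hs.2
  have hder : ∀ t ∈ Ico 0 s, ∃ N' : ℝ, HasDerivWithinAt (fun r => g p (Γ r) (Γ r)) N' (Ici t) t ∧
      ‖N'‖ ≤ 1 * ‖g p (Γ t) (Γ t)‖ + max C 0 := by
    intro t ht
    have ht' : t ∈ Icc 0 s := Ico_subset_Icc_self ht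
    have hsrc : geo p (Γ t) 1 ∈ (chartAt E3 a).source := by
      rw [h3 t ht']; exact (chartAt E3 a).map_target (hseg t (hsub ht'))
    obtain ⟨A, hA1, hA2⟩ := keyLoc hA hc hg hf he hn p (Γ t) a hsrc
    have hℓ : HasDerivWithinAt (fun r : ℝ => y + r • d) d (Icc 0 s) t := by
      simpa using (((hasDerivAt_id t).smul_const d).const_add y).hasDerivWithinAt
    have hΓ := HasFDerivWithinAt.of_comp_of_leftInverse (g := Γ) (s := Icc 0 s) (t := univ)
      (f'symm := (A.symm : E3 →L[ℝ] E3)) (by rw [nhdsWithin_univ]; exact h1 t ht')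
      hA1.hasFDerivWithinAt hℓ.hasFDerivWithinAt
      (eventuallyEq_nhdsWithin_of_eqOn fun r hr => by
        simp only [Function.comp]
        rw [h3 r hr, (chartAt E3 a).right_inv (hseg r (hsub hr))])
      A.symm_apply_apply ht'
    have hΓ' : HasDerivWithinAt Γ (A.symm d) (Ici t) t := by
      have := hΓ.hasDerivWithinAt
      simp only [ContinuousLinearMap.comp_apply, ContinuousLinearMap.toSpanSingleton_apply,
        one_smul, ContinuousLinearEquiv.coe_coe] at this
      exact this.mono_of_mem_nhdsWithin (Icc_mem_nhdsGE_of_mem ht)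
    have hN := ((g p).hasFDerivAt.comp_hasDerivWithinAt t hΓ').clm_apply hΓ'
    refine ⟨_, hN, ?_⟩
    have h4 := hA2 (A.symm d)
    rw [A.apply_symm_apply, h3 t ht', (chartAt E3 a).right_inv (hseg t (hsub ht'))] at h4
    simp only [Function.comp, Real.norm_eq_abs]
    rw [gsymm hc p (Γ t) (A.symm d), ← two_mul, abs_of_nonneg (gnn hc p (Γ t))]
    linarith [hC' t (hsub ht')]
  choose! N' hN1 hN2 using hder
  have hG := norm_le_gronwallBound_of_norm_deriv_right_le (δ := g p e e)
    (hcont.comp_continuousOn h1) hN1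
    (by simp only [Function.comp, h2, Real.norm_eq_abs, abs_of_nonneg (gnn hc p e), le_refl])
    hN2 s ⟨hs.1, le_rfl⟩
  have hm := gronwallBound_mono (gnn hc p e) (le_max_right C 0) zero_le_one
    (show s - 0 ≤ 1 by linarith [hs.2])
  exact (le_abs_self _).trans (hG.trans hm)

end Cv

open Cv in
theorem cStmt (hA : AStmt) : CStmt := by
  intro M _ _ _ g geo hc hg hf he hn p x
  obtain ⟨r, hr, hball⟩ := Metric.isOpen_iff.mp (chartAt E3 x).open_target _
    (mem_chart_target E3 x)
  set y₀ := chartAt E3 x x with hy₀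
  have hconv := convex_ball y₀ r
  have : PreconnectedSpace (Metric.ball y₀ r) :=
    isPreconnected_iff_preconnectedSpace.mp hconv.isPreconnected
  have hseg : ∀ a ∈ Metric.ball y₀ r, ∀ b ∈ Metric.ball y₀ r, ∀ t ∈ Icc (0 : ℝ) 1,
      a + t • (b - a) ∈ Metric.ball y₀ r := fun a ha b hb t ht =>
    hconv.add_smul_sub_mem ha hb ht
  have h0 : y₀ ∈ Metric.ball y₀ r := Metric.mem_ball_self hr
  have hj : Topology.IsOpenEmbedding
      fun a : Metric.ball y₀ r => (chartAt E3 x).symm (a : E3) := by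
    have h1 := (chartAt E3 x).symm.isOpenEmbedding_restrict
    have h2 : Topology.IsOpenEmbedding (inclusion hball) :=
      .inclusion hball (Metric.isOpen_ball.preimage continuous_subtype_val)
    exact h1.comp h2
  have hx : x = (chartAt E3 x).symm y₀ := ((chartAt E3 x).left_inv (mem_chart_source E3 x)).symm
  have := evenly (locHomeo hf he hn p) hj ⟨y₀, h0⟩
    ⟨fun z => ⟨y₀ + (z.1 : ℝ) • ((z.2 : E3) - y₀), hseg _ h0 _ z.2.2 _ z.1.2⟩, by fun_prop⟩
    (fun a => by ext1; simp) (fun a => by ext1; simp) (fun t => by ext1; simp) ?_ ?_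
  · simp only at this
    rwa [← hx] at this
  · intro e hfe a
    obtain ⟨Γ, h1, h2, h3⟩ := liftSeg hA hc hg hf he hn p x y₀ (a - y₀)
      (fun t ht => hball (hseg _ h0 _ a.2 t ht)) e hfe
    exact ⟨fun t => Γ t, h1.comp_continuous continuous_subtype_val fun t => t.2, h2,
      fun t => h3 t t.2⟩
  · intro e a hfe
    obtain ⟨Γ, h1, h2, h3⟩ := liftSeg hA hc hg hf he hn p x a (y₀ - a)
      (fun t ht => hball (hseg _ a.2 _ h0 t ht)) e hfe
    refine ⟨fun t => Γ (unitInterval.symm t),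
      h1.comp_continuous (by fun_prop) fun t => (unitInterval.symm t).2, by simpa using h2,
      fun t => ?_⟩
    rw [h3 _ (unitInterval.symm t).2]
    congr 1
    simp only [unitInterval.coe_symm_eq, ContinuousMap.coe_mk]
    module

end Vale.Agent.P255
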