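import Vale.Agent.P255.Spec

open Set

namespace Vale.Agent.P255

variable {M : Type} [TopologicalSpace M]

/-- lifts of maps from `E3` -/
theorem exists_lift {f : E3 → M} (hf : IsCoveringMap f) {k : E3 → M} (hk : Continuous k)
    (a e : E3) (he : f e = k a) : ∃ F : E3 → E3, Continuous F ∧ F a = e ∧ ∀ z, f (F z) = k z := by
  obtain ⟨F, ⟨h1, h2⟩, -⟩ := hf.existsUnique_continuousMap_lifts ⟨k, hk⟩ a e he
  exact ⟨F, F.continuous, h1, fun z => congrFun h2 z⟩

/-- uniqueness of lifts -/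
theorem lift_unique {A : Type} [TopologicalSpace A] [PreconnectedSpace A] {f : E3 → M}
    (hf : IsCoveringMap f) {F₁ F₂ : A → E3} (h1 : Continuous F₁) (h2 : Continuous F₂)
    (h : ∀ z, f (F₁ z) = f (F₂ z)) (a : A) (ha : F₁ a = F₂ a) : ∀ z, F₁ z = F₂ z :=
  fun z => congrFun (hf.eq_of_comp_eq h1 h2 (funext h) a ha) z

/-- two universal covers are isomorphic -/
theorem exists_homeo {f k : E3 → M} (hf : IsCoveringMap f) (hk : IsCoveringMap k)
    (a e : E3) (he : f e = k a) : ∃ F : E3 ≃ₜ E3, F a = e ∧ ∀ z, f (F z) = k z := by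
  obtain ⟨F, hF, F0, F1⟩ := exists_lift hf hk.continuous a e he
  obtain ⟨H, hH, H0, H1⟩ := exists_lift hk hf.continuous e a he.symm
  have e1 : ∀ z, H (F z) = z := lift_unique hk (hH.comp hF) continuous_id
    (fun z => by simp [H1, F1]) a (by simp [F0, H0])
  have e2 : ∀ z, F (H z) = z := lift_unique hf (hF.comp hH) continuous_id
    (fun z => by simp [H1, F1]) e (by simp [F0, H0])
  exact ⟨⟨⟨F, H, e1, e2⟩, hF, hH⟩, F0, F1⟩

theorem exists_deck {f : E3 → M} (hf : IsCoveringMap f) {z z' : E3} (h : f z = f z') :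
    ∃ φ : E3 ≃ₜ E3, Deck f φ ∧ φ z = z' := by
  obtain ⟨F, h1, h2⟩ := exists_homeo hf hf z z' h.symm
  exact ⟨F, h2, h1⟩

/-- deck maps that agree at a point agree everywhere -/
theorem deck_ext {f : E3 → M} (hf : IsCoveringMap f) {F₁ F₂ : E3 → E3} (h1 : Continuous F₁)
    (h2 : Continuous F₂) (d1 : ∀ z, f (F₁ z) = f z) (d2 : ∀ z, f (F₂ z) = f z) (a : E3)
    (ha : F₁ a = F₂ a) : ∀ z, F₁ z = F₂ z :=
  lift_unique hf h1 h2 (fun z => by rw [d1, d2]) a ha

theorem deck_fix {f : E3 → M} (hf : IsCoveringMap f) {φ : E3 ≃ₜ E3} (hφ : Deck f φ) {a : E3}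
    (ha : φ a = a) : ∀ z, φ z = z :=
  deck_ext hf φ.continuous continuous_id hφ (fun _ => rfl) a ha

omit [TopologicalSpace M] in
theorem Deck.symm {f : E3 → M} {φ : E3 ≃ₜ E3} (hφ : Deck f φ) : Deck f φ.symm := fun z => by
  have := hφ (φ.symm z)
  rw [φ.apply_symm_apply] at this
  exact this.symm

omit [TopologicalSpace M] in
theorem Deck.trans {f : E3 → M} {φ ψ : E3 ≃ₜ E3} (hφ : Deck f φ) (hψ : Deck f ψ) :
    Deck f (φ.trans ψ) := fun z => by
  rw [Homeomorph.trans_apply, hψ, hφ]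

end Vale.Agent.P255
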