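import Mathlib

open scoped Manifold ContDiff

namespace Vale.Agent.P255

variable {E : Type} [NormedAddCommGroup E] [NormedSpace ℝ E]

/-- Christoffel symbols of the first kind of the coordinate metric `G` at `y`:
`(∂_u G(v,w) + ∂_v G(u,w) - ∂_w G(u,v)) / 2`. -/
noncomputable def koszul (G : E → E → E → ℝ) (y u v w : E) : ℝ :=
  (fderiv ℝ (fun z => G z v w) y u + fderiv ℝ (fun z => G z u w) y v
    - fderiv ℝ (fun z => G z u v) y w) / 2

/-- Christoffel symbols of the second kind: `Γ_y(u,v)` is the vector `x` with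
`G_y(x,w) = koszul G y u v w` for all `w`. -/
noncomputable def chr (G : E → E → E → ℝ) (y u v : E) : E :=
  Classical.epsilon fun x => ∀ w, G y x w = koszul G y u v w

/-- Curvature tensor `R(u,v)w` at `y` in coordinates. -/
noncomputable def riem (G : E → E → E → ℝ) (y u v w : E) : E :=
  fderiv ℝ (fun z => chr G z v w) y u - fderiv ℝ (fun z => chr G z u w) y v
    + chr G y u (chr G y v w) - chr G y v (chr G y u w)

/-- Covariant derivative of `j` along `c` in coordinates. -/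
noncomputable def covD (G : E → E → E → ℝ) (c j : ℝ → E) (s : ℝ) : E :=
  deriv j s + chr G (c s) (deriv c s) (j s)

/-- The geodesic equation at time `s` in coordinates. -/
def GeoAt (G : E → E → E → ℝ) (c : ℝ → E) (s : ℝ) : Prop :=
  DifferentiableAt ℝ c s ∧ DifferentiableAt ℝ (deriv c) s ∧ covD G c (deriv c) s = 0

/-- The Jacobi equation `J'' + R(J, c')c' = 0` at time `s` in coordinates. -/
def JacAt (G : E → E → E → ℝ) (c j : ℝ → E) (s : ℝ) : Prop :=
  DifferentiableAt ℝ j s ∧ DifferentiableAt ℝ (covD G c j) s ∧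
    covD G c (covD G c j) s + riem G (c s) (j s) (deriv c s) (deriv c s) = 0

variable {M : Type} [TopologicalSpace M] [ChartedSpace E M]

/-- The metric `g` read in the chart at `a`. -/
noncomputable def loc (g : (x : M) → TangentSpace 𝓘(ℝ, E) x → TangentSpace 𝓘(ℝ, E) x → ℝ)
    (a : M) (y u v : E) : ℝ :=
  g ((chartAt E a).symm y) (mfderiv 𝓘(ℝ, E) 𝓘(ℝ, E) (chartAt E a).symm y u)
    (mfderiv 𝓘(ℝ, E) 𝓘(ℝ, E) (chartAt E a).symm y v)

/-- A vector field `J` along `γ` read in the chart at `a`. -/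
noncomputable def locVec (a : M) (γ : ℝ → M) (J : (s : ℝ) → TangentSpace 𝓘(ℝ, E) (γ s))
    (s : ℝ) : E :=
  mfderiv 𝓘(ℝ, E) 𝓘(ℝ, E) (chartAt E a) (γ s) (J s)

/-- `γ` is continuous and solves the geodesic equation in every chart of the atlas `chartAt`. -/
def IsGeodesic (g : (x : M) → TangentSpace 𝓘(ℝ, E) x → TangentSpace 𝓘(ℝ, E) x → ℝ)
    (γ : ℝ → M) : Prop :=
  Continuous γ ∧ ∀ (a : M) (s : ℝ), γ s ∈ (chartAt E a).source →
    GeoAt (loc g a) (fun r => chartAt E a (γ r)) s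

/-- `J` solves the Jacobi equation along `γ` in every chart of the atlas `chartAt`. -/
def IsJacobi (g : (x : M) → TangentSpace 𝓘(ℝ, E) x → TangentSpace 𝓘(ℝ, E) x → ℝ)
    (γ : ℝ → M) (J : (s : ℝ) → TangentSpace 𝓘(ℝ, E) (γ s)) : Prop :=
  ∀ (a : M) (s : ℝ), γ s ∈ (chartAt E a).source →
    JacAt (loc g a) (fun r => chartAt E a (γ r)) (locVec a γ J) s

/-- No nonzero Jacobi field along a geodesic vanishes at two distinct times. -/
def NoConjugatePoints (g : (x : M) → TangentSpace 𝓘(ℝ, E) x → TangentSpace 𝓘(ℝ, E) x → ℝ) :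
    Prop :=
  ∀ (γ : ℝ → M) (J : (s : ℝ) → TangentSpace 𝓘(ℝ, E) (γ s)), IsGeodesic g γ → IsJacobi g γ J →
    ∀ s₁ s₂ : ℝ, s₁ ≠ s₂ → J s₁ = 0 → J s₂ = 0 → ∀ s, J s = 0

/-- Nonpositive sectional curvature: `g(R(u,v)v,u) ≤ 0` at every point of every chart. -/
def NonposCurvature (g : (x : M) → TangentSpace 𝓘(ℝ, E) x → TangentSpace 𝓘(ℝ, E) x → ℝ) :
    Prop :=
  ∀ (a : M) (y : E), y ∈ (chartAt E a).target → ∀ u v : E,
    loc g a y (riem (loc g a) y u v v) u ≤ 0

variable (E M) in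
/-- Smooth Riemannian metrics on `M` (Mathlib's notion). -/
abbrev Metric [IsManifold 𝓘(ℝ, E) ∞ M] : Type :=
  Bundle.ContMDiffRiemannianMetric 𝓘(ℝ, E) ∞ E (fun x : M => TangentSpace 𝓘(ℝ, E) x)

/-- The scalar product of a Riemannian metric. -/
noncomputable def ip [IsManifold 𝓘(ℝ, E) ∞ M] (g : Metric E M) (x : M)
    (v w : TangentSpace 𝓘(ℝ, E) x) : ℝ :=
  g.inner x v w

/-- The model space. -/
abbrev E3 : Type := EuclideanSpace ℝ (Fin 3)

end Vale.Agent.P255
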