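import Vale.Agent.P255.Spec

/-! P255, module E: complete geodesics on compact manifolds. -/

open scoped Manifold ContDiff Topology
open Set Filter

namespace Vale.Agent.P255

namespace Ex

theorem geo_congr {G : E3 → E3 → E3 → ℝ} {c c' : ℝ → E3} {s : ℝ} (e : c =ᶠ[𝓝 s] c')
    (h : GeoAt G c s) : GeoAt G c' s := by
  refine ⟨h.1.congr_of_eventuallyEq e.symm, h.2.1.congr_of_eventuallyEq e.deriv.symm, ?_⟩
  have := h.2.2
  rwa [covD, e.deriv.deriv_eq, e.eq_of_nhds, e.deriv_eq] at this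

theorem geo_shift {G : E3 → E3 → E3 → ℝ} {c : ℝ → E3} {s β : ℝ} (h : GeoAt G c (s + β)) :
    GeoAt G (fun r => c (r + β)) s := by
  have e : deriv (fun r => c (r + β)) = fun r => deriv c (r + β) :=
    funext fun r => deriv_comp_add_const _ _ _
  refine ⟨differentiableAt_comp_add_const.2 h.1, ?_, ?_⟩
  · rw [e]
    exact differentiableAt_comp_add_const.2 h.2.1
  · rw [covD, e, deriv_comp_add_const]
    exact h.2.2

theorem dfst {z : ℝ → E3 × E3} {w : E3 × E3} {s : ℝ} (h : HasDerivAt z w s) :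
    HasDerivAt (fun r => (z r).1) w.1 s :=
  (ContinuousLinearMap.fst ℝ E3 E3).hasFDerivAt.comp_hasDerivAt s h

theorem dsnd {z : ℝ → E3 × E3} {w : E3 × E3} {s : ℝ} (h : HasDerivAt z w s) :
    HasDerivAt (fun r => (z r).2) w.2 s :=
  (ContinuousLinearMap.snd ℝ E3 E3).hasFDerivAt.comp_hasDerivAt s h

/-- the geodesic field -/
noncomputable def fld (Γ : E3 → E3 →L[ℝ] E3 →L[ℝ] E3) (z : E3 × E3) : E3 × E3 :=
  (z.2, -Γ z.1 z.2 z.2)

theorem fld_smooth {G : E3 → Bil} {Ω : Set E3} {Γ} (h : IsGam G Ω Γ) :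
    ContDiffOn ℝ ∞ (fld Γ) (Ω ×ˢ univ) :=
  contDiffOn_snd.prodMk (((h.smooth.comp contDiffOn_fst fun _ hz => hz.1).clm_apply
    contDiffOn_snd).clm_apply contDiffOn_snd).neg

theorem geo_fld {G : E3 → Bil} {Ω : Set E3} {Γ} (h : IsGam G Ω Γ) {c : ℝ → E3} {s : ℝ}
    (h1 : c s ∈ Ω) (h2 : GeoAt (ub G) c s) :
    HasDerivAt (fun r => (c r, deriv c r)) (fld Γ (c s, deriv c s)) s := by
  have := h2.2.2
  rw [covD, h.eq _ h1, add_eq_zero_iff_eq_neg] at this
  exact h2.1.hasDerivAt.prodMk (this ▸ h2.2.1.hasDerivAt)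

theorem fld_geo {G : E3 → Bil} {Ω : Set E3} {Γ} (h : IsGam G Ω Γ) {z : ℝ → E3 × E3} {s : ℝ}
    (h1 : (z s).1 ∈ Ω) (h2 : ∀ᶠ r in 𝓝 s, HasDerivAt z (fld Γ (z r)) r) :
    GeoAt (ub G) (fun r => (z r).1) s := by
  have e : deriv (fun r => (z r).1) =ᶠ[𝓝 s] fun r => (z r).2 := h2.mono fun r hr => (dfst hr).deriv
  have h3 := h2.self_of_nhds
  refine ⟨(dfst h3).differentiableAt, (dsnd h3).differentiableAt.congr_of_eventuallyEq e, ?_⟩
  rw [covD, e.deriv_eq, e.eq_of_nhds, (dsnd h3).deriv, h.eq _ h1]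
  exact neg_add_cancel _

variable {M : Type} [TopologicalSpace M] [ChartedSpace E3 M] {g : M → Bil}

variable (g) in
/-- geodesic at one time -/
def GP (γ : ℝ → M) (s : ℝ) : Prop :=
  ContinuousAt γ s ∧ ∀ a : M, γ s ∈ (chartAt E3 a).source →
    GeoAt (ub (locB g a)) (fun r => chartAt E3 a (γ r)) s

theorem GP.congr {γ γ' : ℝ → M} {s : ℝ} (h : GP g γ s) (e : γ =ᶠ[𝓝 s] γ') : GP g γ' s :=
  ⟨h.1.congr e, fun a ha => geo_congr (e.fun_comp (chartAt E3 a)) (h.2 a (e.eq_of_nhds ▸ ha))⟩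

theorem vel_congr {γ γ' : ℝ → M} {s : ℝ} (e : γ =ᶠ[𝓝 s] γ') : vel γ s = vel γ' s := by
  rw [vel, vel, e.eq_of_nhds]
  exact (e.fun_comp (chartAt E3 (γ' s))).deriv_eq

theorem GP.shift {γ : ℝ → M} {s β : ℝ} (h : GP g γ (s + β)) : GP g (fun r => γ (r + β)) s :=
  ⟨h.1.comp_of_eq (f := fun r => r + β) (by fun_prop) rfl, fun a ha => geo_shift (h.2 a ha)⟩

theorem vel_shift (γ : ℝ → M) (s β : ℝ) : vel (fun r => γ (r + β)) s = vel γ (s + β) :=
  deriv_comp_add_const (fun r => chartAt E3 (γ (s + β)) (γ r)) _ _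

theorem ov_open (a b : M) :
    IsOpen ((chartAt E3 a).target ∩ (chartAt E3 a).symm ⁻¹' (chartAt E3 b).source) :=
  (chartAt E3 a).isOpen_inter_preimage_symm (chartAt E3 b).open_source

theorem tau_diff (hc : ChartFacts g) {a b : M} {y : E3} (h1 : y ∈ (chartAt E3 a).target)
    (h2 : (chartAt E3 a).symm y ∈ (chartAt E3 b).source) :
    DifferentiableAt ℝ (fun y => chartAt E3 b ((chartAt E3 a).symm y)) y :=
  ((hc.sm a b).contDiffAt ((ov_open a b).mem_nhds ⟨h1, h2⟩)).differentiableAt (by simp)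

theorem GP.dv (hc : ChartFacts g) {γ : ℝ → M} {s : ℝ} (h : GP g γ s) {a : M}
    (ha : γ s ∈ (chartAt E3 a).source) :
    deriv (fun r => chartAt E3 a (γ r)) s = D a (γ s) (vel γ s) := by
  have h0 := mem_chart_source E3 (γ s)
  have e : (fun r => chartAt E3 a (γ r)) =ᶠ[𝓝 s]
      (fun y => chartAt E3 a ((chartAt E3 (γ s)).symm y)) ∘ fun r => chartAt E3 (γ s) (γ r) := by
    filter_upwards [h.1.eventually ((chartAt E3 (γ s)).open_source.mem_nhds h0)] with r hr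
    simp only [Function.comp, (chartAt E3 (γ s)).left_inv hr]
  rw [e.deriv_eq, hc.chg (γ s) a (γ s) h0 ha, hc.self]
  exact ((tau_diff hc ((chartAt E3 _).map_source h0) (by
    rwa [(chartAt E3 _).left_inv h0])).hasFDerivAt.comp_hasDerivAt s
      (h.2 _ h0).1.hasDerivAt).deriv

theorem speed (hA : AStmt) (hc : ChartFacts g) {γ : ℝ → M} {l u s t : ℝ}
    (h : ∀ r ∈ Ioo l u, GP g γ r) (hs : s ∈ Ioo l u) (ht : t ∈ Ioo l u) :
    g (γ s) (vel γ s) (vel γ s) = g (γ t) (vel γ t) (vel γ t) := by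
  have key : ∀ s ∈ Ioo l u, HasDerivAt (fun r => g (γ r) (vel γ r) (vel γ r)) 0 s := by
    intro s hs
    have h0 := mem_chart_source E3 (γ s)
    have h1 := (h s hs).2 _ h0
    have := hA.2.2.2.2.1 _ _ (hc.cm (γ s)) _ _ _ s ((chartAt E3 _).map_source h0) h1.1 h1.2.1 h1.2.1
    rw [h1.2.2] at this
    simp only [map_zero, zero_apply, add_zero] at this
    refine this.congr_of_eventuallyEq ?_
    filter_upwards [(h s hs).1.eventually ((chartAt E3 (γ s)).open_source.mem_nhds h0),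
      isOpen_Ioo.mem_nhds hs] with r h2 h3
    rw [(h r h3).dv hc h2, hc.pull _ _ h2]
  exact isOpen_Ioo.is_const_of_deriv_eq_zero isPreconnected_Ioo
    (fun r hr => (key r hr).differentiableAt.differentiableWithinAt)
    (fun r hr => (key r hr).deriv) hs ht

theorem uniq [T2Space M] (hA : AStmt) (hc : ChartFacts g) {γ γ' : ℝ → M} {l u s : ℝ}
    (h : ∀ r ∈ Ioo l u, GP g γ r) (h' : ∀ r ∈ Ioo l u, GP g γ' r) (hs : s ∈ Ioo l u)
    (e : γ s = γ' s) (e' : vel γ s = vel γ' s) : ∀ r ∈ Ioo l u, γ r = γ' r := by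
  have key : ∀ s ∈ Ioo l u, γ s = γ' s → deriv (fun r => chartAt E3 (γ s) (γ r)) s =
      deriv (fun r => chartAt E3 (γ s) (γ' r)) s → γ =ᶠ[𝓝 s] γ' := by
    intro s hs e e'
    obtain ⟨Γ, hΓ⟩ := hA.1 _ _ (hc.cm (γ s))
    have h0 := mem_chart_source E3 (γ s)
    obtain ⟨K, S, hS, hK⟩ := (((fld_smooth hΓ).contDiffAt (x := (chartAt E3 (γ s) (γ s),
      deriv (fun r => chartAt E3 (γ s) (γ r)) s)) (prod_mem_nhds ((hc.cm _).isOpen.mem_nhds
        ((chartAt E3 _).map_source h0)) univ_mem)).of_le (by simp : (1 : WithTop ℕ∞) ≤ ∞)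
        ).exists_lipschitzOnWith
    have a1 := (h s hs).1.eventually ((chartAt E3 (γ s)).open_source.mem_nhds h0)
    have a2 := (h' s hs).1.eventually ((chartAt E3 (γ s)).open_source.mem_nhds (e ▸ h0))
    have a3 := isOpen_Ioo.mem_nhds hs
    have b : ∀ δ : ℝ → M, (∀ r ∈ Ioo l u, GP g δ r) → (∀ᶠ r in 𝓝 s, δ r ∈ (chartAt E3 (γ s)).source) →
        ∀ᶠ r in 𝓝 s, HasDerivAt (fun r => (chartAt E3 (γ s) (δ r),
          deriv (fun r => chartAt E3 (γ s) (δ r)) r)) (fld Γ (chartAt E3 (γ s) (δ r),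
            deriv (fun r => chartAt E3 (γ s) (δ r)) r)) r := fun δ h a => by
      filter_upwards [a, a3] with r h1 h2
      exact geo_fld hΓ ((chartAt E3 _).map_source h1) ((h r h2).2 _ h1)
    have b1 := b γ h a1
    have b2 := b γ' h' a2
    have := ODE_solution_unique_of_eventually (v := fun _ => fld Γ) (s := fun _ => S)
      (Eventually.of_forall fun _ => hK) (b1.and (b1.self_of_nhds.continuousAt.eventually hS))
      (b2.and (b2.self_of_nhds.continuousAt.eventually (by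
        beta_reduce
        rwa [← e', ← e]))) (by rw [← e', ← e])
    filter_upwards [this, a1, a2] with r h1 h2 h3
    exact (chartAt E3 (γ s)).injOn h2 h3 (congrArg Prod.fst h1)
  have := isPreconnected_Ioo.subset_of_closure_inter_subset (u := {r | γ =ᶠ[𝓝 r] γ'})
    isOpen_setOfPred_eventually_nhds ⟨s, hs, key s hs e (by rw [vel, vel, ← e] at e'; exact e')⟩
    fun r hr => by
      have fr := mem_closure_iff_frequently.1 hr.1
      have e := tendsto_nhds_unique_of_frequently_eq (h r hr.2).1 (h' r hr.2).1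
        (fr.mono fun x hx => hx.eq_of_nhds)
      have h0 := mem_chart_source E3 (γ r)
      exact key r hr.2 e (tendsto_nhds_unique_of_frequently_eq
        ((h r hr.2).2 _ h0).2.1.continuousAt ((h' r hr.2).2 _ (e ▸ h0)).2.1.continuousAt
        (fr.mono fun x hx => (EventuallyEq.fun_comp hx (chartAt E3 (γ r))).deriv_eq))
  exact fun r hr => (this hr).eq_of_nhds

variable (g) in
/-- geodesics with the given data exist for time `T` -/
def Ext (R T : ℝ) (S : Set M) : Prop :=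
  ∀ p ∈ S, ∀ v, g p v v ≤ R → ∃ γ : ℝ → M, (∀ r ∈ Ioo (-T) T, GP g γ r) ∧ γ 0 = p ∧ vel γ 0 = v

theorem Ext.mono {R T T' : ℝ} {S S' : Set M} (h : Ext g R T S) (h1 : T' ≤ T) (h2 : S' ⊆ S) :
    Ext g R T' S' := fun p hp v hv =>
  let ⟨γ, a, b⟩ := h p (h2 hp) v hv
  ⟨γ, fun r hr => a r (Ioo_subset_Ioo (neg_le_neg h1) h1 hr), b⟩

theorem loc_ex (hA : AStmt) (hO : OStmt) (hc : ChartFacts g) (R : ℝ) (a : M) :
    ∃ S ∈ 𝓝 a, ∃ T > 0, Ext g R T S := by
  obtain ⟨Γ, hΓ⟩ := hA.1 _ _ (hc.cm a)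
  have cm := hc.cm a
  obtain ⟨K, K1, K2, K3⟩ := local_compact_nhds (cm.isOpen.mem_nhds (mem_chart_target E3 a))
  obtain ⟨lam, l1, l2⟩ := (K3.prod (isCompact_sphere (0 : E3) 1)).exists_forall_le'
    (f := fun z : E3 × E3 => locB g a z.1 z.2 z.2) (a := 0)
    (((cm.smooth.continuousOn.comp continuousOn_fst fun z hz => K2 hz.1).clm_apply
      continuousOn_snd).clm_apply continuousOn_snd) fun z hz => cm.pos _ (K2 hz.1) _ (by
        rintro h0
        simpa [h0] using hz.2)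
  have bd : ∀ y ∈ K, ∀ u, locB g a y u u ≤ R → ‖u‖ ≤ R / lam + 1 := by
    intro y hy u hu
    by_contra h
    rw [not_le] at h
    by_cases h0 : u = 0
    · subst h0
      simp only [map_zero, norm_zero] at hu h
      have := div_nonneg hu l1.le
      linarith
    have h1 := norm_pos_iff.2 h0
    have := l2 (y, ‖u‖⁻¹ • u) ⟨hy, by simp [norm_smul, h1.ne']⟩
    simp only [map_smul, smul_apply, smul_eq_mul] at this
    rw [← mul_assoc, ← mul_inv, inv_mul_eq_div, le_div_iff₀ (mul_pos h1 h1)] at this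
    have h2 : 0 ≤ R := (cm.pos y (K2 hy) u h0).le.trans hu
    have h3 := div_nonneg h2 l1.le
    have h4 : R < lam * ‖u‖ := by
      rw [mul_comm, ← div_lt_iff₀ l1]
      linarith
    nlinarith [mul_pos l1 h1]
  obtain ⟨T, T1, T2⟩ := (K3.prod (isCompact_closedBall (0 : E3) (R / lam + 1))).induction_on
    (p := fun S => ∃ T > 0, ∀ z₀ ∈ S, ∃ z : ℝ → E3 × E3, z 0 = z₀ ∧ ∀ r ∈ Ioo (-T) T,
      (z r).1 ∈ (chartAt E3 a).target ∧ HasDerivAt z (fld Γ (z r)) r)
    ⟨1, one_pos, fun _ h => h.elim⟩ (fun s t h ⟨T, h1, h2⟩ => ⟨T, h1, fun z hz => h2 z (h hz)⟩)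
    (fun s t ⟨T, h1, h2⟩ ⟨T', h3, h4⟩ => ⟨min T T', lt_min h1 h3, fun z hz => by
      rcases hz with hz | hz
      · exact (h2 z hz).imp fun w hw => ⟨hw.1, fun r hr => hw.2 r
          (Ioo_subset_Ioo (neg_le_neg (min_le_left _ _)) (min_le_left _ _) hr)⟩
      · exact (h4 z hz).imp fun w hw => ⟨hw.1, fun r hr => hw.2 r
          (Ioo_subset_Ioo (neg_le_neg (min_le_right _ _)) (min_le_right _ _) hr)⟩⟩)
    fun z hz => by
      obtain ⟨ε, h1, W, h2, h3, Φ, Y, -, h4⟩ := hO _ _ _ (cm.isOpen.prod isOpen_univ)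
        (fld_smooth hΓ) z ⟨K2 hz.1, trivial⟩
      exact ⟨W, mem_nhdsWithin_of_mem_nhds (h2.mem_nhds h3), ε, h1, fun w hw =>
        ⟨fun r => Φ r w, (h4 w hw).1, fun r hr =>
          ⟨((h4 w hw).2.2 r hr).1.1, ((h4 w hw).2.2 r hr).2.1⟩⟩⟩
  refine ⟨(chartAt E3 a).source ∩ chartAt E3 a ⁻¹' K, inter_mem (chart_source_mem_nhds E3 a)
    ((chartAt E3 a).continuousAt (mem_chart_source E3 a) K1), T, T1, fun p hp v hv => ?_⟩
  obtain ⟨z, z0, z1⟩ := T2 (chartAt E3 a p, D a p v)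
    ⟨hp.2, mem_closedBall_zero_iff.2 (bd _ hp.2 _ (by rwa [hc.pull a p hp.1]))⟩
  have p0 : (chartAt E3 a).symm (z 0).1 = p := by rw [z0, (chartAt E3 a).left_inv hp.1]
  have i0 : (0 : ℝ) ∈ Ioo (-T) T := ⟨by linarith, T1⟩
  refine ⟨fun r => (chartAt E3 a).symm (z r).1, fun s hs => ⟨((chartAt E3 a).continuousAt_symm
    (z1 s hs).1).comp_of_eq (f := fun r => (z r).1) (z1 s hs).2.continuousAt.fst rfl,
      fun b hb => ?_⟩, p0, ?_⟩
  · have h1 : ∀ᶠ r in 𝓝 s, HasDerivAt z (fld Γ (z r)) r :=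
      (isOpen_Ioo.eventually_mem hs).mono fun r hr => (z1 r hr).2
    exact hA.2.1 _ _ _ _ _ ⟨ov_open a b, cm.smooth.mono inter_subset_left,
      fun y hy => cm.symm y hy.1, fun y hy => cm.pos y hy.1⟩ (hc.cm b) (hc.sm a b)
      (fun y hy => (chartAt E3 b).map_source hy.2) (hc.law a b) _ s ⟨(z1 s hs).1, hb⟩
      (h1.mono fun r hr => (dfst hr).differentiableAt) (fld_geo hΓ (z1 s hs).1 h1)
  · have h0 := mem_chart_source E3 p
    have := (tau_diff hc (b := p) (z1 0 i0).1 (p0.symm ▸ h0)).hasFDerivAt.comp_hasDerivAt 0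
      (dfst (z1 0 i0).2)
    rw [vel, p0]
    refine this.deriv.trans ?_
    have e := DFunLike.congr_fun (hc.chg a p p hp.1 h0) v
    rw [hc.self] at e
    rw [z0]
    exact e.symm

theorem grow [T2Space M] (hA : AStmt) (hc : ChartFacts g) {R T : ℝ} (hT : 0 < T)
    (h : Ext g R T univ) : Ext g R (3 / 2 * T) univ := by
  intro p _ v hv
  obtain ⟨γ, a1, a2, a3⟩ := h p trivial v hv
  have ex : ∀ β ∈ Ioo (-T) T, ∃ δ : ℝ → M, (∀ r ∈ Ioo (β - T) (β + T), GP g δ r) ∧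
      ∀ r ∈ Ioo (β - T) (β + T), r ∈ Ioo (-T) T → δ r = γ r := by
    intro β hβ
    obtain ⟨δ, b1, b2, b3⟩ := h (γ β) trivial (vel γ β) (by
      rwa [speed hA hc a1 hβ ⟨by linarith, hT⟩, a2, a3])
    have c : ∀ r ∈ Ioo (β - T) (β + T), GP g (fun r => δ (r + -β)) r := fun r hr =>
      (b1 _ ⟨by linarith [hr.1], by linarith [hr.2]⟩).shift
    refine ⟨_, c, fun r h1 h2 => uniq hA hc (l := max (β - T) (-T)) (u := min (β + T) T) (s := β)
      (fun r hr => c r ⟨(le_max_left _ _).trans_lt hr.1, hr.2.trans_le (min_le_left _ _)⟩)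
      (fun r hr => a1 r ⟨(le_max_right _ _).trans_lt hr.1, hr.2.trans_le (min_le_right _ _)⟩)
      ⟨max_lt (by linarith) hβ.1, lt_min (by linarith) hβ.2⟩ (by simpa using b2) ?_ r
      ⟨max_lt h1.1 h2.1, lt_min h1.2 h2.2⟩⟩
    rw [vel_shift, add_neg_cancel, b3]
  obtain ⟨δ, b1, b2⟩ := ex (T / 2) ⟨by linarith, by linarith⟩
  obtain ⟨δ', c1, c2⟩ := ex (-(T / 2)) ⟨by linarith, by linarith⟩
  have e1 : ∀ s, -(T / 2) < s → δ =ᶠ[𝓝 s] fun r => if r ≤ 0 then δ' r else δ r := fun s hs => by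
    filter_upwards [lt_mem_nhds hs] with r hr
    split_ifs with h0
    · rw [b2 r ⟨by linarith, by linarith⟩ ⟨by linarith, by linarith⟩,
        c2 r ⟨by linarith, by linarith⟩ ⟨by linarith, by linarith⟩]
    · rfl
  have e2 : δ =ᶠ[𝓝 0] γ := by
    filter_upwards [Ioo_mem_nhds (show -(T / 2) < 0 by linarith) hT] with r hr
    exact b2 r ⟨by linarith [hr.1], by linarith [hr.2]⟩ ⟨by linarith [hr.1], hr.2⟩
  have e3 := (e1 0 (by linarith)).symm.trans e2
  refine ⟨fun r => if r ≤ 0 then δ' r else δ r, fun s hs => ?_, e3.eq_of_nhds.trans a2,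
    (vel_congr e3).trans a3⟩
  rcases lt_or_ge s 0 with h0 | h0
  · refine (c1 s ⟨by linarith [hs.1], by linarith⟩).congr ?_
    filter_upwards [gt_mem_nhds h0] with r hr
    rw [if_pos hr.le]
  · exact (b1 s ⟨by linarith, by linarith [hs.2]⟩).congr (e1 s (by linarith))

end Ex

open Ex in
theorem eStmt (hA : AStmt) (hO : OStmt) (_hG : GStmt) : EStmt := by
  intro M _ _ _ _ g hc
  have key : ∀ p v, ∃ γ, IsGeodesic (un g) γ ∧ γ 0 = p ∧ vel γ 0 = v := by
    intro p v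
    obtain ⟨T, T1, T2⟩ := isCompact_univ.induction_on
      (p := fun S => ∃ T > 0, Ext g (g p v v) T S) ⟨1, one_pos, fun _ h => h.elim⟩
      (fun s t h ⟨T, h1, h2⟩ => ⟨T, h1, h2.mono le_rfl h⟩)
      (fun s t ⟨T, h1, h2⟩ ⟨T', h3, h4⟩ => ⟨min T T', lt_min h1 h3, fun z hz => hz.elim
        (h2.mono (min_le_left _ _) Subset.rfl z) (h4.mono (min_le_right _ _) Subset.rfl z)⟩)
      fun a _ => (loc_ex hA hO hc _ a).imp fun S h => ⟨mem_nhdsWithin_of_mem_nhds h.1, h.2⟩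
    have h1 : ∀ n : ℕ, Ext g (g p v v) ((3 / 2) ^ n * T) univ := fun n => by
      induction n with
      | zero => simpa using T2
      | succ n ih =>
        rw [pow_succ', mul_assoc]
        exact grow hA hc (by positivity) ih
    have h2 : ∀ s : ℝ, ∃ γ : ℝ → M, (∀ r ∈ Ioo (-(|s| + 1)) (|s| + 1), GP g γ r) ∧ γ 0 = p ∧
        vel γ 0 = v := fun s => by
      obtain ⟨n, hn⟩ := pow_unbounded_of_one_lt ((|s| + 1) / T) (show (1 : ℝ) < 3 / 2 by norm_num)
      exact (h1 n).mono ((div_lt_iff₀ T1).1 hn).le Subset.rfl p trivial v le_rfl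
    choose γ c1 c2 c3 using h2
    have e : ∀ s, γ s =ᶠ[𝓝 s] fun r => γ r r := fun s => by
      filter_upwards [(continuous_abs.tendsto s).eventually (gt_mem_nhds (lt_add_one |s|))]
        with r hr
      have := abs_nonneg s
      have := abs_nonneg r
      have := abs_lt.1 (lt_min hr (lt_add_one |r|))
      refine uniq hA hc (l := -min (|s| + 1) (|r| + 1)) (u := min (|s| + 1) (|r| + 1)) (s := 0)
        (fun x hx => c1 s x (Ioo_subset_Ioo (neg_le_neg (min_le_left _ _)) (min_le_left _ _) hx))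
        (fun x hx => c1 r x (Ioo_subset_Ioo (neg_le_neg (min_le_right _ _)) (min_le_right _ _) hx))
        ⟨neg_lt_zero.2 (by positivity), by positivity⟩ (by rw [c2, c2]) (by rw [c3, c3]) r this
    have gp : ∀ s, GP g (fun r => γ r r) s := fun s =>
      (c1 s s (abs_lt.1 (lt_add_one |s|))).congr (e s)
    exact ⟨_, ⟨continuous_iff_continuousAt.2 fun s => (gp s).1, fun a s => (gp s).2 a⟩, c2 0,
      (vel_congr (e 0)).symm.trans (c3 0)⟩
  choose geo h using key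
  exact ⟨geo, h⟩

end Vale.Agent.P255
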