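import Vale.Agent.P255.F1

/-! Module F: the profile functions of the neck. -/

open scoped ContDiff Topology
open Set Filter

namespace Vale.Agent.P255

namespace Fm

/-- The smooth step. -/
noncomputable abbrev eta : ℝ → ℝ := Real.smoothTransition

theorem eta_s : ContDiff ℝ ∞ eta := Real.smoothTransition.contDiff

theorem eta_d0 (s : ℝ) : 0 ≤ deriv eta s := Real.smoothTransition.monotone.deriv_nonneg

theorem eta_le {s : ℝ} (h : s ≤ 1 / 2) : eta s ≤ 1 / 2 := by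
  have := expNegInvGlue.monotone (show s ≤ 1 - s by linarith)
  rw [eta, Real.smoothTransition, div_le_iff₀ (Real.smoothTransition.pos_denom s)]
  linarith

theorem eta_d {s : ℝ} (h0 : 0 ≤ s) (h : s ≤ 1 / 2) : 4 * eta s ≤ deriv eta s := by
  rcases h0.eq_or_lt with rfl | h0
  · simpa using eta_d0 0
  have he : ∀ x, HasDerivAt expNegInvGlue (x⁻¹ ^ 2 * expNegInvGlue x) x := fun x => by
    simpa using expNegInvGlue.hasDerivAt_polynomial_eval_inv_mul 1 x
  have h2 := (he (1 - s)).comp s ((hasDerivAt_id s).const_sub 1)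
  have D0 := Real.smoothTransition.pos_denom s
  have hd : deriv eta s = _ := ((he s).fun_div ((he s).fun_add h2) D0.ne').deriv
  have m := expNegInvGlue.monotone (show s ≤ 1 - s by linarith)
  have e0 := expNegInvGlue.nonneg s
  have hx : 0 < s⁻¹ := inv_pos.2 h0
  have hy : 0 < (1 - s)⁻¹ := inv_pos.2 (by linarith)
  have hxy : s⁻¹ + (1 - s)⁻¹ = s⁻¹ * (1 - s)⁻¹ := by
    have : 1 - s ≠ 0 := by linarith
    field_simp; ring
  rw [hd, eta, Real.smoothTransition]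
  simp only [Function.comp]
  generalize s⁻¹ = x at *
  generalize (1 - s)⁻¹ = y at *
  generalize expNegInvGlue s = e at *
  generalize expNegInvGlue (1 - s) = f at *
  have k1 : 4 ≤ x * y := by
    by_contra c
    nlinarith [sq_nonneg (x - y), mul_pos hx hy]
  have k2 : 8 ≤ x ^ 2 + y ^ 2 := by nlinarith [sq_nonneg (x - y)]
  rw [← mul_div_assoc, div_le_div_iff₀ D0 (by positivity)]
  have k3 := mul_le_mul_of_nonneg_left k2 (mul_nonneg e0 (e0.trans m))
  have k4 := mul_le_mul_of_nonneg_left m e0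
  have k5 : 4 * e * (e + f) ≤ x ^ 2 * e * (e + f) - e * (x ^ 2 * e + y ^ 2 * f * -1) := by
    nlinarith
  nlinarith [mul_le_mul_of_nonneg_right k5 D0.le]

/-- The primitive of the step. -/
noncomputable def psi (s : ℝ) : ℝ := ∫ x in (0 : ℝ)..s, eta x

theorem psi_d (s : ℝ) : HasDerivAt psi (eta s) s :=
  (Real.smoothTransition.continuous.integral_hasStrictDerivAt 0 s).hasDerivAt

theorem psi_deriv : deriv psi = eta := funext fun s => (psi_d s).deriv

theorem psi_s : ContDiff ℝ ∞ psi :=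
  contDiff_infty_iff_deriv.2 ⟨fun s => (psi_d s).differentiableAt, psi_deriv ▸ eta_s⟩

theorem psi_neg {s : ℝ} (h : s ≤ 0) : psi s = 0 := by
  rw [psi, intervalIntegral.integral_congr (g := fun _ => 0), intervalIntegral.integral_zero]
  intro x hx
  rw [uIcc_of_ge h] at hx
  exact Real.smoothTransition.zero_of_nonpos hx.2

theorem psi_big {s : ℝ} (h : 1 ≤ s) : psi s = psi 1 + (s - 1) := by
  have c := Real.smoothTransition.continuous
  rw [psi, psi, ← intervalIntegral.integral_add_adjacent_intervals (b := 1)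
    (c.intervalIntegrable _ _) (c.intervalIntegrable _ _),
    intervalIntegral.integral_congr (a := 1) (g := fun _ => 1)]
  · simp
  · intro x hx
    rw [uIcc_of_le h] at hx
    exact Real.smoothTransition.one_of_one_le hx.1

theorem psi_nonneg (s : ℝ) : 0 ≤ psi s := by
  rcases le_total s 0 with h | h
  · exact (psi_neg h).ge
  · exact intervalIntegral.integral_nonneg h fun x _ => Real.smoothTransition.nonneg x

theorem psi_le {s : ℝ} (h : 0 ≤ s) : psi s ≤ s := by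
  have := intervalIntegral.integral_mono_on (μ := MeasureTheory.volume) h
    (Real.smoothTransition.continuous.intervalIntegrable _ _)
    (continuous_const.intervalIntegrable _ _) fun x _ => Real.smoothTransition.le_one x
  simpa [psi] using this

section
variable {a : ℝ → ℝ} (ha : ContDiff ℝ ∞ a) (pa : ∀ t, 0 < a t)
include ha pa

theorem inv_s : ContDiff ℝ ∞ fun t => 1 / a t ^ 2 :=
  contDiff_const.div (ha.pow 2) fun t => (pow_pos (pa t) 2).ne'

theorem inv_d : (deriv fun t => 1 / a t ^ 2) = fun t => -2 * deriv a t / a t ^ 3 := by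
  funext t
  have := (pa t).ne'
  refine ((hasDerivAt_const t (1 : ℝ)).fun_div ((d1 ha t).fun_pow 2) (pow_pos (pa t) 2).ne').deriv.trans ?_
  simp only [Nat.cast_ofNat, Nat.add_one_sub_one, pow_one]
  field_simp; ring

theorem inv_dd (t : ℝ) : deriv (deriv fun t => 1 / a t ^ 2) t =
    -2 * deriv (deriv a) t / a t ^ 3 + 6 * deriv a t ^ 2 / a t ^ 4 := by
  rw [inv_d ha pa]
  have := (pa t).ne'
  refine (((d1 (sd ha) t).const_mul (-2)).fun_div ((d1 ha t).fun_pow 3)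
    (pow_pos (pa t) 3).ne').deriv.trans ?_
  simp only [Nat.cast_ofNat, show 3 - 1 = 2 from rfl]
  field_simp; ring

theorem inv_cvx (t : ℝ) (h : 0 ≤ deriv (deriv a) t) :
    2 * (1 / a t ^ 2) * deriv (deriv fun t => 1 / a t ^ 2) t ≤
      3 * (deriv fun t => 1 / a t ^ 2) t ^ 2 := by
  rw [inv_dd ha pa, inv_d ha pa]
  have p := pa t
  have : 3 * (-2 * deriv a t / a t ^ 3) ^ 2 - 2 * (1 / a t ^ 2) *
      (-2 * deriv (deriv a) t / a t ^ 3 + 6 * deriv a t ^ 2 / a t ^ 4) =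
      4 * deriv (deriv a) t / a t ^ 5 := by field_simp; ring
  have : 0 ≤ 4 * deriv (deriv a) t / a t ^ 5 := by positivity
  simp only
  linarith

end

theorem second {A e e' : ℝ} (hA : 1 ≤ A) (e0 : 0 ≤ e) (e1 : e ≤ 1 / 2) (h : 4 * e ≤ e') :
    -2 * e' / A ^ 3 + 6 * e ^ 2 / A ^ 4 ≤ 5 / 2 * (-2 * e / A ^ 3) := by
  have p : 0 < A := by linarith
  have : 5 / 2 * (-2 * e / A ^ 3) - (-2 * e' / A ^ 3 + 6 * e ^ 2 / A ^ 4) =
      ((2 * e' - 5 * e) * A - 6 * e ^ 2) / A ^ 4 := by field_simp; ring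
  have k := mul_le_mul (show 3 * e ≤ 2 * e' - 5 * e by linarith) hA zero_le_one (by linarith)
  have : 0 ≤ ((2 * e' - 5 * e) * A - 6 * e ^ 2) / A ^ 4 :=
    div_nonneg (by nlinarith) (by positivity)
  linarith

section
variable {w m S e s k1 : ℝ} (w0 : 0 < w) (m0 : 0 < m) (S0 : 0 ≤ S) (hw : 10 ^ 5 * w * (S + 1) ≤ m ^ 2)
  (e0 : m ≤ e) (e1 : e ≤ 1 / 2) (hs : s ^ 2 ≤ S)
include w0 m0 S0 hw e0 e1 hs

theorem small : (w ^ 2) ^ 2 ≤ -(-2 * e * w ^ 3) / 10 ^ 5 ∧ -(-2 * e * w ^ 3) ≤ 1 / 10 ^ 5 ∧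
    (w ^ 2 * s) ^ 2 ≤ -(-2 * e * w ^ 3) / 10 ^ 5 := by
  have a1 : m ^ 2 ≤ e / 2 := by nlinarith
  have a2 : w ≤ e / 10 ^ 5 := by nlinarith [mul_nonneg w0.le S0]
  have a3 : w * s ^ 2 ≤ e / 10 ^ 5 := by nlinarith [mul_le_mul_of_nonneg_left hs w0.le]
  have w3 := pow_pos w0 3
  have a4 : w ^ 3 ≤ w := pow_le_of_le_one w0.le (by linarith) (by norm_num)
  refine ⟨?_, ?_, ?_⟩
  · nlinarith [mul_le_mul_of_nonneg_left a2 w3.le, mul_pos w3 (m0.trans_le e0)]
  · nlinarith [mul_le_mul_of_nonneg_right e1 w3.le]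
  · nlinarith [mul_le_mul_of_nonneg_left a3 w3.le, mul_pos w3 (m0.trans_le e0)]

theorem middle (hk : m / 2 ≤ k1) : (w ^ 2 * s) ^ 2 ≤ k1 * -(-2 * e * w ^ 3) / 4 ∧
    w ^ 2 * s ^ 2 ≤ k1 / 4 ∧ (-2 * e * w ^ 3 * s) ^ 2 ≤ k1 * -(-2 * e * w ^ 3) / 4 := by
  have a1 : m ^ 2 ≤ m / 2 := by nlinarith
  have a2 : w ≤ 1 := by nlinarith [mul_nonneg w0.le S0]
  have a3 : w * s ^ 2 ≤ m ^ 2 / 10 ^ 5 := by nlinarith [mul_le_mul_of_nonneg_left hs w0.le]
  have w3 := pow_pos w0 3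
  have a5 : m / 2 * m ≤ k1 * e := mul_le_mul hk e0 m0.le (by linarith)
  have b1 : (w ^ 2 * s) ^ 2 ≤ k1 * -(-2 * e * w ^ 3) / 4 := by
    nlinarith [mul_le_mul_of_nonneg_left a3 w3.le, mul_le_mul_of_nonneg_left a5 w3.le,
      mul_pos w3 (pow_pos m0 2)]
  refine ⟨b1, ?_, le_trans ?_ b1⟩
  · nlinarith [mul_le_mul a2 a3 (by positivity) zero_le_one]
  · have c : (2 * e * w) ^ 2 ≤ 1 := pow_le_one₀ (by have := m0.trans_le e0; positivity)
      (mul_le_one₀ (by linarith) w0.le a2)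
    nlinarith [mul_le_mul_of_nonneg_right c (sq_nonneg (w ^ 2 * s))]

end

/-- The twisting function. -/
noncomputable def sg (t : ℝ) : ℝ := eta (6 * t - 1)

theorem sg_s : ContDiff ℝ ∞ sg := eta_s.comp ((contDiff_const.mul contDiff_id).sub contDiff_const)

theorem sg_lo {t : ℝ} (h : t < 1 / 6) : sg t = 0 :=
  Real.smoothTransition.zero_of_nonpos (by linarith)

theorem sg_hi {t : ℝ} (h : 1 / 3 < t) : sg t = 1 :=
  Real.smoothTransition.one_of_one_le (by linarith)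

theorem flat {f : ℝ → ℝ} {c t : ℝ} (h : f =ᶠ[𝓝 t] fun _ => c) :
    deriv f t = 0 ∧ deriv (deriv f) t = 0 :=
  ⟨by rw [h.deriv_eq, deriv_const], by rw [h.deriv.deriv_eq]; simp⟩

theorem sg_bd : ∃ S, 0 ≤ S ∧ ∀ t ∈ Icc (0 : ℝ) (1 / 2),
    deriv sg t ^ 2 ≤ S ∧ deriv (deriv sg) t ^ 2 ≤ S := by
  have c : Continuous fun t => deriv sg t ^ 2 + deriv (deriv sg) t ^ 2 :=
    ((sd sg_s).continuous.pow 2).add ((sd (sd sg_s)).continuous.pow 2)
  obtain ⟨S, hS⟩ := (isCompact_Icc (a := (0 : ℝ)) (b := 1 / 2)).bddAbove_image c.continuousOn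
  have h : ∀ t ∈ Icc (0 : ℝ) (1 / 2), deriv sg t ^ 2 + deriv (deriv sg) t ^ 2 ≤ S :=
    fun t ht => hS (mem_image_of_mem _ ht)
  exact ⟨S, le_trans (by positivity) (h 0 (by norm_num)), fun t ht =>
    ⟨le_trans (le_add_of_nonneg_right (sq_nonneg _)) (h t ht),
      le_trans (le_add_of_nonneg_left (sq_nonneg _)) (h t ht)⟩⟩

/-- The first radius. -/
noncomputable def fa (t : ℝ) : ℝ := 1 + psi (1 / 2 - t)

/-- The second radius. -/
noncomputable def fb (B t : ℝ) : ℝ := B + psi t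

theorem fa_s : ContDiff ℝ ∞ fa := contDiff_const.add (psi_s.comp (contDiff_const.sub contDiff_id))

theorem fb_s (B : ℝ) : ContDiff ℝ ∞ (fb B) := contDiff_const.add psi_s

theorem fa_ge (t : ℝ) : 1 ≤ fa t := le_add_of_nonneg_right (psi_nonneg _)

theorem fb_ge (B t : ℝ) : B ≤ fb B t := le_add_of_nonneg_right (psi_nonneg _)

theorem fa_d : deriv fa = fun t => -eta (1 / 2 - t) := by
  funext t
  exact (((psi_d _).comp_const_sub (1 / 2) t).const_add 1).deriv

theorem fa_dd (t : ℝ) : deriv (deriv fa) t = deriv eta (1 / 2 - t) := by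
  rw [fa_d]
  exact ((d1 eta_s _).comp_const_sub (1 / 2) t).fun_neg.deriv.trans (neg_neg _)

theorem fb_d (B : ℝ) : deriv (fb B) = eta := funext fun t => ((psi_d t).const_add B).deriv

theorem core : ∃ B, 2 ≤ B ∧ ∀ t ∈ Icc (0 : ℝ) (1 / 2),
    Pt (1 / fa t ^ 2) ((deriv fun t => 1 / fa t ^ 2) t) (deriv (deriv fun t => 1 / fa t ^ 2) t)
      (1 / fb B t ^ 2) ((deriv fun t => 1 / fb B t ^ 2) t)
      (deriv (deriv fun t => 1 / fb B t ^ 2) t) (sg t) (deriv sg t) (deriv (deriv sg) t) := by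
  obtain ⟨S, S0, hS⟩ := sg_bd
  have m0 : 0 < eta (1 / 6) := Real.smoothTransition.pos_of_pos (by norm_num)
  have hm : ∀ s, 1 / 6 ≤ s → eta (1 / 6) ≤ eta s := fun s h => Real.smoothTransition.monotone h
  generalize eta (1 / 6) = m at m0 hm
  have q0 : 0 ≤ 10 ^ 5 * (S + 1) / m ^ 2 := by positivity
  refine ⟨10 ^ 5 * (S + 1) / m ^ 2 + 2, by linarith, fun t ht => ?_⟩
  have hb := fb_ge (10 ^ 5 * (S + 1) / m ^ 2 + 2) t
  have pb : ∀ t, 0 < fb (10 ^ 5 * (S + 1) / m ^ 2 + 2) t := fun t => by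
    linarith [fb_ge (10 ^ 5 * (S + 1) / m ^ 2 + 2) t]
  have pa : ∀ t, 0 < fa t := fun t => by linarith [fa_ge t]
  rw [inv_dd fa_s pa, inv_dd (fb_s _) pb, inv_d fa_s pa, inv_d (fb_s _) pb, fa_dd, fa_d, fb_d]
  simp only
  generalize fb (10 ^ 5 * (S + 1) / m ^ 2 + 2) t = b at hb ⊢
  have a1 := fa_ge t
  have a2 : fa t ≤ 3 / 2 := by
    have := psi_le (s := 1 / 2 - t) (by linarith [ht.2])
    rw [fa]; linarith [ht.1]
  generalize fa t = a at a1 a2 ⊢
  have b0 : 0 < b := by linarith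
  have a0 : 0 < a := by linarith
  have u0 := Real.smoothTransition.nonneg (1 / 2 - t)
  have u1 := eta_le (s := 1 / 2 - t) (by linarith [ht.1])
  have u2 := eta_d (s := 1 / 2 - t) (by linarith [ht.2]) (by linarith [ht.1])
  have e0 := Real.smoothTransition.nonneg t
  have e1 := eta_le ht.2
  have e2 := eta_d ht.1 ht.2
  have a3 : 1 ≤ a ^ 3 := one_le_pow₀ a1
  have a4 : a ^ 3 ≤ 4 := (pow_le_pow_left₀ a0.le a2 3).trans (by norm_num)
  have k0 : 0 ≤ -2 * -eta (1 / 2 - t) / a ^ 3 := div_nonneg (by linarith) (by positivity)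
  have n0 : -2 * eta t / b ^ 3 ≤ 0 := div_nonpos_of_nonpos_of_nonneg (by linarith) (by positivity)
  have hw : 10 ^ 5 * b⁻¹ * (S + 1) ≤ m ^ 2 := by
    have : 10 ^ 5 * (S + 1) / m ^ 2 ≤ b := by linarith
    rw [div_le_iff₀ (by positivity)] at this
    rw [mul_right_comm, ← div_eq_mul_inv, div_le_iff₀ b0]
    linarith
  have w0 := inv_pos.2 b0
  have en : 1 / b ^ 2 = b⁻¹ ^ 2 := by rw [one_div, inv_pow]
  have en1 : -2 * eta t / b ^ 3 = -2 * eta t * b⁻¹ ^ 3 := by rw [div_eq_mul_inv, inv_pow]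
  have p0 := mul_nonneg k0 (neg_nonneg.2 n0)
  have H : ((1 / b ^ 2 * deriv sg t) ^ 2 ≤ -2 * -eta (1 / 2 - t) / a ^ 3 * -(-2 * eta t / b ^ 3) / 4 ∧
      1 / b ^ 2 * deriv sg t ^ 2 ≤ -2 * -eta (1 / 2 - t) / a ^ 3 / 4 ∧
      (-2 * eta t / b ^ 3 * deriv sg t) ^ 2 ≤
        -2 * -eta (1 / 2 - t) / a ^ 3 * -(-2 * eta t / b ^ 3) / 4) ∧
      (1 / b ^ 2 * deriv (deriv sg) t) ^ 2 ≤
        -2 * -eta (1 / 2 - t) / a ^ 3 * -(-2 * eta t / b ^ 3) / 4 := by
    by_cases c : deriv sg t = 0 ∧ deriv (deriv sg) t = 0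
    · rw [c.1, c.2]
      exact ⟨⟨by linarith, by linarith, by linarith⟩, by linarith⟩
    have c1 : 1 / 6 ≤ t := not_lt.1 fun h => c (flat (c := 0)
      ((eventually_lt_nhds h).mono fun _ => sg_lo))
    have c2 : t ≤ 1 / 3 := not_lt.1 fun h => c (flat (c := 1)
      ((eventually_gt_nhds h).mono fun _ => sg_hi))
    have hk : m / 2 ≤ -2 * -eta (1 / 2 - t) / a ^ 3 := by
      rw [le_div_iff₀ (by positivity)]
      nlinarith [hm (1 / 2 - t) (by linarith)]
    rw [en, en1]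
    exact ⟨middle w0 m0 S0 hw (hm t c1) e1 (hS t ht).1 hk,
      (middle w0 m0 S0 hw (hm t c1) e1 (hS t ht).2 hk).1⟩
  refine ⟨?_, k0, ?_, ?_, by positivity, ?_, n0, second (by linarith) e0 e1 e2,
    Real.smoothTransition.nonneg _, Real.smoothTransition.le_one _, H.1.1, H.2, H.1.2.1, H.1.2.2, ?_⟩
  · rw [le_div_iff₀ (by positivity)]; nlinarith
  · rw [div_le_iff₀ (by positivity)]; linarith
  · have := second a1 u0 u1 u2
    rw [neg_sq]
    refine this.trans (le_of_eq ?_)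
    ring
  · rw [div_le_iff₀ (by positivity)]; nlinarith
  · rcases lt_or_ge t (1 / 6) with c | c
    · exact Or.inl ⟨sg_lo c, (flat (c := 0) ((eventually_lt_nhds c).mono fun _ => sg_lo)).1⟩
    · rw [en, en1]
      exact Or.inr (small w0 m0 S0 hw (hm t c) e1 (hS t ht).1)

end Fm

open Fm in
theorem fStmt : FStmt := by
  obtain ⟨B, hB, H⟩ := core
  have pa : ∀ t, 0 < fa t := fun t => by linarith [fa_ge t]
  have pb : ∀ t, 0 < fb B t := fun t => by linarith [fb_ge B t]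
  have p1 := psi_nonneg 1
  have sk := inv_s fa_s pa
  have sn := inv_s (fb_s B) pb
  have k1 : ∀ t < (1 / 2 : ℝ), 0 < (deriv fun t => 1 / fa t ^ 2) t := fun t ht => by
    rw [inv_d fa_s pa, fa_d]
    have := Real.smoothTransition.pos_of_pos (show 0 < 1 / 2 - t by linarith)
    exact div_pos (by linarith) (pow_pos (pa t) 3)
  have n1 : ∀ t, (0 : ℝ) < t → (deriv fun t => 1 / fb B t ^ 2) t < 0 := fun t ht => by
    rw [inv_d (fb_s B) pb, fb_d]
    have := Real.smoothTransition.pos_of_pos ht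
    exact div_neg_of_neg_of_pos (by linarith) (pow_pos (pb t) 3)
  refine ⟨fa, fb B, sg, -1, 2, 3 / 2 + psi 1, B + psi 1 + 1, 1, B, 0, 1 / 2,
    ⟨fa_s, fb_s B, sg_s, pa, pb, by linarith, by linarith, by norm_num, fun t ht => ⟨?_, ?_, ?_⟩,
      fun t ht => ⟨?_, ?_, ?_⟩⟩, by norm_num, by norm_num,
    ⟨sk, sn, sg_s, fun t => one_div_pos.2 (pow_pos (pa t) 2),
      fun t => one_div_pos.2 (pow_pos (pb t) 2), by norm_num, k1, fun t ht => ?_, n1,
      fun t ht => ?_, fun t => inv_cvx fa_s pa t (fa_dd t ▸ eta_d0 _),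
      fun t => inv_cvx (fb_s B) pb t (by rw [fb_d]; exact eta_d0 _),
      ⟨1 / 6, by norm_num, fun _ => sg_lo⟩, ⟨1 / 3, by norm_num, fun _ => sg_hi⟩,
      fun t ht p q hv => ?_, fun t ht p q hv => ?_, fun t ht p q hv hpq => ?_⟩⟩
  · rw [fa, psi_big (by linarith)]; ring
  · rw [fb, psi_neg (by linarith), add_zero]
  · exact sg_lo (by linarith)
  · rw [fb, psi_big (by linarith)]; ring
  · rw [fa, psi_neg (by linarith), add_zero]
  · exact sg_hi (by linarith)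
  · rw [inv_d fa_s pa, fa_d]
    simp [Real.smoothTransition.zero_of_nonpos (show 2⁻¹ - t ≤ 0 by linarith)]
  · rw [inv_d (fb_s B) pb, fb_d]
    simp [Real.smoothTransition.zero_of_nonpos ht]
  · have h := H t ht
    rw [ddV sk sn sg_s, dxp sk sn sg_s]
    rw [dV sk sn sg_s] at hv ⊢
    obtain ⟨e1, e2⟩ := h.err p _ hv.le
    have hp : p ≠ 0 := by
      rintro rfl
      have := hv.trans_le (h.vt 0 _)
      simp at this
    exact ⟨abs_pos.1 (lt_of_lt_of_le (by have := abs_pos.2 hp; positivity) (h.low p e1)),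
      h.c1 p hv.le (h.vt p _) (h.vtt p _) e1 e2⟩
  · have h := H t ht
    rw [ddV sk sn sg_s, dyp sn sg_s]
    rw [dV sk sn sg_s] at hv ⊢
    refine ⟨mul_ne_zero h.n_pos.ne' fun e => ?_, h.c2 p _ hv.le (h.vtt p _)⟩
    simp only [e] at hv
    nlinarith [mul_nonneg h.k1_ge (sq_nonneg p)]
  · have h := H t (Ioo_subset_Icc_self ht)
    rw [ddV sk sn sg_s]
    rw [dV sk sn sg_s] at hv
    have hp : p ≠ 0 := by
      rintro rfl
      have hq := hpq.resolve_left fun h => h rfl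
      have := mul_neg_of_neg_of_pos (n1 t ht.1) (sq_pos_of_ne_zero hq)
      simp only [mul_zero, add_zero] at hv
      nlinarith
    refine ⟨abs_pos.1 (lt_of_lt_of_le (by have := abs_pos.2 hp; positivity)
      (h.low p (h.err p _ hv.ge).1)), mul_ne_zero h.n_pos.ne' fun e => ?_, (h.vtt p _).trans ?_⟩
    · simp only [e] at hv
      nlinarith [mul_pos (k1 t ht.2) (sq_pos_of_ne_zero hp)]
    · nlinarith [mul_nonneg h.k1_ge (sq_nonneg p)]

end Vale.Agent.P255
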