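import Vale.Agent.P255.Spec

/-! Module F, part 1: derivatives of the dual metric and the algebraic inequalities. -/

open scoped ContDiff Topology
open Set Filter

namespace Vale.Agent.P255.Fm

theorem d1 {f : ℝ → ℝ} (h : ContDiff ℝ ∞ f) (t : ℝ) : HasDerivAt f (deriv f t) t :=
  ((contDiff_infty_iff_deriv.1 h).1 t).hasDerivAt

theorem sd {f : ℝ → ℝ} (h : ContDiff ℝ ∞ f) : ContDiff ℝ ∞ (deriv f) :=
  (contDiff_infty_iff_deriv.1 h).2

section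
variable {k n σ : ℝ → ℝ} (hk : ContDiff ℝ ∞ k) (hn : ContDiff ℝ ∞ n) (hσ : ContDiff ℝ ∞ σ)
  (p q : ℝ)
include hk hn hσ

theorem dV : deriv (V k n σ p q) = fun t => deriv k t * p ^ 2 + deriv n t * (q + σ t * p) ^ 2 +
    2 * (n t * deriv σ t) * (q + σ t * p) * p := by
  funext t
  have hr := ((d1 hσ t).mul_const p).const_add q
  refine (((d1 hk t).mul_const (p ^ 2)).fun_add ((d1 hn t).fun_mul (hr.fun_pow 2))).deriv.trans ?_
  simp only [Nat.cast_ofNat, Nat.add_one_sub_one, pow_one]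
  ring

theorem ddV (t : ℝ) : deriv (deriv (V k n σ p q)) t = deriv (deriv k) t * p ^ 2 +
    deriv (deriv n) t * (q + σ t * p) ^ 2 +
    2 * (2 * deriv n t * deriv σ t + n t * deriv (deriv σ) t) * (q + σ t * p) * p +
    2 * (n t * deriv σ t ^ 2) * p ^ 2 := by
  rw [dV hk hn hσ]
  have hr := ((d1 hσ t).mul_const p).const_add q
  refine ((((d1 (sd hk) t).mul_const (p ^ 2)).fun_add
    ((d1 (sd hn) t).fun_mul (hr.fun_pow 2))).fun_add
    ((((((d1 hn t).fun_mul (d1 (sd hσ) t)).const_mul 2).fun_mul hr).mul_const p))).deriv.trans ?_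
  simp only [Nat.cast_ofNat, Nat.add_one_sub_one, pow_one]
  ring

theorem dxp (t : ℝ) : deriv (xp k n σ p q) t = deriv k t * p +
    (deriv n t * σ t * (q + σ t * p) + n t * deriv σ t * (q + σ t * p) +
      n t * deriv σ t * (σ t * p)) := by
  have hr := ((d1 hσ t).mul_const p).const_add q
  refine (((d1 hk t).mul_const p).fun_add
    (((d1 hn t).fun_mul (d1 hσ t)).fun_mul hr)).deriv.trans ?_
  ring

omit hk in
theorem dyp (t : ℝ) : deriv (yp n σ p q) t =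
    deriv n t * (q + σ t * p) + n t * deriv σ t * p := by
  have hr := ((d1 hσ t).mul_const p).const_add q
  refine ((d1 hn t).fun_mul hr).deriv.trans ?_
  ring

end

theorem amgm {A C β : ℝ} (hA : 0 ≤ A) (hC : 0 ≤ C) (h : β ^ 2 ≤ A * C) (x y : ℝ) :
    2 * β * x * y ≤ A * x ^ 2 + C * y ^ 2 := by
  rcases hA.eq_or_lt with rfl | hA
  · have : β = 0 := by nlinarith
    rw [this]; nlinarith [mul_nonneg hC (sq_nonneg y)]
  · refine le_of_mul_le_mul_left ?_ hA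
    nlinarith [sq_nonneg (A * x - β * y), mul_le_mul_of_nonneg_right h (sq_nonneg y)]

theorem abs_le_of {E p : ℝ} {c : ℝ} (hc : 0 ≤ c) (h : E ^ 2 ≤ c ^ 2 * p ^ 2) : |E| ≤ c * |p| := by
  refine abs_le_of_sq_le_sq' ?_ (by positivity) |> abs_le.2
  rwa [mul_pow, sq_abs]

/-- The pointwise facts in the core. -/
structure Pt (k k1 k2 n n1 n2 σ s1 s2 : ℝ) : Prop where
  k_ge : 4 / 9 ≤ k
  k1_ge : 0 ≤ k1
  k1_le : k1 ≤ 1
  k2_le : k2 ≤ -(5 / 2) * k1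
  n_pos : 0 < n
  n_le : n ≤ 1 / 4
  n1_le : n1 ≤ 0
  n2_le : n2 ≤ 5 / 2 * n1
  s_ge : 0 ≤ σ
  s_le : σ ≤ 1
  i : (n * s1) ^ 2 ≤ k1 * -n1 / 4
  ii : (n * s2) ^ 2 ≤ k1 * -n1 / 4
  iii : n * s1 ^ 2 ≤ k1 / 4
  iv : (n1 * s1) ^ 2 ≤ k1 * -n1 / 4
  v : (σ = 0 ∧ s1 = 0) ∨ (n ^ 2 ≤ -n1 / 10 ^ 5 ∧ -n1 ≤ 1 / 10 ^ 5 ∧ (n * s1) ^ 2 ≤ -n1 / 10 ^ 5)

section
variable {k k1 k2 n n1 n2 σ s1 s2 : ℝ} (h : Pt k k1 k2 n n1 n2 σ s1 s2) (p r : ℝ)
include h

theorem Pt.cross (x y : ℝ) : 2 * (n * s1) * x * y ≤ -n1 / 2 * x ^ 2 + k1 * y ^ 2 := by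
  have := h.n1_le
  have := mul_nonneg h.k1_ge (neg_nonneg.2 h.n1_le)
  exact amgm (by linarith) h.k1_ge (by nlinarith [h.i]) x y

theorem Pt.vt : k1 * p ^ 2 + n1 * r ^ 2 + 2 * (n * s1) * r * p ≤ 2 * k1 * p ^ 2 := by
  nlinarith [h.cross r p, mul_nonneg (neg_nonneg.2 h.n1_le) (sq_nonneg r)]

theorem Pt.vtt : k2 * p ^ 2 + n2 * r ^ 2 + 2 * (2 * n1 * s1 + n * s2) * r * p +
    2 * (n * s1 ^ 2) * p ^ 2 ≤ -k1 * p ^ 2 := by
  have a0 := h.n1_le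
  have a1 := amgm (A := 5 / 2 * -n1) (C := k1) (β := 2 * n1 * s1 + n * s2) (by linarith) h.k1_ge
    (by nlinarith [h.ii, h.iv, sq_nonneg (2 * n1 * s1 - n * s2)]) r p
  have a2 := mul_le_mul_of_nonneg_right h.k2_le (sq_nonneg p)
  have a3 := mul_le_mul_of_nonneg_right h.n2_le (sq_nonneg r)
  have a4 := mul_le_mul_of_nonneg_right h.iii (sq_nonneg p)
  linarith

theorem Pt.err (hv : 0 ≤ k1 * p ^ 2 + n1 * r ^ 2 + 2 * (n * s1) * r * p) :
    |n * σ * r| ≤ 1 / 40 * |p| ∧ |n1 * σ * r + n * s1 * r + n * s1 * (σ * p)| ≤ 1 / 40 * |p| := by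
  rcases h.v with ⟨e1, e2⟩ | ⟨b1, b2, b3⟩
  · simp only [e1, e2, mul_zero, zero_mul, add_zero, abs_zero, and_self]
    positivity
  have a0 := neg_nonneg.2 h.n1_le
  have hr : -n1 * r ^ 2 ≤ 4 * p ^ 2 := by
    nlinarith [h.cross r p, mul_le_mul_of_nonneg_right h.k1_le (sq_nonneg p)]
  have s2 : σ ^ 2 ≤ 1 := pow_le_one₀ h.s_ge h.s_le
  have c1 : |n * σ * r| ≤ 1 / 120 * |p| := abs_le_of (by norm_num) (by
    have := mul_le_mul_of_nonneg_right b1 (sq_nonneg r)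
    have := mul_le_mul_of_nonneg_right s2 (sq_nonneg (n * r))
    nlinarith [sq_nonneg p])
  have c2 : |n1 * σ * r| ≤ 1 / 120 * |p| := abs_le_of (by norm_num) (by
    have := mul_le_mul b2 hr (by positivity) (by norm_num)
    have := mul_le_mul_of_nonneg_right s2 (sq_nonneg (n1 * r))
    nlinarith [sq_nonneg p])
  have c3 : |n * s1 * r| ≤ 1 / 120 * |p| := abs_le_of (by norm_num) (by
    have := mul_le_mul_of_nonneg_right b3 (sq_nonneg r)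
    nlinarith [sq_nonneg p])
  have c4 : |n * s1 * (σ * p)| ≤ 1 / 120 * |p| := abs_le_of (by norm_num) (by
    have := mul_le_mul_of_nonneg_right (b3.trans (show -n1 / 10 ^ 5 ≤ 1 / 10 ^ 5 by linarith))
      (sq_nonneg p)
    have := mul_le_mul_of_nonneg_right s2 (sq_nonneg (n * s1 * p))
    nlinarith [sq_nonneg p])
  have := abs_nonneg p
  exact ⟨by linarith, (abs_add_three _ _ _).trans (by linarith)⟩

theorem Pt.low {E : ℝ} (hE : |E| ≤ 1 / 40 * |p|) : 2 / 5 * |p| ≤ |k * p + E| := by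
  have a1 : |k * p| ≤ |k * p + E| + |E| := by
    have := abs_sub (k * p + E) E
    rwa [add_sub_cancel_right] at this
  rw [abs_mul, abs_of_nonneg (by linarith [h.k_ge])] at a1
  nlinarith [mul_le_mul_of_nonneg_right h.k_ge (abs_nonneg p), abs_nonneg p]

theorem Pt.c1 {W W' E F : ℝ} (w0 : 0 ≤ W) (w1 : W ≤ 2 * k1 * p ^ 2) (w2 : W' ≤ -k1 * p ^ 2)
    (hE : |E| ≤ 1 / 40 * |p|) (hF : |F| ≤ 1 / 40 * |p|) :
    2 * W' * (k * p + E) ^ 2 - 4 * W * (k * p + E) * (k1 * p + F) + (k + n * σ ^ 2) * W ^ 2 ≤ 0 := by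
  have l := h.low p hE
  have k0 := h.k1_ge
  have s2 : n * σ ^ 2 ≤ 1 / 4 :=
    (mul_le_of_le_one_right h.n_pos.le (pow_le_one₀ h.s_ge h.s_le)).trans h.n_le
  have s3 : 0 ≤ n * σ ^ 2 := mul_nonneg h.n_pos.le (sq_nonneg _)
  have e1 : -(1 / 40 * p ^ 2) ≤ E * p := by
    have := neg_abs_le (E * p)
    rw [abs_mul] at this
    nlinarith [mul_le_mul_of_nonneg_right hE (abs_nonneg p), sq_abs p]
  have a1 : (k + n * σ ^ 2) * W ≤ 4 * ((k * p + E) * (k1 * p)) := by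
    have b1 := mul_le_mul_of_nonneg_left w1 (show 0 ≤ k + n * σ ^ 2 by linarith [h.k_ge])
    have b2 := mul_le_mul_of_nonneg_left e1 k0
    have b3 := mul_nonneg (mul_nonneg k0 (sq_nonneg p))
      (show 0 ≤ 2 * k - 1 / 10 - 2 * (n * σ ^ 2) by linarith [h.k_ge])
    nlinarith
  generalize k * p + E = x at *
  have a2 : -(x * F) ≤ |x| * (1 / 40 * |p|) := by
    have := neg_abs_le (x * F)
    rw [abs_mul] at this
    nlinarith [mul_le_mul_of_nonneg_left hF (abs_nonneg x)]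
  have a3 : |x| * (1 / 40 * |p|) ≤ x ^ 2 / 16 := by
    nlinarith [mul_le_mul_of_nonneg_left l (abs_nonneg x), sq_abs x]
  have a4 := mul_le_mul_of_nonneg_left (a2.trans a3) w0
  have a5 := mul_le_mul_of_nonneg_right w1 (sq_nonneg x)
  have a6 := mul_le_mul_of_nonneg_right w2 (sq_nonneg x)
  have a7 := mul_le_mul_of_nonneg_left a1 w0
  have a8 := mul_nonneg (mul_nonneg k0 (sq_nonneg p)) (sq_nonneg x)
  nlinarith

theorem Pt.c2 {W' : ℝ} (w0 : k1 * p ^ 2 + n1 * r ^ 2 + 2 * (n * s1) * r * p ≤ 0)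
    (w2 : W' ≤ -k1 * p ^ 2) :
    2 * W' * (n * r) ^ 2 - 4 * (k1 * p ^ 2 + n1 * r ^ 2 + 2 * (n * s1) * r * p) * (n * r) *
      (n1 * r + n * s1 * p) + n * (k1 * p ^ 2 + n1 * r ^ 2 + 2 * (n * s1) * r * p) ^ 2 ≤ 0 := by
  have a1 : 0 ≤ k1 * p ^ 2 - 3 * n1 * r ^ 2 - 2 * (n * s1) * r * p := by
    nlinarith [h.cross r p, mul_nonneg (neg_nonneg.2 h.n1_le) (sq_nonneg r)]
  have a2 := mul_nonpos_of_nonpos_of_nonneg (mul_nonpos_of_nonneg_of_nonpos h.n_pos.le w0) a1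
  have a3 : W' ≤ 0 := by nlinarith [mul_nonneg h.k1_ge (sq_nonneg p)]
  have a4 := mul_nonpos_of_nonpos_of_nonneg a3 (sq_nonneg (n * r))
  calc _ = 2 * (W' * (n * r) ^ 2) + n * (k1 * p ^ 2 + n1 * r ^ 2 + 2 * (n * s1) * r * p) *
        (k1 * p ^ 2 - 3 * n1 * r ^ 2 - 2 * (n * s1) * r * p) := by ring
    _ ≤ 0 := by linarith

end

end Vale.Agent.P255.Fm
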