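import Vale.Agent.P255.Z
import Vale.Agent.P255.Deck

open scoped Manifold ContDiff Topology
open Set Filter

namespace Vale.Agent.P255
open Z

section
variable {M : Type} [TopologicalSpace M] [ChartedSpace E3 M]

theorem geo_smul {g : M → Bil} {geo : M → E3 → ℝ → M} (hG : GeoFacts g) (hF : GeoFam g geo)
    (q : M) (v : E3) (s : ℝ) : geo q (s • v) 1 = geo q v s := by
  obtain ⟨r1, r2⟩ := hG.rep _ (hF q v).1 s 0
  have := hG.uniq _ _ (hF q (s • v)).1 r1 (by simp [(hF q _).2.1]) (by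
    rw [r2, (hF q _).2.2]; simp [(hF q v).2.2])
  simpa using congrFun this 1

theorem geo_zero {g : M → Bil} {geo : M → E3 → ℝ → M} (hG : GeoFacts g) (hF : GeoFam g geo)
    (q : M) : geo q 0 1 = q := by
  have := geo_smul hG hF q 0 0
  rw [smul_zero] at this
  rw [this, (hF q 0).2.1]

theorem expFam [T2Space M] (hC : CStmt) (hK : KStmt) {g : M → Bil} {geo : M → E3 → ℝ → M}
    (hm : IsMet g) (hc : ChartFacts g) (hG : GeoFacts g) (hF : GeoFam g geo) (hE : ExpC1 g geo)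
    (hN : NonposCurvature (un g)) : ExpFam (fun p v => geo p v 1) g := by
  obtain ⟨k1, k2⟩ := hK M g geo hc hG hF hE hN
  refine ⟨hC M g geo hc hG hF hE k1, geo_zero hG hF, hm.symm, hm.pos,
    fun p q v c h1 h2 => k2 p q v c h1 fun s => by rw [h2, geo_smul hG hF], fun q v => ?_⟩
  refine ⟨vel (geo q v) (1 / 2), ?_, fun s => ?_⟩
  · rw [geo_smul hG hF, hG.speed _ (hF q v).1, (hF q v).2.1, (hF q v).2.2]
  · obtain ⟨r1, r2⟩ := hG.rep _ (hF q v).1 1 (1 / 2)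
    have := hG.uniq _ _ (hF (geo q v (1 / 2)) (vel (geo q v) (1 / 2))).1 r1
      (by simp [(hF _ _).2.1]) (by rw [r2, (hF _ _).2.2]; simp)
    simp only [geo_smul hG hF]
    rw [this]; simp [add_comm]

/-- the fibre of the right piece is a closed geodesic -/
theorem fibre_geo (hA : AStmt) {g : M → Bil} {a b σ : ℝ → ℝ} {tL tR ρL ρR A B t₁ t₄ : ℝ}
    {mid : M → Prop} {ψN ψL ψR : E3 → M} (hc : ChartFacts g) (hG : GeoFacts g)
    (hN : Neck a b σ tL tR ρL ρR A B) (h4 : t₄ < tR)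
    (hP : Prof (fun t => 1 / a t ^ 2) (fun t => 1 / b t ^ 2) σ t₁ t₄)
    (hT : NeckAtlas g a b σ tL tR mid) (hp : Param tL tR ρL ρR mid ψN ψL ψR) :
    IsGeodesic (un g) (fun s => ψN !₂[tR, s, 0]) ∧ vel (fun s => ψN !₂[tR, s, 0]) 0 = e1 := by
  have hl : ∀ s : ℝ, (!₂[tR, s, 0] : E3) = !₂[tR, 0, 0] + s • e1 := fun s => by
    ext i; fin_cases i <;> simp [e1]
  have hcont : Continuous fun s : ℝ => (!₂[tR, s, 0] : E3) := by
    fun_prop
  have hch : ∀ s₀ : ℝ, ∃ k : E3, k 0 = 0 ∧ ∀ᶠ s in 𝓝 s₀,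
      chartAt E3 (ψN !₂[tR, s₀, 0]) (ψN !₂[tR, s, 0]) = (!₂[tR, 0, 0] + k) + s • e1 := fun s₀ => by
    obtain ⟨k, k0, k1⟩ := (hp.geo s₀).2
    refine ⟨k, k0, ?_⟩
    filter_upwards [hcont.continuousAt.eventually k1] with s hs
    rw [hs, hl]; abel
  have hdl : ∀ (z : E3) (s : ℝ), HasDerivAt (fun s : ℝ => z + s • e1) e1 s := fun z s => by
    simpa using ((hasDerivAt_id s).smul_const e1).const_add z
  have hγ : Continuous fun s : ℝ => ψN !₂[tR, s, 0] :=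
    hp.cN.comp_continuous hcont fun s => by
      have := hN.hρL; have := hN.hρR; have := hN.lt
      constructor <;> simp <;> linarith
  refine ⟨hG.one _ hγ fun s₀ => ⟨_, mem_chart_source E3 _, ?_⟩, ?_⟩
  · obtain ⟨k, k0, k1⟩ := hch s₀
    set x := ψN !₂[tR, s₀, 0] with hx
    have hsrc : ∀ᶠ r in 𝓝 s₀, ψN !₂[tR, r, 0] ∈ (chartAt E3 x).source :=
      hγ.continuousAt.eventually ((chartAt E3 x).open_source.mem_nhds (mem_chart_source E3 x))
    have d1 : ∀ᶠ r in 𝓝 s₀, HasDerivAt (fun s => chartAt E3 x (ψN !₂[tR, s, 0])) e1 r :=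
      k1.eventually_nhds.mono fun r hr => (hdl _ r).congr_of_eventuallyEq hr
    filter_upwards [d1.eventually_nhds, hsrc, k1] with r hr hs hk
    have d2 : deriv (fun s => chartAt E3 x (ψN !₂[tR, s, 0])) =ᶠ[𝓝 r] fun _ => e1 :=
      hr.mono fun s hs => hs.deriv
    have d3 := (hasDerivAt_const r e1).congr_of_eventuallyEq d2
    refine ⟨hr.self_of_nhds.differentiableAt, d3.differentiableAt, ?_⟩
    have hy := (chartAt E3 x).map_source hs
    obtain ⟨Γ, hΓ⟩ := hA.1 _ _ (hc.cm x)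
    rw [covD, d3.deriv, d2.eq_of_nhds, zero_add, hΓ.eq _ hy]
    by_contra hne
    have hpos := (hc.cm x).pos _ hy _ hne
    have hnk : ∀ y ∈ (chartAt E3 x).target, ∀ u v, locB g x y u v =
        nk (fun t => 1 / a t ^ 2) (fun t => 1 / b t ^ 2) σ (y 0) u v := fun y hy u v => by
      rw [hT.neck x (hp.geo s₀).1 y hy]; simp [neckF, nk]
    rw [hΓ.low _ hy, fd1 hP (hc.cm x) hnk hy, fd1 hP (hc.cm x) hnk hy] at hpos
    have ht : (chartAt E3 x (ψN !₂[tR, r, 0])) 0 = tR := by rw [hk]; simp [k0, e1]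
    have k00 := hP.k0 tR h4.le
    rw [ht] at hpos
    simp only [nk1, k00] at hpos
    simp [e1] at hpos
  · obtain ⟨k, -, k1⟩ := hch 0
    exact ((hdl _ 0).congr_of_eventuallyEq k1).deriv

end

/-- the deck group -/
def deckG {M : Type} (f : E3 → M) : Subgroup (E3 ≃ₜ E3) where
  carrier := {φ | Deck f φ}
  mul_mem' := fun {φ ψ} h1 h2 => Deck.trans h2 h1
  one_mem' := fun _ => rfl
  inv_mem' := fun h => Deck.symm h

/-- the action of the deck group -/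
@[reducible] def deckA {M : Type} (f : E3 → M) : MulAction (deckG f) E3 where
  smul φ z := φ.1 z
  one_smul _ := rfl
  mul_smul _ _ _ := rfl

theorem fin (hA : AStmt) (hB : BStmt) (hGs : GStmt) (hE : EStmt) (hJ : JStmt) (hC : CStmt)
    (hK : KStmt) (hX : XStmt) (hNs : NStmt) (hTs : TStmt) (hM : MStmt) (hF : FStmt)
    (hR : RStmt) :
    ∃ (M : Type) (_ : TopologicalSpace M) (_ : ChartedSpace E3 M)
      (_ : IsManifold 𝓘(ℝ, E3) ∞ M) (_ : T2Space M) (_ : CompactSpace M) (_ : ConnectedSpace M),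
      (∃ g : Metric E3 M, NoConjugatePoints (ip g)) ∧
      ∀ g : Metric E3 M, ¬ NonposCurvature (ip g) := by
  obtain ⟨a, b, σ, tL, tR, ρL, ρR, A, B, t₁, t₄, hN, h1, h4, hP⟩ := hF
  obtain ⟨M, _, _, i1, i2, i3, i4, g₀, mid, ψN, ψL, ψR, m₀, hT, hp⟩ := hM a b σ tL tR ρL ρR A B hN
  obtain ⟨B1, B2, B3⟩ := hB M
  have c₀ := B3 g₀ m₀
  have G₀ := hGs M g₀ c₀
  have nc₀ := zStmt hA hR M g₀ a b σ tL tR ρL ρR A B t₁ t₄ mid c₀ G₀ hN h1 h4 hP hT
  refine ⟨M, inferInstance, inferInstance, i1, i2, i3, i4, ?_, fun g' hg' => ?_⟩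
  · obtain ⟨g, hg⟩ := B2 g₀ m₀
    exact ⟨g, hg ▸ nc₀⟩
  obtain ⟨g, m, hg⟩ := B1 g'
  rw [← hg] at hg'
  have c := B3 g m
  have G := hGs M g c
  obtain ⟨geo, hgeo⟩ := hE M g c
  obtain ⟨geo₀, hgeo₀⟩ := hE M g₀ c₀
  have ef := expFam hC hK m c G hgeo (hJ M g geo c G hgeo) hg'
  set o := ψN !₂[tR, 0, 0] with ho
  have cov₀ := hC M g₀ geo₀ c₀ G₀ hgeo₀ (hJ M g₀ geo₀ c₀ G₀ hgeo₀) nc₀ o
  obtain ⟨d, hd, hinv, δ, hδ, hfix⟩ := hX M _ g ef o
  have cov := ef.cov o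
  have f0 := ef.zero o
  set f : E3 → M := fun v => geo o v 1 with hf
  have hρL := hN.hρL; have hρR := hN.hρR; have hlt := hN.lt
  let cl : E3 → E3 := fun z => !₂[max (tL - ρL) (min (z 0) (tR + ρR)), z 1, z 2]
  have clc : Continuous cl := by
    simp only [cl]; fun_prop
  have cN : Continuous fun z => ψN (cl z) := hp.cN.comp_continuous clc fun z => by
    constructor
    · simp only [cl, Matrix.cons_val_zero, lt_max_iff]; left; linarith
    · simp only [cl, Matrix.cons_val_zero, max_lt_iff, min_lt_iff]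
      exact ⟨by linarith, Or.inr (by linarith)⟩
  have cl0 : ∀ t x y : ℝ, tL - ρL ≤ t → t ≤ tR + ρR → cl !₂[t, x, y] = !₂[t, x, y] :=
    fun t x y h1 h2 => by simp [cl, min_eq_left h2, max_eq_right h1]
  obtain ⟨L, Lc, L0, L1⟩ := exists_lift cov cN !₂[tR, 0, 0] 0 (by
    rw [cl0 _ _ _ (by linarith) (by linarith)]; exact f0)
  have tr : ∀ e : E3, e 0 = 0 → (∀ z, ψN (z + e) = ψN z) →
      ∃ x : E3 ≃ₜ E3, Deck f x ∧ ∀ z, L (z + e) = x (L z) := fun e he hper => by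
    have hcl : ∀ z, cl (z + e) = cl z + e := fun z => by
      ext i; fin_cases i <;> simp [cl, he]
    obtain ⟨x, x1, x2⟩ := exists_deck cov (z := L 0) (z' := L (0 + e)) (by rw [L1, L1, hcl, hper])
    exact ⟨x, x1, lift_unique cov (Lc.comp (by fun_prop)) (x.continuous.comp Lc)
      (fun z => by rw [x1, L1, L1, hcl, hper]) 0 x2.symm⟩
  obtain ⟨x, xd, xL⟩ := tr _ (by simp) hp.per1
  obtain ⟨y, yd, yL⟩ := tr _ (by simp) hp.per2
  have xy : ∀ z, x (y z) = y (x z) := deck_ext cov (x.continuous.comp y.continuous)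
    (y.continuous.comp x.continuous) (fun z => by rw [xd, yd])
    (fun z => by rw [yd, xd]) (L 0) (by
      rw [← yL, ← xL, ← xL, ← yL]; congr 1; abel)
  obtain ⟨a₁, b₁, da₁, db₁, ca₁, cb₁, r₁⟩ := hTs M f cov ρL ψL hρL hp.pL
    (fun w => L !₂[tL - ρL, w.1, w.2]) (Lc.comp (by fun_prop))
    (fun θ u => by rw [L1, cl0 _ _ _ le_rfl (by linarith), hp.gL]) x y xd yd
    (fun θ u => by rw [← xL]; congr 1; ext i; fin_cases i <;> simp)
    (fun θ u => by rw [← yL]; congr 1; ext i; fin_cases i <;> simp)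
  obtain ⟨a₂, b₂, da₂, db₂, ca₂, cb₂, r₂⟩ := hTs M f cov ρR ψR hρR hp.pR
    (fun w => L !₂[tR + ρR, w.2 + w.1, w.1]) (Lc.comp (by fun_prop))
    (fun θ u => by rw [L1, cl0 _ _ _ (by linarith) le_rfl, hp.gR]) (y.trans x) x (yd.trans xd) xd
    (fun θ u => by
      rw [Homeomorph.trans_apply, ← yL, ← xL]; congr 1; ext i; fin_cases i <;> simp; ring)
    (fun θ u => by rw [← xL]; congr 1; ext i; fin_cases i <;> simp; ring)
  letI := deckA f
  obtain ⟨z, hz⟩ := hNs E3 d hd ⟨0⟩ (deckG f) (fun φ => hinv φ.1 φ.2) ⟨x, xd⟩ ⟨y, yd⟩ ⟨a₁, da₁⟩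
    ⟨b₁, db₁⟩ ⟨a₂, da₂⟩ ⟨b₂, db₂⟩ (Subtype.ext (Homeomorph.ext xy))
    (Subtype.ext (Homeomorph.ext ca₁)) (Subtype.ext (Homeomorph.ext cb₁))
    (Subtype.ext (Homeomorph.ext r₁)) (Subtype.ext (Homeomorph.ext ca₂))
    (Subtype.ext (Homeomorph.ext cb₂)) (Subtype.ext (Homeomorph.ext r₂)) δ hδ
  have x1 := deck_fix cov xd (hfix x xd z hz)
  obtain ⟨H, H0, H1⟩ := exists_homeo cov₀ cov 0 0 (by rw [geo_zero G₀ hgeo₀]; exact f0.symm)
  obtain ⟨γ1, γ2⟩ := fibre_geo hA c₀ G₀ hN h4 hP hT hp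
  have γ3 := G₀.uniq _ _ (hgeo₀ o e1).1 γ1 (hgeo₀ o e1).2.1 (by rw [γ2, (hgeo₀ o e1).2.2])
  have key := lift_unique cov₀ (F₁ := fun s : ℝ => H (L !₂[tR, s, 0])) (F₂ := fun s : ℝ => s • e1)
    (H.continuous.comp (Lc.comp (by fun_prop))) (by fun_prop)
    (fun s => by
      rw [H1, L1, cl0 _ _ _ (by linarith) (by linarith), geo_smul G₀ hgeo₀, γ3]) 0
    (by simp only [L0, H0, zero_smul])
  have k1 := key (2 * Real.pi)
  have k2 : (!₂[tR, 2 * Real.pi, 0] : E3) = !₂[tR, 0, 0] + !₂[0, 2 * Real.pi, 0] := by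
    ext i; fin_cases i <;> simp
  rw [k2, xL, x1, L0, H0] at k1
  have k3 := congrArg (fun z : E3 => z 1) k1
  simp [e1] at k3

end Vale.Agent.P255
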