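import Vale.Agent.P255.Spec

/-! P255, module J: `C^1` dependence of geodesics on the initial vector. -/

open scoped Manifold ContDiff Topology
open Set Filter

namespace Vale.Agent.P255

namespace Jm

variable {M : Type} [TopologicalSpace M] [ChartedSpace E3 M]

/-- position and velocity in the chart at `a` -/
noncomputable def Zc (a : M) (γ : ℝ → M) (s : ℝ) : E3 × E3 :=
  (chartAt E3 a (γ s), deriv (fun r => chartAt E3 a (γ r)) s)

/-- the geodesic vector field -/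
noncomputable def Fg (Γ : E3 → E3 →L[ℝ] E3 →L[ℝ] E3) (z : E3 × E3) : E3 × E3 :=
  (z.2, -Γ z.1 z.2 z.2)

theorem Fg_smooth {Γ : E3 → E3 →L[ℝ] E3 →L[ℝ] E3} {Ω : Set E3} (h : ContDiffOn ℝ ∞ Γ Ω) :
    ContDiffOn ℝ ∞ (Fg Γ) (Ω ×ˢ univ) := by
  have h1 : ContDiffOn ℝ ∞ (fun z : E3 × E3 => Γ z.1) (Ω ×ˢ univ) :=
    h.comp contDiffOn_fst fun z hz => hz.1
  exact contDiffOn_snd.prodMk ((h1.clm_apply contDiffOn_snd).clm_apply contDiffOn_snd).neg

theorem Fg_der {Γ : E3 → E3 →L[ℝ] E3 →L[ℝ] E3} {z : E3 × E3} (h : DifferentiableAt ℝ Γ z.1)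
    (x : E3 × E3) : fderiv ℝ (Fg Γ) z x =
      (x.2, -(Γ z.1 z.2 x.2 + (Γ z.1 x.2 z.2 + fderiv ℝ Γ z.1 x.1 z.2 z.2))) := by
  have h1 : HasFDerivAt (fun z : E3 × E3 => Γ z.1)
      ((fderiv ℝ Γ z.1).comp (ContinuousLinearMap.fst ℝ E3 E3)) z :=
    HasFDerivAt.comp (𝕜 := ℝ) (E := E3 × E3) (F := E3) (G := E3 →L[ℝ] E3 →L[ℝ] E3) (g := Γ)
      (f := Prod.fst) z h.hasFDerivAt hasFDerivAt_fst
  have h2 := (hasFDerivAt_snd (𝕜 := ℝ) (p := z)).prodMk
    ((h1.clm_apply (hasFDerivAt_snd (𝕜 := ℝ) (p := z))).clm_apply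
      (hasFDerivAt_snd (𝕜 := ℝ) (p := z))).neg
  have h3 : fderiv ℝ (Fg Γ) z = _ := h2.fderiv
  rw [h3]
  simp

theorem dfst {f : ℝ → E3 × E3} {f' : E3 × E3} {x : ℝ} (h : HasDerivAt f f' x) :
    HasDerivAt (fun r => (f r).1) f'.1 x :=
  (ContinuousLinearMap.fst ℝ E3 E3).hasFDerivAt.comp_hasDerivAt x h

theorem dsnd {f : ℝ → E3 × E3} {f' : E3 × E3} {x : ℝ} (h : HasDerivAt f f' x) :
    HasDerivAt (fun r => (f r).2) f'.2 x :=
  (ContinuousLinearMap.snd ℝ E3 E3).hasFDerivAt.comp_hasDerivAt x h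

variable {g : M → Bil}

theorem flow (hO : OStmt) (hg : GeoFacts g) (a : M)
    {Γ : E3 → E3 →L[ℝ] E3 →L[ℝ] E3} (hΓ : IsGam (locB g a) (chartAt E3 a).target Γ)
    {z₀ : E3 × E3} (hz : z₀.1 ∈ (chartAt E3 a).target) :
    ∃ ε > 0, ∃ W : Set (E3 × E3), IsOpen W ∧ z₀ ∈ W ∧ ∃ (Φ : ℝ → E3 × E3 → E3 × E3)
      (Y : ℝ → (E3 × E3) →L[ℝ] (E3 × E3)), (∀ s ∈ Ioo (-ε) ε, ContDiffOn ℝ 1 (Φ s) W) ∧
      Y 0 = ContinuousLinearMap.id ℝ _ ∧
      (∀ s ∈ Ioo (-ε) ε, HasFDerivAt (Φ s) (Y s) z₀ ∧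
        HasDerivAt Y ((fderiv ℝ (Fg Γ) (Φ s z₀)).comp (Y s)) s) ∧
      ∀ γ, IsGeodesic (un g) γ → ∀ s₀, γ s₀ ∈ (chartAt E3 a).source → Zc a γ s₀ ∈ W →
        ∀ s, s - s₀ ∈ Ioo (-ε) ε → γ s ∈ (chartAt E3 a).source ∧
          Zc a γ s = Φ (s - s₀) (Zc a γ s₀) := by
  obtain ⟨ε, hε, W, hW, hzW, Φ, Y, h1, h2⟩ := hO (E3 × E3) (Fg Γ) _
    ((chartAt E3 a).open_target.prod isOpen_univ) (Fg_smooth hΓ.smooth) z₀ ⟨hz, trivial⟩
  refine ⟨ε, hε, W, hW, hzW, Φ, fun s => Y s z₀, h1, (h2 z₀ hzW).2.1,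
    fun s hs => ((h2 z₀ hzW).2.2 s hs).2.2, fun γ hγ s₀ hs₀ hZ => ?_⟩
  obtain ⟨e0, -, h3⟩ := h2 _ hZ
  set z := Zc a γ s₀ with hzdef
  have hI : ∀ s, s ∈ Ioo (s₀ - ε) (s₀ + ε) → s - s₀ ∈ Ioo (-ε) ε := fun s hs =>
    ⟨by linarith [hs.1], by linarith [hs.2]⟩
  have hd : ∀ s ∈ Ioo (s₀ - ε) (s₀ + ε),
      HasDerivAt (fun r => Φ (r - s₀) z) (Fg Γ (Φ (s - s₀) z)) s := fun s hs =>
    (h3 _ (hI s hs)).2.1.comp_sub_const s s₀
  have hd1 : ∀ s ∈ Ioo (s₀ - ε) (s₀ + ε),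
      HasDerivAt (fun r => (Φ (r - s₀) z).1) (Φ (s - s₀) z).2 s := fun s hs => dfst (hd s hs)
  have hd2 : ∀ s ∈ Ioo (s₀ - ε) (s₀ + ε), HasDerivAt (deriv fun r => (Φ (r - s₀) z).1)
      (-Γ (Φ (s - s₀) z).1 (Φ (s - s₀) z).2 (Φ (s - s₀) z).2) s := fun s hs => by
    refine (dsnd (hd s hs)).congr_of_eventuallyEq ?_
    filter_upwards [isOpen_Ioo.mem_nhds hs] with r hr using (hd1 r hr).deriv
  have hs0 : s₀ ∈ Ioo (s₀ - ε) (s₀ + ε) := ⟨by linarith, by linarith⟩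
  have hu := hg.uchart γ hγ a (fun r => (Φ (r - s₀) z).1) s₀ _ _ hs0 (fun s hs => by
      have hm := (h3 _ (hI s hs)).1.1
      refine ⟨hm, (hd1 s hs).differentiableAt, (hd2 s hs).differentiableAt, ?_⟩
      rw [covD, (hd2 s hs).deriv, hΓ.eq _ hm, (hd1 s hs).deriv]
      simp) hs₀ (by simp only [sub_self, e0]; rfl)
      (by rw [(hd1 s₀ hs0).deriv]; simp only [sub_self, e0]; rfl)
  have hv : ∀ s ∈ Ioo (s₀ - ε) (s₀ + ε), chartAt E3 a (γ s) = (Φ (s - s₀) z).1 := fun s hs => by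
    rw [hu s hs]
    exact (chartAt E3 a).right_inv (h3 _ (hI s hs)).1.1
  intro s hs
  have hs' : s ∈ Ioo (s₀ - ε) (s₀ + ε) := ⟨by linarith [hs.1], by linarith [hs.2]⟩
  refine ⟨?_, Prod.ext (hv s hs') ?_⟩
  · rw [hu s hs']
    exact (chartAt E3 a).map_target (h3 _ hs).1.1
  · rw [← (hd1 s hs').deriv]
    refine EventuallyEq.deriv_eq ?_
    filter_upwards [isOpen_Ioo.mem_nhds hs'] with r hr using hv r hr

theorem tau_smooth (hc : ChartFacts g) {a b x : M} (ha : x ∈ (chartAt E3 a).source)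
    (hb : x ∈ (chartAt E3 b).source) :
    ContDiffAt ℝ ∞ (fun y => chartAt E3 b ((chartAt E3 a).symm y)) (chartAt E3 a x) := by
  refine (hc.sm a b).contDiffAt (IsOpen.mem_nhds
    ((chartAt E3 a).isOpen_inter_preimage_symm (chartAt E3 b).open_source)
    ⟨(chartAt E3 a).map_source ha, ?_⟩)
  rwa [mem_preimage, (chartAt E3 a).left_inv ha]

variable {geo : M → E3 → ℝ → M} {p : M} {v : E3}

theorem change (hc : ChartFacts g) (hg : GeoFacts g) (hf : GeoFam g geo) {s : ℝ} {a b : M}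
    (h0 : ContinuousAt (fun v' => geo p v' s) v) (ha : geo p v s ∈ (chartAt E3 a).source)
    (hb : geo p v s ∈ (chartAt E3 b).source)
    (h : ContDiffAt ℝ 1 (fun v' => Zc a (geo p v') s) v) :
    ContDiffAt ℝ 1 (fun v' => Zc b (geo p v') s) v := by
  have ht := tau_smooth hc ha hb
  have t1 : ContDiffAt ℝ 1 (fun y => chartAt E3 b ((chartAt E3 a).symm y))
      (Zc a (geo p v) s).1 := ht.of_le (by exact_mod_cast le_top)
  have t2 : ContDiffAt ℝ 1 (fderiv ℝ fun y => chartAt E3 b ((chartAt E3 a).symm y))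
      (Zc a (geo p v) s).1 := ht.fderiv_right (m := 1) (WithTop.coe_le_coe.2 (le_top : (1 + 1 : ℕ∞) ≤ ⊤))
  have h1 := (t1.comp v h.fst).prodMk ((t2.comp v h.fst).clm_apply h.snd)
  refine h1.congr_of_eventuallyEq ?_
  filter_upwards [h0.eventually_mem ((chartAt E3 a).open_source.mem_nhds ha),
    h0.eventually_mem ((chartAt E3 b).open_source.mem_nhds hb)] with v' h2 h3
  refine Prod.ext ?_ ?_
  · simp only [Zc, Function.comp_apply]
    rw [(chartAt E3 a).left_inv h2]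
  · simp only [Zc, Function.comp_apply]
    rw [hg.dv _ (hf p v').1 a s h2, hg.dv _ (hf p v').1 b s h3, hc.chg a b _ h2 h3]
    rfl

/-- regularity at time `s` -/
def Pt (geo : M → E3 → ℝ → M) (p : M) (v : E3) (s : ℝ) : Prop :=
  ContinuousAt (fun v' => geo p v' s) v ∧
    ∀ a, geo p v s ∈ (chartAt E3 a).source → ContDiffAt ℝ 1 (fun v' => Zc a (geo p v') s) v

theorem Z0 (hc : ChartFacts g) (hg : GeoFacts g) (hf : GeoFam g geo) :
    (fun v' => Zc p (geo p v') 0) = fun v' => (chartAt E3 p p, v') := by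
  funext v'
  have e := (hf p v').2.1
  refine Prod.ext (by simp [Zc, e]) ?_
  simp only [Zc]
  rw [hg.dv _ (hf p v').1 p 0 (by rw [e]; exact mem_chart_source _ _), e, hc.self, (hf p v').2.2]
  rfl

theorem pt0 (hc : ChartFacts g) (hg : GeoFacts g) (hf : GeoFam g geo) : Pt geo p v 0 := by
  have h0 : ContinuousAt (fun v' => geo p v' 0) v := by
    simp only [fun v' => (hf p v').2.1]
    exact continuousAt_const
  refine ⟨h0, fun a ha => change hc hg hf h0 (a := p) ?_ ha ?_⟩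
  · rw [(hf p v).2.1]; exact mem_chart_source _ _
  · rw [Z0 hc hg hf]
    exact contDiffAt_const.prodMk contDiffAt_id

theorem step (hA : AStmt) (hO : OStmt) (hc : ChartFacts g) (hg : GeoFacts g) (hf : GeoFam g geo)
    (s₁ : ℝ) : ∃ U ∈ 𝓝 s₁, ∀ s₀ ∈ U, ∀ s ∈ U, Pt geo p v s₀ → Pt geo p v s := by
  set a := geo p v s₁
  have ha : geo p v s₁ ∈ (chartAt E3 a).source := mem_chart_source _ _
  obtain ⟨Γ, hΓ⟩ := hA.1 _ _ (hc.cm a)
  obtain ⟨ε, hε, W, hW, hzW, Φ, Y, h1, -, -, h2⟩ := flow hO hg a hΓ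
    (z₀ := Zc a (geo p v) s₁) ((chartAt E3 a).map_source ha)
  have hγ := (hf p v).1
  have hz : ContinuousAt (Zc a (geo p v)) s₁ :=
    (hγ.2 a s₁ ha).1.continuousAt.prodMk (hγ.2 a s₁ ha).2.1.continuousAt
  refine ⟨_, inter_mem (inter_mem (hz.eventually_mem (hW.mem_nhds hzW))
    (hγ.1.continuousAt.eventually_mem ((chartAt E3 a).open_source.mem_nhds ha)))
    (Ioo_mem_nhds (a := s₁ - ε / 2) (b := s₁ + ε / 2) (by linarith) (by linarith)), ?_⟩
  rintro s₀ ⟨⟨b1, b2⟩, b3⟩ s ⟨⟨-, c2⟩, c3⟩ ⟨d1, d2⟩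
  have hs : s - s₀ ∈ Ioo (-ε) ε := ⟨by linarith [b3.2, c3.1], by linarith [b3.1, c3.2]⟩
  have d3 := d2 a b2
  have ev : ∀ᶠ v' in 𝓝 v, geo p v' s ∈ (chartAt E3 a).source ∧
      Zc a (geo p v') s = Φ (s - s₀) (Zc a (geo p v') s₀) := by
    filter_upwards [d1.eventually_mem ((chartAt E3 a).open_source.mem_nhds b2),
      d3.continuousAt.eventually_mem (hW.mem_nhds b1)] with v' e1 e2
    exact h2 _ (hf p v').1 s₀ e1 e2 s hs
  have d4 : ContDiffAt ℝ 1 (fun v' => Zc a (geo p v') s) v :=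
    (((h1 _ hs).contDiffAt (hW.mem_nhds b1)).comp v d3).congr_of_eventuallyEq
      (ev.mono fun v' h => h.2)
  have d5 : ContinuousAt (fun v' => geo p v' s) v := by
    have := ((chartAt E3 a).continuousAt_symm ((chartAt E3 a).map_source c2)).comp_of_eq
      d4.fst.continuousAt rfl
    refine this.congr (ev.mono fun v' h => ?_)
    exact (chartAt E3 a).left_inv h.1
  exact ⟨d5, fun b hb => change hc hg hf d5 c2 hb d4⟩

theorem pt (hA : AStmt) (hO : OStmt) (hc : ChartFacts g) (hg : GeoFacts g) (hf : GeoFam g geo)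
    (s : ℝ) : Pt geo p v s := by
  have h : IsClopen {s | Pt geo p v s} := by
    constructor
    · rw [← isOpen_compl_iff, isOpen_iff_mem_nhds]
      intro s₁ hs
      obtain ⟨U, hU, h⟩ := step (p := p) (v := v) hA hO hc hg hf s₁
      exact mem_of_superset hU fun r hr c => hs (h r hr s₁ (mem_of_mem_nhds hU) c)
    · rw [isOpen_iff_mem_nhds]
      intro s₁ hs
      obtain ⟨U, hU, h⟩ := step (p := p) (v := v) hA hO hc hg hf s₁
      exact mem_of_superset hU fun r hr => h s₁ (mem_of_mem_nhds hU) r hr hs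
  have := h.eq_univ ⟨0, pt0 hc hg hf⟩
  exact (this ▸ mem_univ s : s ∈ {s | Pt geo p v s})

/-- the variation field -/
noncomputable def Jf (geo : M → E3 → ℝ → M) (p : M) (v w : E3) (r : ℝ) : E3 :=
  fderiv ℝ (fun v' => chartAt E3 (geo p v r) (geo p v' r)) v w

theorem loc_J (hc : ChartFacts g) {r : ℝ} (h : Pt geo p v r) {a : M}
    (ha : geo p v r ∈ (chartAt E3 a).source) (w : E3) :
    locVec a (geo p v) (Jf geo p v w) r = (fderiv ℝ (fun v' => Zc a (geo p v') r) v w).1 := by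
  have hb : geo p v r ∈ (chartAt E3 (geo p v r)).source := mem_chart_source _ _
  have h1 := ((h.2 a ha).differentiableAt one_ne_zero).hasFDerivAt.fst
  have h2 := ((h.2 _ hb).differentiableAt one_ne_zero).fst.hasFDerivAt
  have h3 := ((tau_smooth hc hb ha).differentiableAt (by simp)).hasFDerivAt.comp v h2
  have h4 := h1.unique (h3.congr_of_eventuallyEq (by
    filter_upwards [h.1.eventually_mem ((chartAt E3 (geo p v r)).open_source.mem_nhds hb)]
      with v' e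
    simp only [Zc, Function.comp_apply]
    rw [(chartAt E3 (geo p v r)).left_inv e]))
  have h5 := congrArg (fun L => L w) h4
  rw [locVec_eq, hc.chg _ a _ hb ha, hc.self]
  exact h5.symm

theorem var (hA : AStmt) (hO : OStmt) (hc : ChartFacts g) (hg : GeoFacts g) (hf : GeoFam g geo)
    {a : M} {s : ℝ} (ha : geo p v s ∈ (chartAt E3 a).source) (w : E3) :
    JacAt (loc (un g) a) (fun r => chartAt E3 a (geo p v r))
        (locVec a (geo p v) (Jf geo p v w)) s ∧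
      deriv (locVec a (geo p v) (Jf geo p v w)) s =
        (fderiv ℝ (fun v' => Zc a (geo p v') s) v w).2 := by
  obtain ⟨Γ, hΓ⟩ := hA.1 _ _ (hc.cm a)
  obtain ⟨ε, hε, W, hW, hzW, Φ, Y, -, h0, h1, h2⟩ := flow hO hg a hΓ
    (z₀ := Zc a (geo p v) s) ((chartAt E3 a).map_source ha)
  have hγ := (hf p v).1
  have hP := fun r => pt (p := p) (v := v) hA hO hc hg hf r
  set x := fderiv ℝ (fun v' => Zc a (geo p v') s) v w with hx
  set j := locVec a (geo p v) (Jf geo p v w) with hj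
  have hI : ∀ r, r ∈ Ioo (s - ε) (s + ε) → r - s ∈ Ioo (-ε) ε := fun r hr =>
    ⟨by linarith [hr.1], by linarith [hr.2]⟩
  have hs : s ∈ Ioo (s - ε) (s + ε) := ⟨by linarith, by linarith⟩
  have k1 := fun r hr => h2 _ hγ s ha hzW r (hI r hr)
  have k2 : ∀ r ∈ Ioo (s - ε) (s + ε), j r = (Y (r - s) x).1 := fun r hr => by
    rw [hj, loc_J hc (hP r) (k1 r hr).1]
    have d3 := ((hP s).2 a ha).differentiableAt one_ne_zero
    have e := ((h1 _ (hI r hr)).1.comp v d3.hasFDerivAt).congr_of_eventuallyEq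
      (f₁ := fun v' => Zc a (geo p v') r) (by
        filter_upwards [(hP s).1.eventually_mem ((chartAt E3 a).open_source.mem_nhds ha),
          d3.continuousAt.eventually_mem (hW.mem_nhds hzW)] with v' e1 e2
        exact (h2 _ (hf p v').1 s e1 e2 r (hI r hr)).2)
    rw [e.fderiv]
    rfl
  have k3 : ∀ r ∈ Ioo (s - ε) (s + ε), HasDerivAt (fun r => Y (r - s) x)
      (fderiv ℝ (Fg Γ) (Zc a (geo p v) r) (Y (r - s) x)) r := fun r hr => by
    have := ((h1 _ (hI r hr)).2.comp_sub_const r s).clm_apply (hasDerivAt_const r x)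
    rw [(k1 r hr).2]
    simpa using this
  have k4 : ∀ r ∈ Ioo (s - ε) (s + ε), DifferentiableAt ℝ Γ (Zc a (geo p v) r).1 := fun r hr =>
    (hΓ.smooth.contDiffAt ((chartAt E3 a).open_target.mem_nhds
      ((chartAt E3 a).map_source (k1 r hr).1))).differentiableAt (by simp)
  have k5 : ∀ r ∈ Ioo (s - ε) (s + ε), HasDerivAt j (Y (r - s) x).2 r := fun r hr => by
    have := dfst (k3 r hr)
    rw [Fg_der (k4 r hr)] at this
    refine this.congr_of_eventuallyEq ?_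
    filter_upwards [isOpen_Ioo.mem_nhds hr] with r' hr' using k2 r' hr'
  have k6 : deriv j s = x.2 := by rw [(k5 s hs).deriv]; simp [h0]
  have k7 : j s = x.1 := by rw [k2 s hs]; simp [h0]
  refine ⟨?_, k6⟩
  rw [loc_un]
  refine (hA.2.2.1 _ _ Γ (hc.cm a) hΓ _ j s ?_).2 ?_
  · filter_upwards [isOpen_Ioo.mem_nhds hs] with r hr
    exact ⟨(chartAt E3 a).map_source (k1 r hr).1, hγ.2 a r (k1 r hr).1, (k5 r hr).differentiableAt⟩
  · have := dsnd (k3 s hs)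
    rw [Fg_der (k4 s hs)] at this
    have e := this.congr_of_eventuallyEq (f₁ := deriv j) (by
      filter_upwards [isOpen_Ioo.mem_nhds hs] with r hr using (k5 r hr).deriv)
    refine e.congr_deriv ?_
    rw [k6, k7]
    simp only [sub_self, h0, ContinuousLinearMap.id_apply, Zc]
    rw [hΓ.symm _ ((chartAt E3 a).map_source ha) x.2, two_smul]
    abel

end Jm

theorem jStmt (hA : AStmt) (hO : OStmt) : JStmt := by
  intro M _ _ _ g geo hc hg hf p v
  have h1 := Jm.pt (p := p) (v := v) hA hO hc hg hf 1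
  refine ⟨h1.1, (h1.2 _ (mem_chart_source _ _)).fst, fun w => ⟨Jm.Jf geo p v w,
    fun a s ha => (Jm.var hA hO hc hg hf ha w).1, ?_, ?_, rfl⟩⟩
  · simp only [Jm.Jf, fun v' => (hf p v').2.1]
    simp
  · rw [(Jm.var hA hO hc hg hf (a := p) (s := 0)
      (by rw [(hf p v).2.1]; exact mem_chart_source _ _) w).2, Jm.Z0 hc hg hf]
    have h2 : fderiv ℝ (fun v' : E3 => (chartAt E3 p p, v')) v = _ :=
      ((hasFDerivAt_const (chartAt E3 p p) v).prodMk (hasFDerivAt_id v)).fderiv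
    rw [h2]
    simp

end Vale.Agent.P255
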