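import Vale.Agent.P255.Spec

/-! Module K: nonpositive curvature. -/

open scoped Manifold ContDiff Topology
open Set Filter

namespace Vale.Agent.P255

namespace Km

theorem cvx {h h1 h2 : ℝ → ℝ} (d1 : ∀ s, HasDerivAt h (h1 s) s) (d2 : ∀ s, HasDerivAt h1 (h2 s) s)
    (p0 : ∀ s, 0 ≤ h s) (p2 : ∀ s, 0 ≤ h2 s) (cs : ∀ s, h1 s ^ 2 ≤ 2 * h s * h2 s) {e : ℝ}
    (he : 0 < e) : ConvexOn ℝ univ fun s => √(h s + e) := by
  have q : ∀ s, 0 < h s + e := fun s => by linarith [p0 s]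
  have f1 : ∀ s, HasDerivAt (fun s => √(h s + e)) (h1 s / (2 * √(h s + e))) s := fun s =>
    ((d1 s).add_const e).sqrt (q s).ne'
  have e1 : (deriv fun s => √(h s + e)) = fun s => h1 s / (2 * √(h s + e)) :=
    funext fun s => (f1 s).deriv
  have f2 := fun s => (d2 s).fun_div ((f1 s).const_mul 2)
    (mul_pos two_pos (Real.sqrt_pos.2 (q s))).ne'
  refine convexOn_univ_of_deriv2_nonneg (fun s => (f1 s).differentiableAt)
    (e1 ▸ fun s => (f2 s).differentiableAt) fun s => ?_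
  show 0 ≤ deriv (deriv _) s
  rw [e1, (f2 s).deriv]
  have r0 := Real.sqrt_pos.2 (q s)
  have r1 := Real.mul_self_sqrt (q s).le
  generalize √(h s + e) = r at *
  refine div_nonneg ?_ (sq_nonneg _)
  have : h2 s * (2 * r) - h1 s * (2 * (h1 s / (2 * r))) = (2 * h2 s * (r * r) - h1 s ^ 2) / r := by
    field_simp
  rw [this, r1]
  exact div_nonneg (by nlinarith [cs s, mul_nonneg (p2 s) he.le]) r0.le

theorem real {h h1 h2 : ℝ → ℝ} (d1 : ∀ s, HasDerivAt h (h1 s) s) (d2 : ∀ s, HasDerivAt h1 (h2 s) s)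
    (p0 : ∀ s, 0 ≤ h s) (p2 : ∀ s, 0 ≤ h2 s) (cs : ∀ s, h1 s ^ 2 ≤ 2 * h s * h2 s) {s₁ A : ℝ}
    (z : h s₁ = 0) (hA : 2 * A ≤ h2 s₁) (s : ℝ) : (s - s₁) ^ 2 * A ≤ h s := by
  have k1 : ∀ l : ℝ, 0 ≤ l → l ≤ 1 → h (s₁ + l * (s - s₁)) ≤ l ^ 2 * h s := by
    intro l l0 l1
    have : √(h (s₁ + l * (s - s₁))) ≤ l * √(h s) := by
      refine le_of_forall_pos_le_add fun e he => ?_
      have c := (cvx d1 d2 p0 p2 cs (pow_pos he 2)).2 (mem_univ s₁) (mem_univ s)
        (sub_nonneg.2 l1) l0 (sub_add_cancel 1 l)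
      simp only [smul_eq_mul, z, zero_add, Real.sqrt_sq he.le] at c
      rw [show (1 - l) * s₁ + l * s = s₁ + l * (s - s₁) by ring] at c
      have a1 : √(h (s₁ + l * (s - s₁))) ≤ √(h (s₁ + l * (s - s₁)) + e ^ 2) :=
        Real.sqrt_le_sqrt (le_add_of_nonneg_right (sq_nonneg e))
      have a2 : √(h s + e ^ 2) ≤ √(h s) + e := Real.sqrt_le_iff.2 ⟨by positivity, by
        nlinarith [Real.sq_sqrt (p0 s), mul_nonneg (Real.sqrt_nonneg (h s)) he.le]⟩
      nlinarith [mul_le_mul_of_nonneg_left a2 l0]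
    have := pow_le_pow_left₀ (Real.sqrt_nonneg _) this 2
    rwa [Real.sq_sqrt (p0 _), mul_pow, Real.sq_sqrt (p0 _)] at this
  have z1 : h1 s₁ = 0 := by
    have := cs s₁
    rw [z] at this
    nlinarith
  have k2 : ∀ κ < A, (s - s₁) ^ 2 * κ ≤ h s := by
    intro κ hκ
    have g1 : ∀ t, HasDerivAt (fun t => h t - κ * (t - s₁) ^ 2) (h1 t - 2 * κ * (t - s₁)) t :=
      fun t => ((d1 t).fun_sub ((((hasDerivAt_id' t).sub_const s₁).fun_pow 2).const_mul κ)).congr_deriv
        (by simp only [Nat.cast_ofNat, Nat.add_one_sub_one, pow_one]; ring)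
    have e1 : (deriv fun t => h t - κ * (t - s₁) ^ 2) = fun t => h1 t - 2 * κ * (t - s₁) :=
      funext fun t => (g1 t).deriv
    have g2 := ((d2 s₁).fun_sub (((hasDerivAt_id' s₁).sub_const s₁).const_mul (2 * κ))).deriv
    have m : IsLocalMin (fun t => h t - κ * (t - s₁) ^ 2) s₁ :=
      isLocalMin_of_deriv_deriv_pos (by rw [e1, g2]; linarith) (by rw [e1]; simp [z1])
        (g1 s₁).continuousAt
    have c : Tendsto (fun l : ℝ => s₁ + l * (s - s₁)) (𝓝 0) (𝓝 s₁) :=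
      Continuous.tendsto' (by fun_prop) _ _ (by simp)
    obtain ⟨l, ⟨a1, a2⟩, a3⟩ := (((c.eventually m).and (gt_mem_nhds zero_lt_one)).filter_mono
      (nhdsWithin_le_nhds (s := Ioi 0))).and self_mem_nhdsWithin |>.exists
    have a4 := k1 l (le_of_lt a3) a2.le
    simp only [z, sub_self, add_sub_cancel_left] at a1
    refine le_of_mul_le_mul_left ?_ (pow_pos (show 0 < l from a3) 2)
    nlinarith
  by_cases c : s = s₁
  · rw [c, z]; simp
  have q : 0 < (s - s₁) ^ 2 := sq_pos_of_ne_zero (sub_ne_zero.2 c)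
  rw [mul_comm, ← le_div_iff₀ q]
  exact le_of_forall_lt_imp_le_of_dense fun κ hκ => by
    rw [le_div_iff₀ q, mul_comm]; exact k2 κ hκ

theorem nn {B : Bil} (hp : ∀ u, u ≠ 0 → 0 < B u u) (u : E3) : 0 ≤ B u u := by
  by_cases c : u = 0
  · simp [c]
  · exact (hp u c).le

theorem cauchy {B : Bil} (hs : ∀ u v, B u v = B v u) (hp : ∀ u, u ≠ 0 → 0 < B u u) (x y : E3) :
    B x y ^ 2 ≤ B x x * B y y := by
  have := discrim_le_zero (a := B x x) (b := 2 * B x y) (c := B y y) fun t => by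
    have := nn hp (t • x + y)
    simp only [map_add, map_smul, ContinuousLinearMap.add_apply, ContinuousLinearMap.smul_apply,
      smul_eq_mul, hs y x] at this
    linarith
  rw [discrim] at this
  linarith

theorem chart (hA : AStmt) {G : E3 → Bil} {Ω : Set E3} (hG : CM G Ω) {c j : ℝ → E3} {s : ℝ}
    {h : ℝ → ℝ} (hK : ∀ u v, G (c s) (riem (ub G) (c s) u v v) u ≤ 0)
    (ev : ∀ᶠ r in 𝓝 s, c r ∈ Ω ∧ GeoAt (ub G) c r ∧ JacAt (ub G) c j r ∧
      h r = G (c r) (j r) (j r)) :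
    HasDerivAt h (deriv h s) s ∧ ∃ b, HasDerivAt (deriv h) b s ∧ 0 ≤ b ∧
      deriv h s ^ 2 ≤ 2 * h s * b ∧ (j s = 0 → 2 * G (c s) (deriv j s) (deriv j s) ≤ b) := by
  have d1 : ∀ᶠ r in 𝓝 s, HasDerivAt h (2 * G (c r) (covD (ub G) c j r) (j r)) r := by
    filter_upwards [ev.eventually_nhds] with r hr
    obtain ⟨a1, a2, a3, -⟩ := hr.self_of_nhds
    refine ((hA.2.2.2.2.1 G Ω hG c j j r a1 a2.1 a3.1 a3.1).congr_deriv ?_).congr_of_eventuallyEq
      (hr.mono fun _ k => k.2.2.2)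
    rw [hG.symm _ a1 (j r)]; ring
  obtain ⟨a1, a2, a3, a4⟩ := ev.self_of_nhds
  have e1 := d1.self_of_nhds
  have d2 := ((hA.2.2.2.2.1 G Ω hG c _ j s a1 a2.1 a3.2.1 a3.1).const_mul 2).congr_of_eventuallyEq
    (f₁ := deriv h) (d1.mono fun r hr => hr.deriv)
  have k := hK (j s) (deriv c s)
  rw [eq_neg_of_add_eq_zero_left a3.2.2, map_neg, ContinuousLinearMap.neg_apply] at d2
  have n1 := nn (hG.pos _ a1) (covD (ub G) c j s)
  have n2 := nn (hG.pos _ a1) (j s)
  refine ⟨e1.differentiableAt.hasDerivAt, _, d2, by linarith, ?_, fun z => ?_⟩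
  · rw [e1.deriv, a4]
    nlinarith [cauchy (hG.symm _ a1) (hG.pos _ a1) (covD (ub G) c j s) (j s),
      mul_nonneg n2 (neg_nonneg.2 k)]
  · obtain ⟨Γ, hΓ⟩ := hA.1 G Ω hG
    have : covD (ub G) c j s = deriv j s := by rw [covD, hΓ.eq _ a1, z, map_zero, add_zero]
    rw [this]; linarith

section
variable {M : Type} [TopologicalSpace M] [ChartedSpace E3 M] {g : M → Bil} (hC : ChartFacts g)
include hC

theorem loc_self (a : M) (u v : E3) : locB g a (chartAt E3 a a) u v = g a u v := by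
  have := hC.pull a a (mem_chart_source E3 a) u v
  rwa [hC.self] at this

theorem g_symm (a : M) (u v : E3) : g a u v = g a v u := by
  rw [← loc_self hC, ← loc_self hC, (hC.cm a).symm _ (mem_chart_target E3 a)]

theorem g_pos (a : M) (u : E3) (hu : u ≠ 0) : 0 < g a u u := by
  rw [← loc_self hC]; exact (hC.cm a).pos _ (mem_chart_target E3 a) u hu

theorem grow (hA : AStmt) (hK : NonposCurvature (un g)) {γ : ℝ → M} {J : ℝ → E3}
    (hγ : IsGeodesic (un g) γ) (hJ : IsJacobi (un g) γ J) {s₁ : ℝ} (z : J s₁ = 0) (s : ℝ) :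
    (s - s₁) ^ 2 * g (γ s₁) (deriv (locVec (γ s₁) γ J) s₁) (deriv (locVec (γ s₁) γ J) s₁) ≤
      g (γ s) (J s) (J s) := by
  have key := fun t => chart hA (hC.cm (γ t)) (c := fun r => chartAt E3 (γ t) (γ r))
    (j := locVec (γ t) γ J) (s := t) (h := fun r => g (γ r) (J r) (J r))
    (hK (γ t) _ (mem_chart_target E3 (γ t)))
    ((hγ.1.continuousAt.eventually ((chartAt E3 (γ t)).open_source.mem_nhds
      (mem_chart_source E3 (γ t)))).mono fun r hr => ⟨(chartAt E3 (γ t)).map_source hr,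
        hγ.2 _ r hr, hJ _ r hr, (hC.pull _ _ hr (J r) (J r)).symm⟩)
  choose d1 b d2 p2 cs q using key
  refine real d1 d2 (fun r => nn (g_pos hC _) _) p2 cs (by simp only [z, map_zero]) ?_ s
  rw [← loc_self hC]
  refine q s₁ ?_
  rw [locVec_eq, z, map_zero]

end

end Km

open Km in
theorem kStmt (hA : AStmt) : KStmt := by
  intro M _ _ _ g geo hC hG hF hE hK
  refine ⟨fun γ J hγ hJ s₁ s₂ hne e1 e2 => hG.ju γ J hγ hJ s₁ e1 ?_, fun p q v c hc hl => ?_⟩
  · by_contra hd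
    have h1 := grow hC hA hK (J := J) hγ hJ e1 s₂
    have e3 : g (γ s₂) (J s₂) (J s₂) = 0 := by rw [e2]; exact map_zero _
    have := mul_pos (sq_pos_of_ne_zero (sub_ne_zero.2 hne.symm)) (g_pos hC (γ s₁) _ hd)
    linarith
  have key : ∀ s, ∃ u, HasDerivAt c u s ∧ g p u u ≤ g q v v := by
    intro s
    obtain ⟨-, h1, h2⟩ := hE p (c s)
    have st := h1.hasStrictFDerivAt one_ne_zero
    generalize fderiv ℝ (fun v' => chartAt E3 (geo p (c s) 1) (geo p v' 1)) (c s) = L at st h2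
    have hL : ∀ w, g p w w ≤ g (geo q v s) (L w) (L w) := fun w => by
      obtain ⟨J, j1, j2, j3, j4⟩ := h2 w
      have := grow hC hA hK (hF p (c s)).1 j1 j2 1
      rwa [(hF p (c s)).2.1, j3, j4, hl s, sub_zero, one_pow, one_mul] at this
    have inj : Function.Injective (L : E3 →ₗ[ℝ] E3) := (injective_iff_map_eq_zero _).2 fun w hw => by
      by_contra c0
      have := (g_pos hC p w c0).trans_le (hL w)
      rw [show L w = 0 from hw, map_zero] at this
      exact lt_irrefl _ this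
    let e : E3 ≃L[ℝ] E3 := (LinearEquiv.ofInjectiveEndo _ inj).toContinuousLinearEquiv
    have st' : HasStrictFDerivAt (fun v' => chartAt E3 (geo p (c s) 1) (geo p v' 1))
        (e : E3 →L[ℝ] E3) (c s) := st
    have dγ : HasDerivAt (fun r => chartAt E3 (geo p (c s) 1) (geo p (c r) 1))
        (vel (geo q v) s) s := by
      simp only [hl]
      exact ((hF q v).1.2 _ s (mem_chart_source E3 _)).1.hasDerivAt
    refine ⟨e.symm (vel (geo q v) s), (st'.to_localInverse.hasFDerivAt.comp_hasDerivAt s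
      dγ).congr_of_eventuallyEq ((hc.continuousAt.eventually st'.eventually_left_inverse).mono
        fun r hr => hr.symm), (hL _).trans (le_of_eq ?_)⟩
    rw [show L (e.symm (vel (geo q v) s)) = vel (geo q v) s from e.apply_symm_apply _,
      hG.speed _ (hF q v).1 s, (hF q v).2.1, (hF q v).2.2]
  choose u hu hb using key
  have hd : ∀ s, HasDerivAt (fun r => g p (c 1 - c 0) (c r)) (g p (c 1 - c 0) (u s)) s := fun s =>
    (g p (c 1 - c 0)).hasFDerivAt.comp_hasDerivAt s (hu s)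
  obtain ⟨ξ, -, e⟩ := exists_hasDerivAt_eq_slope _ _ zero_lt_one
    (fun s _ => (hd s).continuousAt.continuousWithinAt) fun s _ => hd s
  rw [← map_sub, sub_zero, div_one] at e
  have := hb ξ
  generalize c 1 - c 0 = d at *
  have k := nn (g_pos hC p) (u ξ - d)
  simp only [map_sub, ContinuousLinearMap.sub_apply, g_symm hC p (u ξ) d] at k
  linarith

end Vale.Agent.P255
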