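import Vale.Agent.P255.M2

/-! P255, module M: the graph manifold. -/

open scoped Manifold ContDiff Topology
open Set Filter Real

namespace Vale.Agent.P255

namespace Mf

structure Out {M : Type} [TopologicalSpace M] [ChartedSpace E3 M] (GN : E3 → Bil) (UN : Set E3)
    (ρ : Bool → ℝ) (l : Bool → E3 → E3) (g : M → Bil) (mid : M → Prop)
    (Ψ : Option Bool → E3 → M) : Prop where
  met : IsMet g
  flat : ∀ x, ¬ mid x → (∃ G₀ : Bil, ∀ y ∈ (chartAt E3 x).target, locB g x y = G₀) ∧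
    ∀ᶠ p in 𝓝 x, ¬ mid p
  neck : ∀ x, mid x → ∀ y ∈ (chartAt E3 x).target, locB g x y = GN y
  tr : ∀ x, mid x → ∀ p ∈ (chartAt E3 x).source,
    (mid p → chartAt E3 x p 0 = chartAt E3 p p 0 ∧ D x p = ContinuousLinearMap.id ℝ E3) ∧
    (¬ mid p → ∃ b, ρ b < l b (chartAt E3 x p) 0)
  cont : ∀ i, ContinuousOn (Ψ i) (UU UN ρ i)
  perN : ∀ y y', qN y = qN y' → Ψ none y = Ψ none y'
  perE : ∀ b y y', q (ρ b) y = q (ρ b) y' → Ψ (some b) y = Ψ (some b) y'
  glue : ∀ b, ∀ y ∈ UN, ρ b < l b y 0 → Ψ none y = Ψ (some b) (P (l b y))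
  geo : ∀ y ∈ UN, (∀ b, l b y 0 ≤ ρ b) → mid (Ψ none y) ∧ ∃ k : E3, k 0 = 0 ∧
    ∀ᶠ z in 𝓝 y, chartAt E3 (Ψ none y) (Ψ none z) = z + k

theorem Dat.out (hQ : QStmt) (hB : BStmt) {Z : Type} {ψN : E3 → Z} {ψ : Bool → E3 → Z}
    {GN : E3 → Bil} {UN KN : Set E3} {ρ c : Bool → ℝ} {l : Bool → E3 → E3}
    (h : Dat ψN ψ GN UN KN ρ c l) :
    ∃ (M : Type) (_ : TopologicalSpace M) (_ : ChartedSpace E3 M), IsManifold 𝓘(ℝ, E3) ∞ M ∧
      T2Space M ∧ CompactSpace M ∧ ConnectedSpace M ∧ ∃ (g : M → Bil) (mid : M → Prop)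
      (Ψ : Option Bool → E3 → M), Out GN UN ρ l g mid Ψ := by
  classical
  obtain ⟨z0, hz0, -⟩ := (h.en false).meet.1
  let M := {p : Z // ∃ i, ∃ y ∈ UU UN ρ i, pp ψN ψ i y = p}
  let Ψ : Option Bool → E3 → M := fun i y =>
    if hy : y ∈ UU UN ρ i then ⟨pp ψN ψ i y, i, y, hy, rfl⟩ else ⟨ψN z0, none, z0, h.sub hz0, rfl⟩
  have val : ∀ i, ∀ y ∈ UU UN ρ i, (Ψ i y).1 = pp ψN ψ i y := fun i y hy => by
    simp only [Ψ, dif_pos hy]
  have eqv : ∀ {i j y y'}, y ∈ UU UN ρ i → y' ∈ UU UN ρ j →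
      (Ψ i y = Ψ j y' ↔ pp ψN ψ i y = pp ψN ψ j y') := fun hy hy' => by
    rw [Subtype.ext_iff, val _ _ hy, val _ _ hy']
  have per : ∀ i y y', (y ∈ UU UN ρ i ↔ y' ∈ UU UN ρ i) → pp ψN ψ i y = pp ψN ψ i y' →
      Ψ i y = Ψ i y' := fun i y y' h1 h2 => by
    by_cases hy : y ∈ UU UN ρ i
    · exact (eqv hy (h1.mp hy)).mpr h2
    · simp only [Ψ, dif_neg hy, dif_neg (mt h1.mpr hy)]
  have perN : ∀ y y', qN y = qN y' → Ψ none y = Ψ none y' := fun y y' e =>
    per none y y' ⟨h.ut _ _ (congrArg Prod.fst e), h.ut _ _ (congrArg Prod.fst e).symm⟩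
      (h.per _ _ e)
  have op := fun i => (h.cms i).isOpen
  have pk : ∀ p : M, ∃ j z, (z ∈ UU UN ρ j ∧ Ψ j z = p) ∧ (j = none → ∀ b, l b z 0 ≤ ρ b) := by
    rintro ⟨_, i, y, hy, rfl⟩
    obtain ⟨j, z, hz, e, h1⟩ := h.pick i y hy
    exact ⟨j, z, ⟨hz, Subtype.ext ((val j z hz).trans e)⟩, h1⟩
  choose pi py hp hm using pk
  have cov : ∀ p : M, ∃ i, ∃ y ∈ KK KN ρ i, Ψ i y = p := fun p => by
    obtain ⟨j, z, hz, e⟩ := h.cov _ _ (hp p).1
    exact ⟨j, z, hz, ((eqv ((h.kk j).2 hz) (hp p).1).mpr e).trans (hp p).2⟩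
  obtain ⟨t, ch, hM, h2, hc, hcont, hopen, hmet, hch⟩ := hQ M (Option Bool) (UU UN ρ) (KK KN ρ) Ψ
    (GG GN c) pi py inferInstance h.cms hp
    (fun i j y hy y' hy' e => by
      obtain ⟨τ, a1, a2, a3, a4⟩ := h.tr i j y hy y' hy' ((eqv hy hy').mp e)
      refine ⟨τ, a1, a2, ?_, a4⟩
      filter_upwards [a3, (op i).mem_nhds hy,
        a1.continuousAt.preimage_mem_nhds ((op j).mem_nhds (a2 ▸ hy'))] with z h1 h3 h4
      exact (eqv h4 h3).mpr h1)
    (fun i y hy => by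
      obtain ⟨O, h1, h3⟩ := h.inj i y hy
      exact ⟨O ∩ UU UN ρ i, inter_mem h1 ((op i).mem_nhds hy),
        fun _ a _ b e => h3 a.1 b.1 ((eqv a.2 b.2).mp e)⟩)
    (fun i j y hy y' hy' e => by
      filter_upwards [h.sep i j y hy y' hy' (mt (eqv hy hy').mpr e),
        ((op i).prod (op j)).mem_nhds (x := (y, y')) ⟨hy, hy'⟩] with z h1 h3
      exact mt (eqv h3.1 h3.2).mp h1)
    h.kk cov
  have m2 : ∀ y ∈ UN, (∀ b, l b y 0 ≤ ρ b) → pi (Ψ none y) = none := fun y hy h1 => by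
    obtain ⟨h3, h4⟩ := hp (Ψ none y)
    cases e : pi (Ψ none y) with
    | none => rfl
    | some b =>
      rw [e] at h3 h4
      exact absurd ((h.en b).e2 _ _ ((eqv (i := none) hy h3).mp h4.symm)) (not_lt.mpr (h1 b))
  have tg : ∀ x, pi x = none → ∀ y ∈ (chartAt E3 x).target,
      y ∈ UN ∧ (chartAt E3 x).symm y = Ψ none y := fun x hx y hy => by
    obtain ⟨h1, h3, -⟩ := (hch x).2 y hy
    rw [hx] at h1 h3
    exact ⟨h1, h3⟩
  have key : ∀ x, pi x = none → ∀ y ∈ (chartAt E3 x).target, ∀ y' ∈ UN,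
      (chartAt E3 x).symm y = Ψ none y' → y 0 = y' 0 ∧
        ∀ᶠ z in 𝓝 y', chartAt E3 x (Ψ none z) = z + (y - y') := fun x hx y hy y' hy' e => by
    obtain ⟨h1, h3⟩ := tg x hx y hy
    have h4 := h.nn _ hy' _ h1 ((eqv (i := none) (j := none) hy' h1).mp (e.symm.trans h3))
    refine ⟨(congrArg Prod.fst h4).symm, ?_⟩
    have h5 : ContinuousAt (fun z : E3 => z + (y - y')) y' := by fun_prop
    filter_upwards [h5.preimage_mem_nhds ((chartAt E3 x).open_target.mem_nhds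
      (by simpa using hy))] with z hz
    rw [← perN _ _ (qN_tr h4 z), ← (tg x hx _ hz).2, (chartAt E3 x).right_inv hz]
  have cf := (hB M).2.2 _ hmet
  refine ⟨M, t, ch, hM, h2, hc, ?_, _, fun p => pi p = none, Ψ, hmet, fun x hx => ?_,
    fun x hx y hy => ?_, fun x hx p hs => ⟨fun hp' => ?_, fun hp' => ?_⟩, hcont, perN,
    fun b y y' e => per _ _ _ (Ur_per (h.en b).pos e) (((h.en b).e3 _ _).mpr e),
    fun b y hy h1 => (eqv (i := none) (j := some b) hy
      (P_mem (h.en b).pos h1 ((h.en b).e4 y hy))).mpr ((h.en b).e1 y h1), fun y hy h1 => ?_⟩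
  · have hN : IsPreconnected (Ψ none '' KN) := h.conn.image _ ((hcont none).mono h.sub)
    have hE : ∀ b (S : Set E3), IsPreconnected S → S ⊆ Ur (ρ b) →
        (∃ z ∈ KN, ∃ y ∈ S, ψN z = ψ b y) → IsPreconnected (Ψ none '' KN ∪ Ψ (some b) '' S) := by
      rintro b S h1 h3 ⟨z, hz, y, hy, e⟩
      exact hN.union (Ψ none z) ⟨z, hz, rfl⟩
        ⟨y, hy, ((eqv (i := none) (j := some b) (h.sub hz) (h3 hy)).mpr e).symm⟩
        (h1.image _ ((hcont (some b)).mono h3))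
    have : Nonempty M := ⟨Ψ none z0⟩
    have : PreconnectedSpace M := ⟨isPreconnected_of_forall (Ψ none z0) fun p _ => by
      obtain ⟨i, y, hy, rfl⟩ := cov p
      cases i with
      | none => exact ⟨Ψ none '' KN, subset_univ _, ⟨z0, hz0, rfl⟩, ⟨y, hy, rfl⟩, hN⟩
      | some b =>
        rcases hy with hy | hy
        · exact ⟨_, subset_univ _, Or.inl ⟨z0, hz0, rfl⟩, Or.inr ⟨y, hy, rfl⟩,
            hE b _ (box_conn _ _ _ _ _ _) (KH_sub (h.en b).pos) (h.en b).meet.1⟩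
        · exact ⟨_, subset_univ _, Or.inl ⟨z0, hz0, rfl⟩, Or.inr ⟨y, hy, rfl⟩,
            hE b _ (box_conn _ _ _ _ _ _) (KV_sub (h.en b).pos) (h.en b).meet.2⟩⟩
    exact ⟨inferInstance⟩
  · obtain ⟨b, hb⟩ := Option.ne_none_iff_exists'.mp hx
    refine ⟨⟨dg 1 (c b), fun y hy => by rw [((hch x).2 y hy).2.2, hb]; rfl⟩, ?_⟩
    obtain ⟨h1, h3⟩ := hp x
    rw [hb] at h1 h3
    filter_upwards [(hopen (some b) _ subset_rfl (op _)).mem_nhds ⟨_, h1, h3⟩]
    rintro _ ⟨w, hw, rfl⟩ e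
    obtain ⟨h4, h5⟩ := hp (Ψ (some b) w)
    rw [e] at h4 h5
    exact absurd ((h.en b).e2 _ _ ((eqv (i := none) h4 hw).mp h5)) (not_lt.mpr (hm _ e b))
  · rw [((hch x).2 y hy).2.2, hx]
    rfl
  · have h1 := (chartAt E3 p).map_source (mem_chart_source E3 p)
    obtain ⟨h3, h4⟩ := tg p hp' _ h1
    obtain ⟨h5, h6⟩ := key x hx _ ((chartAt E3 x).map_source hs) _ h3 (by
      rw [← h4, (chartAt E3 x).left_inv hs, (chartAt E3 p).left_inv (mem_chart_source E3 p)])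
    refine ⟨h5, ?_⟩
    have h7 : (fun y => chartAt E3 x ((chartAt E3 p).symm y)) =ᶠ[𝓝 (chartAt E3 p p)]
        fun z => z + (chartAt E3 x p - chartAt E3 p p) := by
      filter_upwards [h6, (chartAt E3 p).open_target.mem_nhds h1] with z h8 h9
      rw [(tg p hp' z h9).2, h8]
    rw [cf.chg p x p (mem_chart_source E3 p) hs, cf.self, h7.fderiv_eq, fderiv_add_const,
      fderiv_fun_id]
    rfl
  · by_contra h1
    push Not at h1
    obtain ⟨h3, h4⟩ := tg x hx _ ((chartAt E3 x).map_source hs)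
    rw [(chartAt E3 x).left_inv hs] at h4
    exact hp' (h4 ▸ m2 _ h3 h1)
  · have h3 := m2 y hy h1
    obtain ⟨h4, h5⟩ := key _ h3 _ ((chartAt E3 _).map_source (mem_chart_source E3 _)) y hy
      ((chartAt E3 _).left_inv (mem_chart_source E3 _))
    exact ⟨h3, _, by simp [h4], h5⟩

section concrete
variable (a b σ : ℝ → ℝ) (tL tR ρL ρR A B : ℝ)

def rr : Bool → ℝ := fun s => bif s then ρR else ρL

noncomputable def ll : Bool → E3 → E3 := fun s z =>
  bif s then !₂[ρR + (z 0 - tR), z 2, z 1 - z 2] else !₂[ρL + (tL - z 0), z 1, z 2]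

noncomputable def pE (s : Bool) (w : E3) : (Bool × C × C × C) ⊕ (ℝ × C × C) :=
  .inl (s, q (rr ρL ρR s) w)

noncomputable def pN (z : E3) : (Bool × C × C × C) ⊕ (ℝ × C × C) :=
  if z 0 < tL then pE ρL ρR false (P (ll tL tR ρL ρR false z))
  else if tR < z 0 then pE ρL ρR true (P (ll tL tR ρL ρR true z)) else .inr (qN z)

noncomputable def gN (z : E3) : Bil := ee 0 0 + a (z 0) ^ 2 • ee 1 1 -
  (a (z 0) ^ 2 * σ (z 0)) • (ee 1 2 + ee 2 1) + (a (z 0) ^ 2 * σ (z 0) ^ 2 + b (z 0) ^ 2) • ee 2 2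

theorem gN_app (z u v : E3) : gN a b σ z u v = neckF a b σ (z 0) u v := by
  simp only [gN, neckF, add_apply, sub_apply, smul_apply, ee_app, smul_eq_mul]
  ring

def uN : Set E3 := {z | tL - 2 * ρL < z 0 ∧ z 0 < tR + 2 * ρR}

def kN : Set E3 := box (tL - 19 / 10 * ρL) (tR + 19 / 10 * ρR) 0 (2 * π) 0 (2 * π)

theorem lF (z : E3) : ll tL tR ρL ρR false z 0 = ρL + (tL - z 0) := rfl
theorem lT (z : E3) : ll tL tR ρL ρR true z 0 = ρR + (z 0 - tR) := rfl

theorem redN {y : E3} (h1 : tL - 19 / 10 * ρL ≤ y 0) (h2 : y 0 ≤ tR + 19 / 10 * ρR) :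
    ∃ z ∈ kN tL tR ρL ρR, qN z = qN y := by
  obtain ⟨x1, a1, b1, c1⟩ := cq_red tp 0 (y 1)
  obtain ⟨x2, a2, b2, c2⟩ := cq_red tp 0 (y 2)
  rw [zero_add] at b1 b2
  exact ⟨!₂[y 0, x1, x2], ⟨⟨h1, h2⟩, ⟨a1, b1⟩, a2, b2⟩, Prod.ext rfl (Prod.ext c1 c2)⟩

theorem ll_q (s : Bool) (y y' : E3) :
    qN (ll tL tR ρL ρR s y) = qN (ll tL tR ρL ρR s y') ↔ qN y = qN y' := by
  cases s
  · simp [qN, ll]
  · simp only [qN, ll, cond_true, Prod.mk.injEq]
    simp only [Matrix.cons_val_zero, Matrix.cons_val_one, Matrix.cons_val, cq_sub]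
    refine ⟨fun h => ⟨by linarith [h.1], ?_, h.2.1⟩, fun h => by simp [h.1, h.2.1, h.2.2]⟩
    simpa [h.2.1] using h.2.2

theorem ll_der (s : Bool) : ContDiff ℝ ∞ (ll tL tR ρL ρR s) ∧ ∀ z u,
    fderiv ℝ (ll tL tR ρL ρR s) z u = ll 0 0 0 0 s u := by
  let L : E3 →L[ℝ] E3 := LinearMap.toContinuousLinearMap
    { toFun := ll 0 0 0 0 s
      map_add' := fun x y => by cases s <;> refine ext3 ?_ ?_ ?_ <;> simp [ll] <;> ring
      map_smul' := fun r x => by cases s <;> refine ext3 ?_ ?_ ?_ <;> simp [ll, mul_sub] }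
  have h : ll tL tR ρL ρR s = fun z => L z + ll tL tR ρL ρR s 0 := by
    funext z
    cases s <;> refine ext3 ?_ ?_ ?_ <;> simp [ll, L] <;> ring
  rw [h]
  exact ⟨L.contDiff.add contDiff_const, fun z u => by rw [fderiv_add_const, L.fderiv]; rfl⟩

variable {a b σ tL tR ρL ρR A B} (h : Neck a b σ tL tR ρL ρR A B)
include h

omit h in
theorem e2 (s : Bool) (z w : E3) (e : pN tL tR ρL ρR z = pE ρL ρR s w) :
    rr ρL ρR s < ll tL tR ρL ρR s z 0 := by
  unfold pN at e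
  split_ifs at e with h1 h2
  · obtain rfl : false = s := congrArg Prod.fst (Sum.inl.inj e)
    exact lt_add_of_pos_right _ (sub_pos.mpr h1)
  · obtain rfl : true = s := congrArg Prod.fst (Sum.inl.inj e)
    exact lt_add_of_pos_right _ (sub_pos.mpr h2)
  · exact absurd e Sum.inr_ne_inl

theorem en (s : Bool) : End (pN tL tR ρL ρR) (pE ρL ρR s) (gN a b σ) (uN tL tR ρL ρR)
    (kN tL tR ρL ρR) (rr ρL ρR s) (rr B A s) (ll tL tR ρL ρR s) := by
  have h1 := h.hρL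
  have h2 := h.hρR
  have h3 := h.lt
  obtain ⟨d1, d2⟩ := ll_der tL tR ρL ρR s
  refine ⟨by cases s <;> assumption, ?_, fun z hz => ?_, e2 s, fun w w' => by simp [pE],
    fun z hz => ?_, d1, fun z hz u v => ?_, fun w a1 a2 => ?_⟩
  · cases s
    · exact (h.left tL le_rfl).2.1 ▸ (h.pb tL).ne'
    · exact (h.right tR le_rfl).2.1 ▸ (h.pa tR).ne'
  · cases s
    · exact if_pos (sub_pos.mp (pos_of_lt_add_right hz))
    · have h4 : tR < z 0 := sub_pos.mp (pos_of_lt_add_right hz)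
      exact (if_neg (by linarith)).trans (if_pos h4)
  · cases s
    · exact show ρL + (tL - z 0) < 3 * ρL by linarith [hz.1]
    · exact show ρR + (z 0 - tR) < 3 * ρR by linarith [hz.2]
  · rw [gN_app, neckF, dg_app, d2, d2]
    cases s
    · obtain ⟨e1, e2, e3⟩ := h.left (z 0) (sub_pos.mp (pos_of_lt_add_right hz)).le
      simp [ll, rr, e1, e2, e3]
    · obtain ⟨e1, e2, e3⟩ := h.right (z 0) (sub_pos.mp (pos_of_lt_add_right hz)).le
      simp [ll, rr, e1, e2, e3]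
      ring
  · cases s
    · obtain ⟨z, hz, e⟩ := redN tL tR ρL ρR (y := !₂[ρL + tL - w 0, w 1, w 2])
        (show _ ≤ ρL + tL - w 0 by simp only [rr, cond_false] at a2; linarith)
        (show ρL + tL - w 0 ≤ _ by simp only [rr, cond_false] at a1; linarith)
      exact ⟨z, hz, ((ll_q tL tR ρL ρR false _ _).mpr e).trans
        (congrArg qN (ext3 (by simp [ll]; ring) rfl rfl))⟩
    · obtain ⟨z, hz, e⟩ := redN tL tR ρL ρR (y := !₂[w 0 - ρR + tR, w 2 + w 1, w 1])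
        (show _ ≤ w 0 - ρR + tR by simp only [rr, cond_true] at a1; linarith)
        (show w 0 - ρR + tR ≤ _ by simp only [rr, cond_true] at a2; linarith)
      exact ⟨z, hz, ((ll_q tL tR ρL ρR true _ _).mpr e).trans
        (congrArg qN (ext3 (by simp [ll]) rfl (by simp [ll])))⟩

theorem dat : Dat (pN tL tR ρL ρR) (pE ρL ρR) (gN a b σ) (uN tL tR ρL ρR) (kN tL tR ρL ρR)
    (rr ρL ρR) (rr B A) (ll tL tR ρL ρR) := by
  have h1 := h.hρL
  have h2 := h.hρR
  have h3 := h.lt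
  have hE := en h
  refine ⟨hE, fun s s' w w' e => congrArg Prod.fst (Sum.inl.inj e),
    ⟨(isOpen_lt continuous_const (co 0)).inter (isOpen_lt (co 0) continuous_const), ?_,
      fun y _ u v => by rw [gN_app, gN_app, neckF, neckF]; ring, fun y _ u hu => ?_⟩,
    fun y y' e => by rw [gN, gN, e], fun y y' e hy => by rwa [uN, mem_ofPred_eq, ← e],
    fun y y' e => ?_, fun y hy y' hy' e => ?_, box_cpt .., box_conn _ _ _ _ _ _,
    fun z hz => ⟨by linarith [hz.1.1], by linarith [hz.1.2]⟩, fun y hy => redN _ _ _ _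
      (by have := hy false; rw [lF] at this; simp only [rr, cond_false] at this; linarith)
      (by have := hy true; rw [lT] at this; simp only [rr, cond_true] at this; linarith)⟩
  · have ha := h.sa
    have hb := h.sb
    have hσ := h.sσ
    refine (contDiff_clm_apply_iff.mpr fun u => contDiff_clm_apply_iff.mpr fun v => ?_).contDiffOn
    simp only [gN_app, neckF]
    fun_prop
  · rw [gN_app, neckF]
    refine pos3 (h.pa _).ne' (h.pb _).ne' fun e => hu (ext3 e.1 ?_ e.2.2)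
    simpa [e.2.2] using e.2.1
  · have e0 : y 0 = y' 0 := congrArg Prod.fst e
    simp only [pN, pE, e0, e, P_per _ ((ll_q tL tR ρL ρR _ y y').mpr e)]
  · by_cases h4 : ∃ s, rr ρL ρR s < ll tL tR ρL ρR s y 0
    · obtain ⟨s, hs⟩ := h4
      have h5 := (hE s).e1 y hs
      have h6 := (hE s).e2 _ _ (e.symm.trans h5)
      have h7 := (hE s).pos
      exact (ll_q _ _ _ _ s _ _).mp (P_inj h7 (h7.trans hs) ((hE s).e4 y hy) (h7.trans h6)
        ((hE s).e4 y' hy') (((hE s).e3 _ _).mp (h5.symm.trans (e.trans ((hE s).e1 y' h6)))))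
    · have h5 : pN tL tR ρL ρR y = .inr (qN y) :=
        (if_neg fun h5 => h4 ⟨false, lt_add_of_pos_right _ (sub_pos.mpr h5)⟩).trans
          (if_neg fun h5 => h4 ⟨true, lt_add_of_pos_right _ (sub_pos.mpr h5)⟩)
      rw [h5] at e
      unfold pN at e
      split_ifs at e
      · exact absurd e Sum.inr_ne_inl
      · exact absurd e Sum.inr_ne_inl
      · exact Sum.inr.inj e

end concrete

theorem piece {M : Type} [TopologicalSpace M] {ρ : ℝ} (hρ : 0 < ρ) {ψ : E3 → M}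
    (h1 : ContinuousOn ψ (Ur ρ)) (h2 : ∀ y y', q ρ y = q ρ y' → ψ y = ψ y') : Piece ρ ψ := by
  have h6 : 6 * ρ ≠ 0 := by positivity
  exact ⟨h1, fun z => h2 _ _ (by simp [q, cq_self h6]), fun z => h2 _ _ (by simp [q, cq_self h6]),
    fun z => h2 _ _ (by simp [q, cq_self tp.ne'])⟩

end Mf

open Mf in
theorem mStmt (hQ : QStmt) (hB : BStmt) : MStmt := by
  intro a b σ tL tR ρL ρR A B h
  obtain ⟨M, t, ch, h1, h2, h3, h4, g, mid, Ψ, o⟩ := (dat h).out hQ hB
  have p1 := h.hρL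
  have p2 := h.hρR
  have p3 := h.lt
  refine ⟨M, t, ch, h1, h2, h3, h4, g, mid, Ψ none, Ψ (some false), Ψ (some true), o.met,
    ⟨o.flat, fun x hx y hy u v => by rw [o.neck x hx y hy, gN_app], fun x hx p hp =>
      ⟨(o.tr x hx p hp).1, fun hp' => ?_⟩⟩,
    ⟨o.cont none, fun z => o.perN _ _ (by simp [qN, cq_self tp.ne']),
      fun z => o.perN _ _ (by simp [qN, cq_self tp.ne']),
      piece p1 (o.cont (some false)) (o.perE false), piece p2 (o.cont (some true)) (o.perE true),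
      fun θ y => ?_, fun θ u => ?_, fun s => o.geo _
        ⟨show _ < tR by linarith, show tR < _ by linarith⟩ fun s' => ?_⟩⟩
  · obtain ⟨s, hs⟩ := (o.tr x hx p hp).2 hp'
    cases s
    · exact Or.inl (sub_pos.mp (pos_of_lt_add_right hs))
    · exact Or.inr (sub_pos.mp (pos_of_lt_add_right hs))
  · rw [o.glue false !₂[tL - ρL, θ, y] ⟨show _ < tL - ρL by linarith, show tL - ρL < _ by linarith⟩
      (show ρL < ρL + (tL - (tL - ρL)) by linarith)]
    exact congrArg _ (ext3 (show (ρL + (tL - (tL - ρL))) * Real.cos θ = 2 * ρL * Real.cos θ by ring)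
      (show (ρL + (tL - (tL - ρL))) * Real.sin θ = 2 * ρL * Real.sin θ by ring) rfl)
  · rw [o.glue true !₂[tR + ρR, u + θ, θ]
      ⟨show _ < tR + ρR by linarith, show tR + ρR < _ by linarith⟩
      (show ρR < ρR + (tR + ρR - tR) by linarith)]
    exact congrArg _ (ext3 (show (ρR + (tR + ρR - tR)) * Real.cos θ = 2 * ρR * Real.cos θ by ring)
      (show (ρR + (tR + ρR - tR)) * Real.sin θ = 2 * ρR * Real.sin θ by ring)
      (show u + θ - θ = u by ring))
  · cases s'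
    · exact show ρL + (tL - tR) ≤ ρL by linarith
    · exact show ρR + (tR - tR) ≤ ρR by linarith

end Vale.Agent.P255
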