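import Vale.Agent.P255.Spec

/-! P255, module M, part 1: tori, polar coordinates, boxes, transitions. -/

open scoped Manifold ContDiff Topology
open Set Filter Real

namespace Vale.Agent.P255.Mf

abbrev C : Type := AddCircle (1 : ℝ)

noncomputable def cq (c x : ℝ) : C := ((x / c : ℝ) : C)

theorem cq_add (c x y : ℝ) : cq c (x + y) = cq c x + cq c y := by
  rw [cq, add_div, AddCircle.coe_add]; rfl

theorem cq_sub (c x y : ℝ) : cq c (x - y) = cq c x - cq c y := by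
  rw [cq, sub_div, AddCircle.coe_sub]; rfl

theorem cq_cont (c : ℝ) : Continuous (cq c) :=
  (AddCircle.continuous_mk' 1).comp (continuous_id.div_const c)

theorem cq_eq {c : ℝ} (hc : c ≠ 0) {x y : ℝ} : cq c x = cq c y ↔ ∃ m : ℤ, y = x + c * m := by
  rw [cq, cq, QuotientAddGroup.eq, AddSubgroup.mem_zmultiples_iff]
  refine exists_congr fun m => ?_
  rw [zsmul_eq_mul, mul_one]
  constructor
  · intro h
    rw [h]
    field_simp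
    ring
  · rintro rfl
    field_simp
    ring

theorem cq_self {c : ℝ} (hc : c ≠ 0) (x : ℝ) : cq c (x + c) = cq c x :=
  ((cq_eq hc).mpr ⟨1, by simp⟩).symm

theorem cq_inj {c : ℝ} (hc : 0 < c) (a : ℝ) : ∃ O ∈ 𝓝 a, InjOn (cq c) O := by
  refine ⟨Ioo (a - c / 2) (a + c / 2), Ioo_mem_nhds (by linarith) (by linarith),
    fun x hx y hy h => ?_⟩
  obtain ⟨m, rfl⟩ := (cq_eq hc.ne').mp h
  have h1 : (m : ℝ) < 1 := by nlinarith [hx.1, hy.2]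
  have h2 : (-1 : ℝ) < m := by nlinarith [hx.2, hy.1]
  have h3 : m = 0 := by
    have h4 : m < 1 := by exact_mod_cast h1
    have h5 : -1 < m := by exact_mod_cast h2
    omega
  simp [h3]

theorem cq_red {c : ℝ} (hc : 0 < c) (a x : ℝ) : ∃ y, a ≤ y ∧ y ≤ a + c ∧ cq c y = cq c x :=
  ⟨toIcoMod hc a x, (toIcoMod_mem_Ico hc a x).1, (toIcoMod_mem_Ico hc a x).2.le,
    (cq_eq hc.ne').mpr ⟨toIcoDiv hc a x, by
      rw [mul_comm, ← zsmul_eq_mul, toIcoMod_add_toIcoDiv_zsmul]⟩⟩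

theorem tp : (0 : ℝ) < 2 * π := two_pi_pos

noncomputable def q (ρ : ℝ) (z : E3) : C × C × C :=
  (cq (6 * ρ) (z 0), cq (6 * ρ) (z 1), cq (2 * π) (z 2))

noncomputable def qN (z : E3) : ℝ × C × C := (z 0, cq (2 * π) (z 1), cq (2 * π) (z 2))

theorem co (i : Fin 3) : Continuous fun z : E3 => z i := by fun_prop

theorem q_cont (ρ : ℝ) : Continuous (q ρ) :=
  ((cq_cont _).comp (co 0)).prodMk (((cq_cont _).comp (co 1)).prodMk ((cq_cont _).comp (co 2)))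

theorem qN_cont : Continuous qN :=
  (co 0).prodMk (((cq_cont _).comp (co 1)).prodMk ((cq_cont _).comp (co 2)))

theorem q_tr {ρ : ℝ} {y y' : E3} (h : q ρ y = q ρ y') (z : E3) : q ρ (z + (y' - y)) = q ρ z := by
  simp only [q, Prod.mk.injEq] at h
  simp [q, cq_add, cq_sub, h]

theorem qN_tr {y y' : E3} (h : qN y = qN y') (z : E3) : qN (z + (y' - y)) = qN z := by
  simp only [qN, Prod.mk.injEq] at h
  simp [qN, cq_add, cq_sub, h]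

theorem ext3 {y y' : E3} (h0 : y 0 = y' 0) (h1 : y 1 = y' 1) (h2 : y 2 = y' 2) : y = y' := by
  ext i
  fin_cases i
  exacts [h0, h1, h2]

theorem q_inj {ρ : ℝ} (hρ : 0 < ρ) (y : E3) : ∃ O ∈ 𝓝 y, InjOn (q ρ) O := by
  obtain ⟨O0, a0, b0⟩ := cq_inj (c := 6 * ρ) (by linarith) (y 0)
  obtain ⟨O1, a1, b1⟩ := cq_inj (c := 6 * ρ) (by linarith) (y 1)
  obtain ⟨O2, a2, b2⟩ := cq_inj tp (y 2)
  refine ⟨_, inter_mem ((co 0).continuousAt a0) (inter_mem ((co 1).continuousAt a1)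
    ((co 2).continuousAt a2)), fun w hw w' hw' h => ?_⟩
  simp only [q, Prod.mk.injEq] at h
  exact ext3 (b0 hw.1 hw'.1 h.1) (b1 hw.2.1 hw'.2.1 h.2.1) (b2 hw.2.2 hw'.2.2 h.2.2)

theorem qN_inj (y : E3) : ∃ O ∈ 𝓝 y, InjOn qN O := by
  obtain ⟨O1, a1, b1⟩ := cq_inj tp (y 1)
  obtain ⟨O2, a2, b2⟩ := cq_inj tp (y 2)
  refine ⟨_, inter_mem ((co 1).continuousAt a1) ((co 2).continuousAt a2), fun w hw w' hw' h => ?_⟩
  simp only [qN, Prod.mk.injEq] at h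
  exact ext3 h.1 (b1 hw.1 hw'.1 h.2.1) (b2 hw.2 hw'.2 h.2.2)

theorem nrm {c : ℝ} (hc : c ≠ 0) (x : ℝ) :
    (c * ‖cq c x‖) ^ 2 = (x - c * round (x / c)) ^ 2 ∧
      ∀ m : ℤ, (c * ‖cq c x‖) ^ 2 ≤ (x - c * m) ^ 2 := by
  have h1 : ∀ m : ℤ, (x - c * m) ^ 2 = c ^ 2 * |x / c - m| ^ 2 := fun m => by
    rw [sq_abs]
    field_simp
  rw [cq, UnitAddCircle.norm_eq, mul_pow]
  refine ⟨(h1 _).symm, fun m => ?_⟩
  rw [h1]
  exact mul_le_mul_of_nonneg_left (pow_le_pow_left₀ (abs_nonneg _) (round_le (x / c) m) 2)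
    (sq_nonneg c)

theorem mem_Ur {ρ : ℝ} (hρ : 0 < ρ) {z : E3} : z ∈ Ur ρ ↔
    ρ ^ 2 < (6 * ρ * ‖(q ρ z).1‖) ^ 2 + (6 * ρ * ‖(q ρ z).2.1‖) ^ 2 := by
  have h6 : 6 * ρ ≠ 0 := by positivity
  obtain ⟨a0, b0⟩ := nrm h6 (z 0)
  obtain ⟨a1, b1⟩ := nrm h6 (z 1)
  simp only [q]
  refine ⟨fun h => ?_, fun h m n => h.trans_le (add_le_add (b0 m) (b1 n))⟩
  rw [a0, a1]
  exact h _ _

theorem Ur_open {ρ : ℝ} (hρ : 0 < ρ) : IsOpen (Ur ρ) := by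
  have := cq_cont (6 * ρ)
  rw [show Ur ρ = {z | ρ ^ 2 < (6 * ρ * ‖(q ρ z).1‖) ^ 2 + (6 * ρ * ‖(q ρ z).2.1‖) ^ 2} from
    Set.ext fun z => mem_Ur hρ]
  exact isOpen_lt continuous_const (by fun_prop)

theorem Ur_per {ρ : ℝ} (hρ : 0 < ρ) {y y' : E3} (h : q ρ y = q ρ y') : y ∈ Ur ρ ↔ y' ∈ Ur ρ := by
  rw [mem_Ur hρ, mem_Ur hρ, h]

theorem gap {ρ x : ℝ} (hρ : 0 < ρ) (h1 : 2 * ρ ≤ x) (h2 : x ≤ 4 * ρ) (n : ℤ) :
    ρ ^ 2 < (x - 6 * ρ * n) ^ 2 := by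
  rcases le_or_gt n 0 with h | h
  · have : (n : ℝ) ≤ 0 := by exact_mod_cast h
    have : 2 * ρ ≤ x - 6 * ρ * n := by nlinarith
    nlinarith
  · have : (1 : ℝ) ≤ n := by exact_mod_cast h
    have : x - 6 * ρ * n ≤ -(2 * ρ) := by nlinarith
    nlinarith

theorem gap2 {ρ x : ℝ} (hρ : 0 < ρ) (h1 : x ^ 2 < (3 * ρ) ^ 2) {n : ℤ} (hn : n ≠ 0) :
    (3 * ρ) ^ 2 < (x - 6 * ρ * n) ^ 2 := by
  obtain ⟨h2, h3⟩ := abs_lt_of_sq_lt_sq' h1 (by linarith)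
  rcases lt_or_gt_of_ne hn with h | h
  · have : (n : ℝ) ≤ -1 := by exact_mod_cast Int.le_sub_one_of_lt h
    have : 3 * ρ < x - 6 * ρ * n := by nlinarith
    nlinarith
  · have : (1 : ℝ) ≤ n := by exact_mod_cast h
    have : x - 6 * ρ * n < -(3 * ρ) := by nlinarith
    nlinarith

/-- polar coordinates -/
noncomputable def P (w : E3) : E3 := !₂[w 0 * cos (w 1), w 0 * sin (w 1), w 2]

theorem P0 (w : E3) : P w 0 = w 0 * cos (w 1) := rfl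
theorem P1 (w : E3) : P w 1 = w 0 * sin (w 1) := rfl
theorem P2 (w : E3) : P w 2 = w 2 := rfl

theorem P_sq (w : E3) : P w 0 ^ 2 + P w 1 ^ 2 = w 0 ^ 2 := by
  rw [P0, P1]
  linear_combination w 0 ^ 2 * cos_sq_add_sin_sq (w 1)

theorem P_per (ρ : ℝ) {w w' : E3} (h : qN w = qN w') : q ρ (P w) = q ρ (P w') := by
  simp only [qN, Prod.mk.injEq] at h
  obtain ⟨m, hm⟩ := (cq_eq tp.ne').mp h.2.1
  rw [mul_comm] at hm
  simp only [q, P0, P1, P2, h.1, h.2.2, hm, cos_add_int_mul_two_pi, sin_add_int_mul_two_pi]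

theorem P_inj {ρ : ℝ} (hρ : 0 < ρ) {w w' : E3} (a : 0 < w 0) (b : w 0 < 3 * ρ) (a' : 0 < w' 0)
    (b' : w' 0 < 3 * ρ) (h : q ρ (P w) = q ρ (P w')) : qN w = qN w' := by
  have h6 : 6 * ρ ≠ 0 := by positivity
  simp only [q, Prod.mk.injEq] at h
  have key : ∀ x x' : ℝ, x ^ 2 ≤ w 0 ^ 2 → x' ^ 2 ≤ w' 0 ^ 2 → cq (6 * ρ) x = cq (6 * ρ) x' →
      x = x' := by
    intro x x' h1 h2 h3
    obtain ⟨m, hm⟩ := (cq_eq h6).mp h3
    by_cases h0 : m = 0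
    · simpa [h0] using hm.symm
    have h4 := gap2 hρ (x := x') (by nlinarith) h0
    rw [show x' - 6 * ρ * m = x by linarith] at h4
    nlinarith
  have s := P_sq w
  have s' := P_sq w'
  have e0 := key _ _ (by nlinarith [sq_nonneg (P w 1)]) (by nlinarith [sq_nonneg (P w' 1)]) h.1
  have e1 := key _ _ (by nlinarith [sq_nonneg (P w 0)]) (by nlinarith [sq_nonneg (P w' 0)]) h.2.1
  have e : w 0 = w' 0 := (pow_left_inj₀ a.le a'.le two_ne_zero).mp (by rw [← s, ← s', e0, e1])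
  rw [P0, P0, e] at e0
  rw [P1, P1, e] at e1
  obtain ⟨m, hm⟩ := Angle.angle_eq_iff_two_pi_dvd_sub.mp
    (Angle.cos_sin_inj (mul_left_cancel₀ a'.ne' e0).symm (mul_left_cancel₀ a'.ne' e1).symm)
  simp only [qN, Prod.mk.injEq]
  exact ⟨e, (cq_eq tp.ne').mpr ⟨m, by linarith⟩, h.2.2⟩

theorem P_mem {ρ : ℝ} (hρ : 0 < ρ) {w : E3} (a : ρ < w 0) (b : w 0 < 3 * ρ) : P w ∈ Ur ρ := by
  intro m n
  have s := P_sq w
  by_cases hm : m = 0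
  · by_cases hn : n = 0
    · simp only [hm, hn, Int.cast_zero, mul_zero, sub_zero, s]
      nlinarith
    · have := gap2 hρ (x := P w 1) (by nlinarith [sq_nonneg (P w 0)]) hn
      nlinarith [sq_nonneg (P w 0 - 6 * ρ * m)]
  · have := gap2 hρ (x := P w 0) (by nlinarith [sq_nonneg (P w 1)]) hm
    nlinarith [sq_nonneg (P w 1 - 6 * ρ * n)]

theorem P_bd {ρ : ℝ} {w : E3} (a : w 0 = ρ) : P w ∉ Ur ρ := fun h => by
  have h1 := h 0 0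
  simp only [Int.cast_zero, mul_zero, sub_zero, P_sq, a] at h1
  exact lt_irrefl _ h1

theorem P_sur (y : E3) : ∃ w, 0 ≤ w 0 ∧ P w = y :=
  ⟨!₂[‖(⟨y 0, y 1⟩ : ℂ)‖, Complex.arg ⟨y 0, y 1⟩, y 2], norm_nonneg _,
    ext3 (Complex.norm_mul_cos_arg _) (Complex.norm_mul_sin_arg _) rfl⟩

theorem P_smooth : ContDiff ℝ ∞ P := by
  refine (contDiff_piLp 2).mpr fun i => ?_
  fin_cases i
  · exact (by fun_prop : ContDiff ℝ ∞ fun w : E3 => w 0 * cos (w 1))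
  · exact (by fun_prop : ContDiff ℝ ∞ fun w : E3 => w 0 * sin (w 1))
  · exact (by fun_prop : ContDiff ℝ ∞ fun w : E3 => w 2)

noncomputable def pr (i : Fin 3) : E3 →L[ℝ] ℝ := EuclideanSpace.proj i

theorem P_der (w u : E3) : fderiv ℝ P w u 0 = u 0 * cos (w 1) - w 0 * sin (w 1) * u 1 ∧
    fderiv ℝ P w u 1 = u 0 * sin (w 1) + w 0 * cos (w 1) * u 1 ∧ fderiv ℝ P w u 2 = u 2 := by
  have h := (P_smooth.differentiable (by simp) w).hasFDerivAt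
  have h0 := fun i => (pr i).hasFDerivAt (x := w)
  have k := fun i => ((pr i).hasFDerivAt.comp w h)
  have k0 := DFunLike.congr_fun ((k 0).unique ((h0 0).mul (h0 1).cos)) u
  have k1 := DFunLike.congr_fun ((k 1).unique ((h0 0).mul (h0 1).sin)) u
  have k2 := DFunLike.congr_fun ((k 2).unique (h0 2)) u
  simp [pr] at k0 k1 k2
  exact ⟨by linarith, by linarith, k2⟩

noncomputable def ee (i j : Fin 3) : Bil := (pr i).smulRight (pr j)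

theorem ee_app (i j : Fin 3) (u v : E3) : ee i j u v = u i * v j := by simp [ee, pr]

/-- the form `dr² + r² dθ² + c² dy²` -/
noncomputable def dg (r c : ℝ) : Bil := ee 0 0 + r ^ 2 • ee 1 1 + c ^ 2 • ee 2 2

theorem dg_app (r c : ℝ) (u v : E3) :
    dg r c u v = u 0 * v 0 + r ^ 2 * (u 1 * v 1) + c ^ 2 * (u 2 * v 2) := by
  simp [dg, ee_app]

theorem dg_P (c : ℝ) (w u v : E3) :
    dg 1 c (fderiv ℝ P w u) (fderiv ℝ P w v) = dg (w 0) c u v := by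
  obtain ⟨a0, a1, a2⟩ := P_der w u
  obtain ⟨b0, b1, b2⟩ := P_der w v
  rw [dg_app, dg_app, a0, a1, a2, b0, b1, b2]
  linear_combination (u 0 * v 0 + w 0 ^ 2 * (u 1 * v 1)) * cos_sq_add_sin_sq (w 1)

theorem pos3 {a b x y z : ℝ} (ha : a ≠ 0) (hb : b ≠ 0) (h : ¬ (x = 0 ∧ y = 0 ∧ z = 0)) :
    0 < x * x + a ^ 2 * (y * y) + b ^ 2 * (z * z) := by
  have h1 := mul_self_nonneg x
  have h2 := mul_nonneg (sq_nonneg a) (mul_self_nonneg y)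
  have h3 := mul_nonneg (sq_nonneg b) (mul_self_nonneg z)
  by_contra h4
  refine h ⟨mul_self_eq_zero.mp (by linarith), mul_self_eq_zero.mp ?_, mul_self_eq_zero.mp ?_⟩
  · exact (mul_eq_zero.mp (by linarith : a ^ 2 * (y * y) = 0)).resolve_left (pow_ne_zero 2 ha)
  · exact (mul_eq_zero.mp (by linarith : b ^ 2 * (z * z) = 0)).resolve_left (pow_ne_zero 2 hb)

theorem dg_cm {ρ c : ℝ} (hρ : 0 < ρ) (hc : c ≠ 0) : CM (fun _ => dg 1 c) (Ur ρ) :=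
  ⟨Ur_open hρ, contDiffOn_const, fun _ _ u v => by rw [dg_app, dg_app]; ring, fun _ _ u hu => by
    rw [dg_app]
    exact pos3 one_ne_zero hc fun h => hu (ext3 h.1 h.2.1 h.2.2)⟩

/-- closed boxes -/
def box (a0 b0 a1 b1 a2 b2 : ℝ) : Set E3 :=
  {z | (a0 ≤ z 0 ∧ z 0 ≤ b0) ∧ (a1 ≤ z 1 ∧ z 1 ≤ b1) ∧ a2 ≤ z 2 ∧ z 2 ≤ b2}

theorem box_eq (a0 b0 a1 b1 a2 b2 : ℝ) : box a0 b0 a1 b1 a2 b2 =
    EuclideanSpace.equiv (Fin 3) ℝ ⁻¹' Icc ![a0, a1, a2] ![b0, b1, b2] := by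
  ext z
  simp [box, Pi.le_def, Fin.forall_fin_succ]
  tauto

theorem box_cpt (a0 b0 a1 b1 a2 b2 : ℝ) : IsCompact (box a0 b0 a1 b1 a2 b2) := by
  rw [box_eq]
  exact (EuclideanSpace.equiv (Fin 3) ℝ).toHomeomorph.isCompact_preimage.mpr isCompact_Icc

theorem box_conn (a0 b0 a1 b1 a2 b2 : ℝ) : IsPreconnected (box a0 b0 a1 b1 a2 b2) := by
  rw [box_eq]
  exact ((convex_Icc _ _).linear_preimage
    (EuclideanSpace.equiv (Fin 3) ℝ).toLinearEquiv.toLinearMap).isPreconnected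

def KH (ρ : ℝ) : Set E3 := box (-(2 * ρ)) (4 * ρ) (2 * ρ) (4 * ρ) 0 (2 * π)
def KV (ρ : ℝ) : Set E3 := box (2 * ρ) (4 * ρ) (-(2 * ρ)) (4 * ρ) 0 (2 * π)

theorem KH_sub {ρ : ℝ} (hρ : 0 < ρ) : KH ρ ⊆ Ur ρ := fun z hz m n => by
  linarith [gap hρ hz.2.1.1 hz.2.1.2 n, sq_nonneg (z 0 - 6 * ρ * m)]

theorem KV_sub {ρ : ℝ} (hρ : 0 < ρ) : KV ρ ⊆ Ur ρ := fun z hz m n => by
  linarith [gap hρ hz.1.1 hz.1.2 m, sq_nonneg (z 1 - 6 * ρ * n)]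

theorem tri {ρ : ℝ} (hρ : 0 < ρ) {y : E3} (hy : y ∈ Ur ρ) :
    (∃ z ∈ KH ρ ∪ KV ρ, q ρ z = q ρ y) ∨
      ∃ w, ρ < w 0 ∧ w 0 ≤ 29 / 10 * ρ ∧ q ρ (P w) = q ρ y := by
  obtain ⟨x0, a0, b0, c0⟩ := cq_red (c := 6 * ρ) (by linarith) (-(2 * ρ)) (y 0)
  obtain ⟨x1, a1, b1, c1⟩ := cq_red (c := 6 * ρ) (by linarith) (-(2 * ρ)) (y 1)
  obtain ⟨x2, a2, b2, c2⟩ := cq_red tp 0 (y 2)
  have h : q ρ !₂[x0, x1, x2] = q ρ y := Prod.ext c0 (Prod.ext c1 c2)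
  by_cases h1 : 2 * ρ ≤ x1
  · exact Or.inl ⟨_, Or.inl ⟨⟨a0, show x0 ≤ _ by linarith⟩, ⟨h1, show x1 ≤ _ by linarith⟩, a2,
      show x2 ≤ _ by linarith⟩, h⟩
  by_cases h0 : 2 * ρ ≤ x0
  · exact Or.inl ⟨_, Or.inr ⟨⟨h0, show x0 ≤ _ by linarith⟩, ⟨a1, show x1 ≤ _ by linarith⟩, a2,
      show x2 ≤ _ by linarith⟩, h⟩
  obtain ⟨w, hw0, hw⟩ := P_sur !₂[x0, x1, x2]
  have s := P_sq w
  have h2 := (Ur_per hρ h).mpr hy 0 0
  rw [hw] at s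
  simp only [Int.cast_zero, mul_zero, sub_zero, s] at h2
  change x0 ^ 2 + x1 ^ 2 = _ at s
  exact Or.inr ⟨w, lt_of_pow_lt_pow_left₀ 2 hw0 h2,
    le_of_pow_le_pow_left₀ two_ne_zero (by linarith) (by nlinarith), by rw [hw, h]⟩

/-- an isometric transition map -/
def Tr {Z : Type} (ψ₁ ψ₂ : E3 → Z) (G₁ G₂ : Bil) (y y' : E3) : Prop :=
  ∃ τ : E3 → E3, ContDiffAt ℝ ∞ τ y ∧ τ y = y' ∧ (∀ᶠ z in 𝓝 y, ψ₂ (τ z) = ψ₁ z) ∧
    ∀ u v, G₁ u v = G₂ (fderiv ℝ τ y u) (fderiv ℝ τ y v)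

theorem Tr.transl {Z : Type} {ψ : E3 → Z} (G : Bil) {y y' : E3}
    (h : ∀ z, ψ (z + (y' - y)) = ψ z) : Tr ψ ψ G G y y' :=
  ⟨fun z => z + (y' - y), by fun_prop, by simp, Eventually.of_forall h, fun u v => by
    rw [fderiv_add_const, fderiv_fun_id]; rfl⟩

theorem Tr.trans {Z : Type} {ψ₁ ψ₂ ψ₃ : E3 → Z} {G₁ G₂ G₃ : Bil} {y y' y'' : E3}
    (h : Tr ψ₁ ψ₂ G₁ G₂ y y') (h' : Tr ψ₂ ψ₃ G₂ G₃ y' y'') : Tr ψ₁ ψ₃ G₁ G₃ y y'' := by
  obtain ⟨τ, a1, rfl, a3, a4⟩ := h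
  obtain ⟨τ', b1, rfl, b3, b4⟩ := h'
  refine ⟨τ' ∘ τ, b1.comp y a1, rfl, ?_, fun u v => ?_⟩
  · filter_upwards [a3, a1.continuousAt.eventually b3] with z h1 h2
    exact h2.trans h1
  · rw [fderiv_comp y (b1.differentiableAt (by simp)) (a1.differentiableAt (by simp)), a4, b4]
    rfl

theorem Tr.symm {Z : Type} {ψ₁ ψ₂ : E3 → Z} {G₁ G₂ : Bil} {y y' : E3}
    (h : Tr ψ₁ ψ₂ G₁ G₂ y y') (hp : ∀ u, u ≠ 0 → 0 < G₁ u u) : Tr ψ₂ ψ₁ G₂ G₁ y' y := by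
  obtain ⟨τ, a1, rfl, a3, a4⟩ := h
  have hi : Function.Injective (fderiv ℝ τ y) := (injective_iff_map_eq_zero _).mpr fun u hu => by
    by_contra h0
    have := hp u h0
    rw [a4, hu] at this
    simp at this
  let e : E3 ≃L[ℝ] E3 :=
    ((fderiv ℝ τ y).toLinearMap.linearEquivOfInjective hi rfl).toContinuousLinearEquiv
  have hd : HasFDerivAt τ (e : E3 →L[ℝ] E3) y := (a1.differentiableAt (by simp)).hasFDerivAt
  have hs := a1.hasStrictFDerivAt' hd (by simp)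
  have b1 := a1.to_localInverse hd (by simp)
  have b2 : a1.localInverse hd (by simp) (τ y) = y := a1.localInverse_apply_image hd (by simp)
  refine ⟨_, b1, b2, ?_, fun u v => ?_⟩
  · have h1 := b1.continuousAt.tendsto
    rw [b2] at h1
    filter_upwards [h1.eventually a3, hs.eventually_right_inverse] with z h2 h3
    exact h2.symm.trans (congrArg ψ₂ h3)
  · have h1 : fderiv ℝ (a1.localInverse hd (by simp)) (τ y) = (e.symm : E3 →L[ℝ] E3) :=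
      hs.to_localInverse.hasFDerivAt.fderiv
    rw [h1, a4, hd.fderiv]
    simp

end Vale.Agent.P255.Mf
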