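import Vale.Agent.P255.M1

/-! P255, module M, part 2: the two ends and the gluing data. -/

open scoped Manifold ContDiff Topology
open Set Filter Real

namespace Vale.Agent.P255.Mf

/-- One flat end attached to the neck. -/
structure End {Z : Type} (ψN ψ : E3 → Z) (GN : E3 → Bil) (UN KN : Set E3) (ρ c : ℝ)
    (l : E3 → E3) : Prop where
  pos : 0 < ρ
  cne : c ≠ 0
  e1 : ∀ z, ρ < l z 0 → ψN z = ψ (P (l z))
  e2 : ∀ z w, ψN z = ψ w → ρ < l z 0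
  e3 : ∀ w w', ψ w = ψ w' ↔ q ρ w = q ρ w'
  e4 : ∀ z ∈ UN, l z 0 < 3 * ρ
  sm : ContDiff ℝ ∞ l
  met : ∀ z, ρ < l z 0 → ∀ u v, GN z u v = dg (l z 0) c (fderiv ℝ l z u) (fderiv ℝ l z v)
  sur : ∀ w : E3, ρ < w 0 → w 0 ≤ 29 / 10 * ρ → ∃ z ∈ KN, qN (l z) = qN w

namespace End

variable {Z : Type} {ψN ψ : E3 → Z} {GN : E3 → Bil} {UN KN : Set E3} {ρ c : ℝ} {l : E3 → E3}
  (h : End ψN ψ GN UN KN ρ c l)
include h

theorem trE (G : Bil) {y y' : E3} (e : ψ y = ψ y') : Tr ψ ψ G G y y' :=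
  Tr.transl G fun z => (h.e3 _ _).mpr (q_tr ((h.e3 _ _).mp e) z)

theorem ev {y : E3} (h1 : ρ < l y 0) : ∀ᶠ z in 𝓝 y, ρ < l z 0 :=
  ((co 0).comp h.sm.continuous).continuousAt.eventually (lt_mem_nhds h1)

theorem trN {y y' : E3} (e : ψN y = ψ y') : Tr ψN ψ (GN y) (dg 1 c) y y' := by
  have h1 := h.e2 _ _ e
  refine Tr.trans ⟨P ∘ l, (P_smooth.comp h.sm).contDiffAt, rfl,
    (h.ev h1).mono fun z hz => (h.e1 z hz).symm, fun u v => ?_⟩
    (h.trE (dg 1 c) ((h.e1 y h1).symm.trans e))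
  rw [fderiv_comp y (P_smooth.differentiable (by simp) _) (h.sm.differentiable (by simp) _),
    h.met y h1]
  exact (dg_P c _ _ _).symm

theorem inj (y : E3) : ∃ O ∈ 𝓝 y, InjOn ψ O :=
  (q_inj h.pos y).imp fun _ hO => ⟨hO.1, fun _ a _ b e => hO.2 a b ((h.e3 _ _).mp e)⟩

theorem sepE {y y' : E3} (e : ψ y ≠ ψ y') : ∀ᶠ z : E3 × E3 in 𝓝 (y, y'), ψ z.1 ≠ ψ z.2 := by
  simp only [Ne, h.e3] at e ⊢
  exact (isOpen_ne_fun ((q_cont ρ).comp continuous_fst)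
    ((q_cont ρ).comp continuous_snd)).mem_nhds e

theorem sepN {y y' : E3} (hy : y' ∈ Ur ρ) (e : ψN y ≠ ψ y') :
    ∀ᶠ z : E3 × E3 in 𝓝 (y, y'), ψN z.1 ≠ ψ z.2 := by
  rcases lt_or_ge (l y 0) ρ with h1 | h1
  · filter_upwards [(isOpen_lt (((co 0).comp h.sm.continuous).comp continuous_fst)
      continuous_const).mem_nhds (x := (y, y')) h1] with z hz e' using lt_asymm hz (h.e2 _ _ e')
  have h2 : q ρ (P (l y)) ≠ q ρ y' := fun h2 => by
    rcases h1.eq_or_lt with h3 | h3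
    · exact P_bd h3.symm ((Ur_per h.pos h2).mpr hy)
    · exact e ((h.e1 y h3).trans ((h.e3 _ _).mpr h2))
  filter_upwards [(isOpen_ne_fun (((q_cont ρ).comp (P_smooth.continuous.comp
    h.sm.continuous)).comp continuous_fst) ((q_cont ρ).comp continuous_snd)).mem_nhds
      (x := (y, y')) h2] with z hz e'
  exact hz ((h.e3 _ _).mp ((h.e1 _ (h.e2 _ _ e')).symm.trans e'))

theorem ann {w : E3} (a : ρ < w 0) (b : w 0 ≤ 29 / 10 * ρ) : ∃ z ∈ KN, ψN z = ψ (P w) := by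
  obtain ⟨z, hz, e⟩ := h.sur w a b
  have h1 : l z 0 = w 0 := congrArg Prod.fst e
  exact ⟨z, hz, (h.e1 z (h1 ▸ a)).trans ((h.e3 _ _).mpr (P_per ρ e))⟩

theorem cover {y : E3} (hy : y ∈ Ur ρ) :
    (∃ z ∈ KH ρ ∪ KV ρ, ψ z = ψ y) ∨ ∃ z ∈ KN, ψN z = ψ y := by
  rcases tri h.pos hy with ⟨z, hz, e⟩ | ⟨w, a, b, e⟩
  · exact Or.inl ⟨z, hz, (h.e3 _ _).mpr e⟩
  · obtain ⟨z, hz, e'⟩ := h.ann a b
    exact Or.inr ⟨z, hz, e'.trans ((h.e3 _ _).mpr e)⟩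

theorem meet : (∃ z ∈ KN, ∃ y ∈ KH ρ, ψN z = ψ y) ∧ ∃ z ∈ KN, ∃ y ∈ KV ρ, ψN z = ψ y := by
  have h1 := h.pos
  have h2 := tp
  obtain ⟨z, hz, e⟩ := h.ann (w := !₂[2 * ρ, π / 2, 0]) (show ρ < 2 * ρ by linarith)
    (show 2 * ρ ≤ _ by linarith)
  obtain ⟨z', hz', e'⟩ := h.ann (w := !₂[2 * ρ, 0, 0]) (show ρ < 2 * ρ by linarith)
    (show 2 * ρ ≤ _ by linarith)
  rw [show P !₂[2 * ρ, π / 2, 0] = !₂[0, 2 * ρ, 0] from
    ext3 (by simp [P0]) (by simp [P1]) rfl] at e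
  rw [show P !₂[2 * ρ, 0, 0] = !₂[2 * ρ, 0, 0] from ext3 (by simp [P0]) (by simp [P1]) rfl] at e'
  exact ⟨⟨z, hz, _, ⟨⟨show -(2 * ρ) ≤ 0 by linarith, show 0 ≤ 4 * ρ by linarith⟩,
    ⟨le_rfl, show 2 * ρ ≤ 4 * ρ by linarith⟩, le_rfl, h2.le⟩, e⟩, z', hz', _,
    ⟨⟨le_rfl, show 2 * ρ ≤ 4 * ρ by linarith⟩,
      ⟨show -(2 * ρ) ≤ 0 by linarith, show 0 ≤ 4 * ρ by linarith⟩, le_rfl, h2.le⟩, e'⟩

end End

/-- Gluing data of the neck and the two ends. -/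
structure Dat {Z : Type} (ψN : E3 → Z) (ψ : Bool → E3 → Z) (GN : E3 → Bil) (UN KN : Set E3)
    (ρ c : Bool → ℝ) (l : Bool → E3 → E3) : Prop where
  en : ∀ b, End ψN (ψ b) GN UN KN (ρ b) (c b) (l b)
  dis : ∀ b b' w w', ψ b w = ψ b' w' → b = b'
  cm : CM GN UN
  gt : ∀ y y' : E3, y 0 = y' 0 → GN y = GN y'
  ut : ∀ y y' : E3, y 0 = y' 0 → y ∈ UN → y' ∈ UN
  per : ∀ y y', qN y = qN y' → ψN y = ψN y'
  nn : ∀ y ∈ UN, ∀ y' ∈ UN, ψN y = ψN y' → qN y = qN y'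
  cpt : IsCompact KN
  conn : IsPreconnected KN
  sub : KN ⊆ UN
  red : ∀ y, (∀ b, l b y 0 ≤ ρ b) → ∃ z ∈ KN, qN z = qN y

variable {Z : Type} (ψN : E3 → Z) (ψ : Bool → E3 → Z) (GN : E3 → Bil) (UN KN : Set E3)
  (ρ c : Bool → ℝ) (l : Bool → E3 → E3)

def UU : Option Bool → Set E3 := fun i => i.elim UN fun b => Ur (ρ b)
def KK : Option Bool → Set E3 := fun i => i.elim KN fun b => KH (ρ b) ∪ KV (ρ b)
def pp : Option Bool → E3 → Z := fun i => i.elim ψN ψ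
noncomputable def GG : Option Bool → E3 → Bil := fun i => i.elim GN fun b _ => dg 1 (c b)

variable {ψN ψ GN UN KN ρ c l} (h : Dat ψN ψ GN UN KN ρ c l)
include h

theorem Dat.cms (i) : CM (GG GN c i) (UU UN ρ i) := by
  cases i with
  | none => exact h.cm
  | some b => exact dg_cm (h.en b).pos (h.en b).cne

theorem Dat.tr (i j) : ∀ y ∈ UU UN ρ i, ∀ y' ∈ UU UN ρ j, pp ψN ψ i y = pp ψN ψ j y' →
    Tr (pp ψN ψ i) (pp ψN ψ j) (GG GN c i y) (GG GN c j y') y y' := by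
  intro y hy y' hy' e
  cases i with
  | none =>
    cases j with
    | none =>
      have h1 := h.nn y hy y' hy' e
      rw [show GG GN c none y' = GG GN c none y from (h.gt _ _ (congrArg Prod.fst h1)).symm]
      exact Tr.transl _ fun z => h.per _ _ (qN_tr h1 z)
    | some b => exact (h.en b).trN e
  | some b =>
    cases j with
    | none => exact ((h.en b).trN e.symm).symm (h.cm.pos y' hy')
    | some b' =>
      obtain rfl := h.dis _ _ _ _ e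
      exact (h.en b).trE _ e

theorem Dat.inj (i) : ∀ y ∈ UU UN ρ i, ∃ O ∈ 𝓝 y, InjOn (pp ψN ψ i) O := by
  intro y hy
  cases i with
  | none =>
    obtain ⟨O, h1, h2⟩ := qN_inj y
    exact ⟨O ∩ UN, inter_mem h1 (h.cm.isOpen.mem_nhds hy),
      fun _ a _ b e => h2 a.1 b.1 (h.nn _ a.2 _ b.2 e)⟩
  | some b => exact (h.en b).inj y

theorem Dat.sep (i j) : ∀ y ∈ UU UN ρ i, ∀ y' ∈ UU UN ρ j, pp ψN ψ i y ≠ pp ψN ψ j y' →
    ∀ᶠ z : E3 × E3 in 𝓝 (y, y'), pp ψN ψ i z.1 ≠ pp ψN ψ j z.2 := by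
  intro y hy y' hy' e
  cases i with
  | none =>
    cases j with
    | none =>
      filter_upwards [(isOpen_ne_fun (qN_cont.comp continuous_fst)
        (qN_cont.comp continuous_snd)).mem_nhds (x := (y, y')) fun e' => e (h.per _ _ e'),
        (h.cm.isOpen.prod h.cm.isOpen).mem_nhds (x := (y, y')) ⟨hy, hy'⟩] with z h1 h2 e'
      exact h1 (h.nn _ h2.1 _ h2.2 e')
    | some b => exact (h.en b).sepN hy' e
  | some b =>
    cases j with
    | none =>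
      exact (continuous_swap.continuousAt (x := (y, y'))).eventually
        (((h.en b).sepN hy e.symm).mono fun z hz => hz.symm)
    | some b' =>
      rcases eq_or_ne b b' with rfl | hb
      · exact (h.en b).sepE e
      · exact Eventually.of_forall fun z e' => hb (h.dis _ _ _ _ e')

theorem Dat.kk (i) : IsCompact (KK KN ρ i) ∧ KK KN ρ i ⊆ UU UN ρ i := by
  cases i with
  | none => exact ⟨h.cpt, h.sub⟩
  | some b => exact ⟨(box_cpt ..).union (box_cpt ..),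
      union_subset (KH_sub (h.en b).pos) (KV_sub (h.en b).pos)⟩

theorem Dat.cov (i) : ∀ y ∈ UU UN ρ i, ∃ j, ∃ z ∈ KK KN ρ j, pp ψN ψ j z = pp ψN ψ i y := by
  have key : ∀ b, ∀ y ∈ Ur (ρ b), ∃ j, ∃ z ∈ KK KN ρ j, pp ψN ψ j z = ψ b y := fun b y hy =>
    ((h.en b).cover hy).elim (fun e => ⟨some b, e⟩) fun e => ⟨none, e⟩
  intro y hy
  cases i with
  | none =>
    by_cases h1 : ∀ b, l b y 0 ≤ ρ b
    · obtain ⟨z, hz, e⟩ := h.red y h1
      exact ⟨none, z, hz, h.per _ _ e⟩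
    · push Not at h1
      obtain ⟨b, hb⟩ := h1
      rw [show pp ψN ψ none y = _ from (h.en b).e1 y hb]
      exact key b _ (P_mem (h.en b).pos hb ((h.en b).e4 y hy))
  | some b => exact key b y hy

/-- choice of the chart of a point -/
theorem Dat.pick (i) : ∀ y ∈ UU UN ρ i, ∃ j, ∃ z ∈ UU UN ρ j, pp ψN ψ j z = pp ψN ψ i y ∧
    (j = none → ∀ b, l b z 0 ≤ ρ b) := by
  intro y hy
  cases i with
  | none =>
    by_cases h1 : ∀ b, l b y 0 ≤ ρ b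
    · exact ⟨none, y, hy, rfl, fun _ => h1⟩
    · push Not at h1
      obtain ⟨b, hb⟩ := h1
      exact ⟨some b, _, P_mem (h.en b).pos hb ((h.en b).e4 y hy), ((h.en b).e1 y hb).symm,
        fun e => absurd e (Option.some_ne_none b)⟩
  | some b => exact ⟨some b, y, hy, rfl, fun e => absurd e (Option.some_ne_none b)⟩

end Vale.Agent.P255.Mf
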