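import Vale.Agent.P255.Spec

/-! Module N: the group theoretic obstruction for isometric actions on `CAT(0)` spaces. -/

open Filter Topology

namespace Vale.Agent.P255

namespace Nn

variable {X : Type} {d : X → X → ℝ} {Γ : Type} [Group Γ] [MulAction Γ X]

lemma quad (h : CN d) (a b c e : X) :
    d a c ^ 2 + d b e ^ 2 ≤ d a b ^ 2 + d b c ^ 2 + d c e ^ 2 + d e a ^ 2 := by
  obtain ⟨m, hm⟩ := h.mid a c
  have h1 := hm b
  have h2 := hm e
  have h3 := h.tri b m e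
  rw [h.symm b m] at h3
  rw [h.symm c b] at h1
  rw [h.symm a e] at h2
  have := pow_le_pow_left₀ (h.nonneg b e) h3 2
  nlinarith [sq_nonneg (d m b - d m e)]

/-- an abstract length function on a group, with the quadrilateral inequality -/
structure Len (l : Γ → ℝ) : Prop where
  one : l 1 = 0
  nn : ∀ g, 0 ≤ l g
  inv : ∀ g, l g⁻¹ = l g
  mul : ∀ g h, l (g * h) ≤ l g + l h
  quad : ∀ a b c e : Γ, l (a⁻¹ * c) ^ 2 + l (b⁻¹ * e) ^ 2 ≤
    l (a⁻¹ * b) ^ 2 + l (b⁻¹ * c) ^ 2 + l (c⁻¹ * e) ^ 2 + l (e⁻¹ * a) ^ 2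

lemma len (h : CN d) (hi : ∀ (φ : Γ) a b, d (φ • a) (φ • b) = d a b) (o : X) :
    Len fun g : Γ => d o (g • o) := by
  have e : ∀ a b : Γ, d o ((a⁻¹ * b) • o) = d (a • o) (b • o) := fun a b => by
    rw [← hi a, smul_smul, mul_inv_cancel_left]
  refine ⟨by simp [h.self], fun g => h.nonneg _ _, fun g => ?_, fun g k => ?_, fun a b c f => ?_⟩
  · rw [← hi g, smul_inv_smul, h.symm]
  · refine (h.tri _ (g • o) _).trans ?_
    rw [mul_smul, hi]
  · simp only [e]; exact quad h _ _ _ _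

variable {l : Γ → ℝ}

namespace Len
variable (h : Len l)
include h

lemma sub (g : Γ) : Subadditive fun n => l (g ^ n) := fun m n => by
  simpa only [pow_add] using h.mul _ _

/-- the stable length -/
noncomputable def st (g : Γ) : ℝ := (h.sub g).lim

lemma bdd (g : Γ) : BddBelow (Set.range fun n : ℕ => l (g ^ n) / n) :=
  ⟨0, by rintro _ ⟨n, rfl⟩; exact div_nonneg (h.nn _) n.cast_nonneg⟩

lemma tend (g : Γ) : Tendsto (fun n : ℕ => l (g ^ n) / n) atTop (𝓝 (h.st g)) :=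
  (h.sub g).tendsto_lim (h.bdd g)

lemma st_nn (g : Γ) : 0 ≤ h.st g :=
  ge_of_tendsto' (h.tend g) fun n => div_nonneg (h.nn _) n.cast_nonneg

lemma st_le (g : Γ) (n : ℕ) : n * h.st g ≤ l (g ^ n) := by
  rcases n.eq_zero_or_pos with rfl | hn
  · simpa using h.nn 1
  · have := (h.sub g).lim_le_div (h.bdd g) hn.ne'
    rwa [le_div_iff₀' (by exact_mod_cast hn)] at this

lemma st_inv (g : Γ) : h.st g⁻¹ = h.st g :=
  tendsto_nhds_unique (h.tend g⁻¹) (by simpa only [inv_pow, h.inv] using h.tend g)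

lemma st_pow (g : Γ) (k : ℕ) : h.st (g ^ k) = k * h.st g := by
  rcases k.eq_zero_or_pos with rfl | hk
  · refine tendsto_nhds_unique (h.tend _) ?_
    simp [h.one]
  have k0 : (k : ℝ) ≠ 0 := by exact_mod_cast hk.ne'
  have := ((h.tend g).comp (tendsto_id.const_mul_atTop' hk)).const_mul (k : ℝ)
  refine tendsto_nhds_unique (h.tend _) (this.congr fun n => ?_)
  simp only [Function.comp, id, pow_mul, Nat.cast_mul]
  field_simp

lemma par_le {g k : Γ} (c : Commute g k) :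
    h.st (g * k) ^ 2 + h.st (g⁻¹ * k) ^ 2 ≤ 2 * h.st g ^ 2 + 2 * h.st k ^ 2 := by
  refine le_of_tendsto_of_tendsto' (((h.tend _).pow 2).add ((h.tend _).pow 2))
    ((((h.tend g).pow 2).const_mul 2).add (((h.tend k).pow 2).const_mul 2)) fun n => ?_
  have q := h.quad 1 (g ^ n) (g ^ n * k ^ n) (k ^ n)
  have c' := (c.pow_pow n n).eq
  have e : (g ^ n * k ^ n)⁻¹ * k ^ n = (g ^ n)⁻¹ := by rw [c']; group
  rw [e] at q
  simp only [inv_one, one_mul, mul_one, inv_mul_cancel_left, h.inv] at q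
  rw [c.mul_pow, c.inv_left.mul_pow, inv_pow]
  simp only [div_pow, ← mul_div_assoc, ← add_div]
  exact div_le_div_of_nonneg_right (by linarith) (by positivity)

lemma par {g k : Γ} (c : Commute g k) :
    h.st (g * k) ^ 2 + h.st (g⁻¹ * k) ^ 2 = 2 * h.st g ^ 2 + 2 * h.st k ^ 2 := by
  refine (h.par_le c).antisymm ?_
  have c1 : Commute (g * k) (g⁻¹ * k) :=
    ((Commute.refl g).inv_right.mul_right c).mul_left (c.symm.inv_right.mul_right (Commute.refl k))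
  have p := h.par_le c1
  have e1 : g * k * (g⁻¹ * k) = k ^ 2 := by
    rw [c.eq, mul_assoc, mul_inv_cancel_left, sq]
  have e2 : (g * k)⁻¹ * (g⁻¹ * k) = (g ^ 2)⁻¹ := by
    rw [c.inv_left.eq, c.eq, mul_inv_rev, mul_assoc, inv_mul_cancel_left]; group
  rw [e1, e2, h.st_inv, h.st_pow, h.st_pow] at p
  push_cast at p
  linarith

/-- polarization -/
noncomputable def la (g k : Γ) : ℝ := h.st (g * k) ^ 2 - h.st g ^ 2 - h.st k ^ 2

lemma la_inv {g k : Γ} (c : Commute g k) : h.la g⁻¹ k = -h.la g k := by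
  have := h.par c
  rw [la, la, h.st_inv]; linarith

lemma quadr {g k : Γ} (c : Commute g k) (n : ℕ) :
    h.st (g * k ^ n) ^ 2 = h.st g ^ 2 + n * h.la g k + n ^ 2 * h.st k ^ 2 := by
  induction n using Nat.twoStepInduction with
  | zero => simp
  | one => simp [la]; ring
  | more n h0 h1 =>
    have c1 : Commute k (g * k ^ (n + 1)) := c.symm.mul_right ((Commute.refl k).pow_right _)
    have p := h.par c1
    have e1 : k * (g * k ^ (n + 1)) = g * k ^ (n + 2) := by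
      rw [← mul_assoc, ← c.eq]; group
    have e2 : k⁻¹ * (g * k ^ (n + 1)) = g * k ^ n := by
      rw [← mul_assoc, ← c.inv_right.eq]; group
    rw [e1, e2, h0, h1] at p
    push_cast at p ⊢
    linarith

end Len

/-- approximate Busemann cocycle -/
def Dm (l : Γ → ℝ) (f : Γ) (m : ℕ) (g : Γ) : ℝ := l (f ^ m * g) ^ 2 - l (f ^ m) ^ 2

namespace Len
variable (h : Len l) {f g k : Γ}
include h

lemma D_mul (c : Commute g f) (k : Γ) (m : ℕ) :
    Dm l f m (g * k) ≤ Dm l f m g + Dm l f m k + (l g ^ 2 + l k ^ 2) := by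
  have q := h.quad g⁻¹ 1 (f ^ m * k) (f ^ m)
  have c' := (c.pow_right m).eq
  have e1 : g⁻¹⁻¹ * (f ^ m * k) = f ^ m * (g * k) := by rw [inv_inv, ← mul_assoc, c', mul_assoc]
  have e2 : (f ^ m * k)⁻¹ * f ^ m = k⁻¹ := by group
  have e3 : (f ^ m)⁻¹ * g⁻¹ = (f ^ m * g)⁻¹ := by rw [← c', mul_inv_rev]
  rw [e1, e2, e3] at q
  simp only [inv_one, one_mul, mul_one, inv_inv, h.inv] at q
  simp only [Dm]; linarith

lemma D_inv (c : Commute g f) (m : ℕ) : Dm l f m g + Dm l f m g⁻¹ ≤ 2 * l g ^ 2 := by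
  have q := h.quad 1 g (f ^ m * g) (f ^ m)
  have c' := (c.pow_right m)
  have e1 : g⁻¹ * f ^ m = f ^ m * g⁻¹ := c'.inv_left.eq
  have e2 : g⁻¹ * (f ^ m * g) = f ^ m := by rw [← c'.eq, inv_mul_cancel_left]
  have e3 : (f ^ m * g)⁻¹ * f ^ m = g⁻¹ := by group
  rw [e1, e2, e3] at q
  simp only [inv_one, one_mul, mul_one, h.inv] at q
  simp only [Dm]; linarith

lemma D_comm {a b : Γ} (ha : Commute a f) (hb : Commute b f) :
    ∃ C, ∀ m, Dm l f m (a⁻¹ * b⁻¹ * a * b) ≤ C := by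
  refine ⟨?_, fun m => ?_⟩
  swap
  have h1 := h.D_mul ((ha.inv_left.mul_left hb.inv_left).mul_left ha) b m
  have h2 := h.D_mul (ha.inv_left.mul_left hb.inv_left) a m
  have h3 := h.D_mul ha.inv_left b⁻¹ m
  have h4 := h.D_inv ha m
  have h5 := h.D_inv hb m
  exact (show _ ≤ _ by
    have := add_le_add (add_le_add (add_le_add h1 h2) h3) (add_le_add h4 h5)
    linarith : Dm l f m (a⁻¹ * b⁻¹ * a * b) ≤ l (a⁻¹ * b⁻¹ * a) ^ 2 + l b ^ 2 +
      (l (a⁻¹ * b⁻¹) ^ 2 + l a ^ 2) + (l a⁻¹ ^ 2 + l b⁻¹ ^ 2) + 2 * l a ^ 2 + 2 * l b ^ 2)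

lemma D_pow (c : Commute g f) (hg : ∃ C, ∀ m, Dm l f m g ≤ C) (n : ℕ) :
    ∃ C, ∀ m, Dm l f m (g ^ n) ≤ C := by
  obtain ⟨C, hC⟩ := hg
  induction n with
  | zero => exact ⟨0, fun m => by simp [Dm]⟩
  | succ n ih =>
    obtain ⟨C', hC'⟩ := ih
    refine ⟨C + C' + (l g ^ 2 + l (g ^ n) ^ 2), fun m => ?_⟩
    have := h.D_mul c (g ^ n) m
    rw [pow_succ']
    linarith [hC m, hC' m]

lemma lower {w : Γ} {p : ℕ} (c : Commute w f) (hk : ∃ C, ∀ m, Dm l f m k ≤ C)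
    (e : w * k = f ^ p) : p * h.st f ≤ l w := by
  obtain ⟨C, hC⟩ := hk
  rw [← h.st_pow]
  obtain ⟨F, hF⟩ : ∃ F, F = f ^ p := ⟨_, rfl⟩
  obtain ⟨C', hC'⟩ : ∃ C', C' = C + 2 * l w ^ 2 + l k ^ 2 := ⟨_, rfl⟩
  have key : ∀ j, l (F ^ (j + 1)) ^ 2 ≤ l (F ^ j) ^ 2 + 2 * l w * l (F ^ j) + C' := fun j => by
    have a1 := h.D_mul c k (p * j)
    have a2 := hC (p * j)
    have a3 := pow_le_pow_left₀ (h.nn _) (h.mul (f ^ (p * j)) w) 2
    rw [e] at a1
    simp only [Dm, pow_mul, ← hF, ← pow_succ] at a1 a2 a3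
    nlinarith
  rw [← hF]
  by_contra! hc
  obtain ⟨ε, hε⟩ : ∃ ε, ε = (h.st F - l w) / 2 := ⟨_, rfl⟩
  have ε0 : 0 < ε := by linarith
  have t0 : 0 < h.st F := (h.nn w).trans_lt hc
  obtain ⟨N, hN⟩ := exists_nat_ge (C' / (2 * ε * h.st F))
  rw [div_le_iff₀ (by positivity)] at hN
  have step : ∀ j, l (F ^ (N + j)) ≤ l (F ^ N) + j * (l w + ε) := fun j => by
    induction j with
    | zero => simp
    | succ j ih =>
      have b1 := h.st_le F (N + j)
      have b2 : l (F ^ (N + j + 1)) ≤ l (F ^ (N + j)) + (l w + ε) := by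
        have w0 := h.nn w
        have s0 := h.nn (F ^ (N + j))
        refine (pow_le_pow_iff_left₀ (h.nn _) (by positivity) two_ne_zero).1 ((key _).trans ?_)
        have : (N : ℝ) * h.st F ≤ l (F ^ (N + j)) := le_trans (by push_cast; gcongr; simp) b1
        nlinarith [mul_le_mul_of_nonneg_left this ε0.le, sq_nonneg (l w + ε)]
      rw [← add_assoc]; push_cast; linarith
  obtain ⟨j, hj⟩ := exists_nat_gt (l (F ^ N) / ε)
  rw [div_lt_iff₀ ε0] at hj
  have b1 := (h.st_le F (N + j)).trans (step j)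
  push_cast at b1
  have : h.st F = l w + 2 * ε := by linarith
  nlinarith [mul_nonneg (N.cast_nonneg (α := ℝ)) t0.le]

lemma la_nn (c : Commute g f) (hg : ∃ C, ∀ m, Dm l f m g⁻¹ ≤ C) : 0 ≤ h.la g f := by
  have a : ∀ n : ℕ, n * h.st f ≤ h.st (g * f ^ n) := fun n => by
    refine ge_of_tendsto (h.tend _) ((eventually_gt_atTop 0).mono fun j hj => ?_)
    have := h.lower (w := (g * f ^ n) ^ j) (p := n * j)
      ((c.mul_left ((Commute.refl f).pow_left n)).pow_left j) (h.D_pow c.inv_left hg j) (by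
        rw [(c.pow_right n).mul_pow, ((c.pow_right n).pow_pow j j).eq, inv_pow,
          mul_inv_cancel_right, pow_mul])
    rw [le_div_iff₀ (by exact_mod_cast hj)]
    push_cast at this; linarith
  by_contra! hc
  obtain ⟨n, hn⟩ := exists_nat_gt (h.st g ^ 2 / -h.la g f)
  rw [div_lt_iff₀ (by linarith)] at hn
  have b := pow_le_pow_left₀ (mul_nonneg n.cast_nonneg (h.st_nn f)) (a n) 2
  rw [h.quadr c] at b
  nlinarith

lemma la_zero {a b : Γ} (ha : Commute a f) (hb : Commute b f) :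
    h.la (a⁻¹ * b⁻¹ * a * b) f = 0 := by
  have c : Commute (a⁻¹ * b⁻¹ * a * b) f :=
    ((ha.inv_left.mul_left hb.inv_left).mul_left ha).mul_left hb
  have p1 := h.la_nn c (by
    rw [show (a⁻¹ * b⁻¹ * a * b)⁻¹ = b⁻¹ * a⁻¹ * b * a by group]; exact h.D_comm hb ha)
  have p2 := h.la_nn c.inv_left (by rw [inv_inv]; exact h.D_comm ha hb)
  rw [h.la_inv c] at p2
  linarith

end Len

lemma halve (h : CN d) (hi : ∀ (φ : Γ) a b, d (φ • a) (φ • b) = d a b) (φ : Γ) (z : X) :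
    ∃ m, d m (φ • m) ≤ d z (φ ^ 2 • z) / 2 := by
  obtain ⟨m, hm⟩ := h.mid z (φ • z)
  have h1 := hm (φ • m)
  have h2 := hm (φ⁻¹ • z)
  have h3 := hm z
  have a1 : d m (φ⁻¹ • z) = d z (φ • m) := by rw [← hi φ, smul_inv_smul, h.symm]
  have a2 : d z (φ⁻¹ • z) = d z (φ • z) := by rw [← hi φ, smul_inv_smul, h.symm]
  have a3 : d (φ • z) (φ⁻¹ • z) = d z (φ ^ 2 • z) := by
    rw [← hi φ, smul_inv_smul, smul_smul, ← sq, h.symm]
  rw [a1, a2, a3] at h2
  rw [hi, h.symm z m] at h1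
  rw [h.self, h.symm (φ • z)] at h3
  refine ⟨m, (pow_le_pow_iff_left₀ (h.nonneg _ _) (by have := h.nonneg z (φ ^ 2 • z); positivity)
    two_ne_zero).1 ?_⟩
  nlinarith

lemma halve' (h : CN d) (hi : ∀ (φ : Γ) a b, d (φ • a) (φ • b) = d a b) (k : ℕ) :
    ∀ (φ : Γ) (z : X), ∃ m, d m (φ • m) ≤ d z (φ ^ 2 ^ k • z) / (2 ^ k : ℕ) := by
  induction k with
  | zero => exact fun φ z => ⟨z, by simp⟩
  | succ k ih =>
    intro φ z
    obtain ⟨m, hm⟩ := ih (φ ^ 2) z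
    obtain ⟨m', hm'⟩ := halve h hi φ m
    refine ⟨m', hm'.trans ?_⟩
    rw [← pow_mul, ← pow_succ'] at hm
    push_cast at hm ⊢
    rw [pow_succ (2 : ℝ), ← div_div]
    gcongr

end Nn

open Nn

theorem nStmt : NStmt := by
  intro X d h ⟨o⟩ Γ _ _ hi x y a₁ b₁ a₂ b₂ c h1 h2 e1 h3 h4 e2 ε ε0
  have L := len h hi o
  have z1 := L.la_zero h1 h2
  have z2 := L.la_zero h3 h4
  rw [← e1] at z1
  rw [← e2] at z2
  have q := L.quadr c.symm 2
  have e3 : x * y * x = y * x ^ 2 := by rw [c.eq, mul_assoc, sq]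
  simp only [Len.la, e3] at z1 z2 q
  rw [← c.eq] at q
  have t : L.st x = 0 := by
    push_cast at q
    have : L.st x ^ 2 = 0 := by linarith
    simpa using this
  have := (L.tend x).comp (tendsto_pow_atTop_atTop_of_one_lt (one_lt_two (α := ℕ)))
  rw [t] at this
  obtain ⟨k, hk⟩ := (this.eventually (gt_mem_nhds ε0)).exists
  obtain ⟨m, hm⟩ := halve' h hi k x o
  exact ⟨m, hm.trans_lt hk⟩

end Vale.Agent.P255
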