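import Vale.Agent.P255.Spec

/-! P255, module Q: a manifold glued from local parametrizations. -/

open scoped Manifold ContDiff Topology
open Set Filter

namespace Vale.Agent.P255

namespace Qm

/-- the final topology of the parametrizations -/
@[reducible] def gtop {M ι : Type} (U : ι → Set E3) (hU : ∀ i, IsOpen (U i)) (ψ : ι → E3 → M) :
    TopologicalSpace M where
  IsOpen V := ∀ i, IsOpen (U i ∩ ψ i ⁻¹' V)
  isOpen_univ i := by simpa using hU i
  isOpen_inter s t hs ht i := by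
    have e : U i ∩ ψ i ⁻¹' (s ∩ t) = (U i ∩ ψ i ⁻¹' s) ∩ (U i ∩ ψ i ⁻¹' t) := by
      ext x; simp only [mem_inter_iff, mem_preimage]; tauto
    rw [e]
    exact (hs i).inter (ht i)
  isOpen_sUnion S hS i := by
    have e : U i ∩ ψ i ⁻¹' (⋃₀ S) = ⋃ t ∈ S, U i ∩ ψ i ⁻¹' t := by
      ext x; simp only [mem_inter_iff, mem_preimage, mem_sUnion, mem_iUnion]; tauto
    rw [e]
    exact isOpen_biUnion fun t ht => hS t ht i

theorem exists_chart {M : Type} [TopologicalSpace M] {f : E3 → M} {O : Set E3} (hO : IsOpen O)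
    (hi : InjOn f O) (hc : ContinuousOn f O) (ho : ∀ O' ⊆ O, IsOpen O' → IsOpen (f '' O')) :
    ∃ e : OpenPartialHomeomorph M E3, e.target = O ∧ ⇑e.symm = f := by
  refine ⟨OpenPartialHomeomorph.symm
    { hi.toPartialEquiv f O with
      continuousOn_toFun := hc
      continuousOn_invFun := ?_
      open_source := hO
      open_target := ho O subset_rfl hO }, rfl, rfl⟩
  refine (continuousOn_open_iff (ho O subset_rfl hO)).2 fun t ht => ?_
  have l : ∀ y ∈ O, (hi.toPartialEquiv f O).invFun (f y) = y := fun y hy =>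
    (hi.toPartialEquiv f O).left_inv' hy
  have e : f '' O ∩ (hi.toPartialEquiv f O).invFun ⁻¹' t = f '' (O ∩ t) := by
    ext x
    constructor
    · rintro ⟨⟨y, hy, rfl⟩, h⟩
      refine ⟨y, ⟨hy, ?_⟩, rfl⟩
      rwa [mem_preimage, l y hy] at h
    · rintro ⟨y, ⟨hy, h⟩, rfl⟩
      refine ⟨⟨y, hy, rfl⟩, ?_⟩
      rwa [mem_preimage, l y hy]
  exact e ▸ ho _ inter_subset_left (hO.inter ht)

end Qm

theorem qStmt : QStmt := by
  intro M ι U K ψ G pi py hι hG hp htr hinj hsep hK hcov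
  have hU : ∀ i, IsOpen (U i) := fun i => (hG i).isOpen
  let _ : TopologicalSpace M := Qm.gtop U hU ψ
  have hop : ∀ V : Set M, IsOpen V ↔ ∀ i, IsOpen (U i ∩ ψ i ⁻¹' V) := fun _ => Iff.rfl
  have hcont : ∀ i, ContinuousOn (ψ i) (U i) := fun i =>
    (continuousOn_open_iff (hU i)).2 fun t ht => (hop t).1 ht i
  have himg : ∀ i, ∀ O ⊆ U i, IsOpen O → IsOpen (ψ i '' O) := by
    intro i O hOU hO
    refine (hop _).2 fun j => isOpen_iff_mem_nhds.2 ?_
    rintro y' ⟨hy', y, hy, e⟩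
    obtain ⟨τ, h1, h2, h3, -⟩ := htr j i y' hy' y (hOU hy) e.symm
    filter_upwards [(hU j).mem_nhds hy', h3,
      h1.continuousAt.eventually_mem (hO.mem_nhds (h2 ▸ hy))] with z a b c
    exact ⟨a, τ z, c, b⟩
  have hch : ∀ a : M, ∃ e : OpenPartialHomeomorph M E3, py a ∈ e.target ∧ e.target ⊆ U (pi a) ∧
      ⇑e.symm = ψ (pi a) := by
    intro a
    obtain ⟨O, hO, hi⟩ := hinj _ _ (hp a).1
    obtain ⟨O', h1, h2, h3⟩ := mem_nhds_iff.1 (inter_mem hO ((hU _).mem_nhds (hp a).1))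
    have h4 : O' ⊆ U (pi a) := h1.trans inter_subset_right
    obtain ⟨e, e1, e2⟩ := Qm.exists_chart h2 (hi.mono (h1.trans inter_subset_left))
      ((hcont _).mono h4) fun O'' h => himg _ _ (h.trans h4)
    exact ⟨e, e1 ▸ h3, e1 ▸ h4, e2⟩
  choose e he1 he2 he3 using hch
  have hea : ∀ a, (e a).symm (py a) = a := fun a => by rw [he3, (hp a).2]
  have hsrc : ∀ a, a ∈ (e a).source := fun a => by
    have := (e a).map_target (he1 a)
    rwa [hea] at this
  have hval : ∀ a, e a a = py a := fun a => by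
    have := (e a).right_inv (he1 a)
    rwa [hea] at this
  let _ : ChartedSpace E3 M :=
    { atlas := range e, chartAt := e, mem_chart_source := hsrc,
      chart_mem_atlas := fun a => ⟨a, rfl⟩ }
  have hca : ∀ a : M, chartAt E3 a = e a := fun _ => rfl
  have key : ∀ a b : M, ∀ y ∈ (e a).target, (e a).symm y ∈ (e b).source → ∃ τ : E3 → E3,
      ContDiffAt ℝ ∞ τ y ∧ (fun z => e b ((e a).symm z)) =ᶠ[𝓝 y] τ ∧
      ∀ u v, G (pi a) y u v = G (pi b) (e b ((e a).symm y)) (fderiv ℝ τ y u) (fderiv ℝ τ y v) := by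
    intro a b y hy hb
    have hy' := (e b).map_source hb
    obtain ⟨τ, h1, h2, h3, h4⟩ := htr (pi a) (pi b) y (he2 a hy) _ (he2 b hy')
      (by rw [← he3, ← he3, (e b).left_inv hb])
    refine ⟨τ, h1, ?_, h4⟩
    filter_upwards [h3, h1.continuousAt.eventually_mem
      ((e b).open_target.mem_nhds (h2 ▸ hy'))] with z c d
    rw [he3, ← c, ← he3, (e b).right_inv d]
  have hloc : ∀ a : M, ∀ y ∈ (e a).target,
      locB (fun p => G (pi p) (py p)) a y = G (pi a) y := by
    intro a y hy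
    obtain ⟨τ, h1, h2, h3⟩ := key a ((e a).symm y) y hy (hsrc _)
    have hD : Di a y = fderiv ℝ τ y := by
      refine HasMFDerivAt.mfderiv ⟨(e a).continuousAt_symm hy, ?_⟩
      have := ((h1.differentiableAt (by simp)).hasFDerivAt.congr_of_eventuallyEq h2)
      simp only [mfld_simps]
      exact this.hasFDerivWithinAt
    ext1 u
    ext1 v
    rw [h3, hval, locB, ContinuousLinearMap.bilinearComp_apply, hD]
    rfl
  refine ⟨inferInstance, inferInstance, isManifold_of_contDiffOn _ _ _ ?_, ⟨fun p q hpq => ?_⟩,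
    ⟨?_⟩, hcont, himg, ⟨fun x => (hG _).symm _ (hp x).1, fun x => (hG _).pos _ (hp x).1,
      fun a => ((hG _).smooth.mono (he2 a)).congr (hloc a)⟩,
    fun a => ⟨hval a, fun y hy => ⟨he2 a hy, congrFun (he3 a) y, hloc a y hy⟩⟩⟩
  · rintro _ _ ⟨a, rfl⟩ ⟨b, rfl⟩ y hy
    simp only [mfld_simps] at hy ⊢
    obtain ⟨τ, h1, h2, -⟩ := key a b y hy.1 hy.2
    exact (h1.congr_of_eventuallyEq h2).contDiffWithinAt
  · have h := hsep _ _ _ (hp p).1 _ (hp q).1 (by rwa [(hp p).2, (hp q).2])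
    obtain ⟨u, v, hu, hu', hv, hv', huv⟩ := mem_nhds_prod_iff'.1 h
    refine ⟨_, _, himg _ _ inter_subset_right (hu.inter (hU (pi p))),
      himg _ _ inter_subset_right (hv.inter (hU (pi q))), ⟨_, ⟨hu', (hp p).1⟩, (hp p).2⟩,
      ⟨_, ⟨hv', (hp q).1⟩, (hp q).2⟩, disjoint_left.2 ?_⟩
    rintro _ ⟨y, hy, rfl⟩ ⟨y', hy', c⟩
    exact huv (mk_mem_prod hy.1 hy'.1) c.symm
  · have e' : (univ : Set M) = ⋃ i, ψ i '' K i := by
      refine (eq_univ_of_forall fun p => ?_).symm
      obtain ⟨i, y, hy, c⟩ := hcov p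
      exact mem_iUnion.2 ⟨i, y, hy, c⟩
    rw [e']
    exact isCompact_iUnion fun i => (hK i).1.image_of_continuousOn ((hcont i).mono (hK i).2)

end Vale.Agent.P255
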