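import Vale.Agent.P255.Spec

/-! Module R: the monotone quantity in the neck. -/

open scoped Topology ContDiff
open Set Filter

namespace Vale.Agent.P255

namespace Rm

theorem mono : MonoStmt := by
  intro F h a b hab
  have key : ∀ ε > 0, F a - ε * (b - a) ≤ F b := by
    intro ε hε
    set S := {s | s ∈ Icc a b ∧ F a - ε * (s - a) ≤ F s} with hS
    have ha : a ∈ S := ⟨⟨le_rfl, hab⟩, by simp⟩
    have hb : b ∈ upperBounds S := fun s hs => hs.1.2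
    have hc := isLUB_csSup ⟨a, ha⟩ ⟨b, hb⟩
    set c := sSup S
    have h1 : F a - ε * (c - a) ≤ F c := by
      refine le_of_forall_pos_le_add fun δ hδ => ?_
      have h2 : ∀ᶠ s in 𝓝[≤] c, F s ≤ F c + δ := by
        rw [← Iio_insert, nhdsWithin_insert, eventually_sup]
        exact ⟨by simpa using hδ.le, (h c).2 δ hδ⟩
      obtain ⟨s, hs, h3⟩ := ((hc.frequently_mem ⟨a, ha⟩).and_eventually h2).exists
      have := mul_le_mul_of_nonneg_left (hc.1 hs) hε.le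
      linarith [hs.2]
    rcases (hc.2 hb).eq_or_lt with e | e
    · rwa [e] at h1
    · obtain ⟨s, h2, h3⟩ := (((h c).1 ε hε).and (Ioo_mem_nhdsGT e)).exists
      exact absurd (hc.1 ⟨⟨(hc.1 ha).trans h3.1.le, h3.2.le⟩, by linarith⟩) (not_le.2 h3.1)
  refine le_of_forall_pos_le_add fun δ hδ => ?_
  have h1 : 0 < b - a + 1 := by linarith
  have h2 := key (δ / (b - a + 1)) (by positivity)
  have h3 : δ / (b - a + 1) * (b - a) ≤ δ := by
    rw [div_mul_eq_mul_div, div_le_iff₀ h1]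
    nlinarith
  linarith

theorem side {g : ℝ → ℝ} {d c s₀ : ℝ} (h : HasDerivAt g d s₀) (hc : c < d) :
    (∀ᶠ s in 𝓝[>] s₀, g s₀ + c * (s - s₀) < g s) ∧ ∀ᶠ s in 𝓝[<] s₀, g s < g s₀ + c * (s - s₀) := by
  have h1 := (hasDerivAt_iff_tendsto_slope.1 h).eventually (lt_mem_nhds hc)
  rw [← nhdsLT_sup_nhdsGT, eventually_sup] at h1
  constructor
  · filter_upwards [h1.2, self_mem_nhdsWithin] with s h2 h3
    rw [slope_def_field, lt_div_iff₀ (sub_pos.2 h3)] at h2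
    linarith
  · filter_upwards [h1.1, self_mem_nhdsWithin] with s h2 h3
    rw [slope_def_field, lt_div_iff_of_neg (sub_neg.2 h3)] at h2
    linarith

/-- a branch -/
def Br (g : ℝ → ℝ) (s₀ : ℝ) (van : Prop) : Prop :=
  ∃ d, HasDerivAt g d s₀ ∧ 0 ≤ d ∧ (van → g s₀ = 0 ∧ 0 < d)

/-- the conclusion -/
def Con (F : ℝ → ℝ) (s₀ : ℝ) (van : Prop) : Prop :=
  LocMono F s₀ ∧ (van → ∀ᶠ s in 𝓝[>] s₀, 0 < F s)

theorem fin {F g₁ g₂ : ℝ → ℝ} {s₀ : ℝ} {van : Prop} (h1 : Br g₁ s₀ van) (h2 : Br g₂ s₀ van)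
    (hr : ∀ᶠ s in 𝓝[>] s₀, (F s = g₁ s ∧ F s₀ ≤ g₁ s₀) ∨ (F s = g₂ s ∧ F s₀ ≤ g₂ s₀))
    (hl : ∀ᶠ s in 𝓝[<] s₀, (F s = g₁ s ∧ g₁ s₀ ≤ F s₀) ∨ (F s = g₂ s ∧ g₂ s₀ ≤ F s₀)) :
    Con F s₀ van := by
  obtain ⟨d₁, a1, b1, c1⟩ := h1
  obtain ⟨d₂, a2, b2, c2⟩ := h2
  refine ⟨⟨fun ε hε => ?_, fun ε hε => ?_⟩, fun hv => ?_⟩
  · filter_upwards [hr, (side a1 (show -ε < d₁ by linarith)).1,
      (side a2 (show -ε < d₂ by linarith)).1] with s h k1 k2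
    rcases h with h | h <;> linarith [h.1, h.2]
  · filter_upwards [hl, nhdsWithin_le_nhds (a1.continuousAt.eventually (gt_mem_nhds
      (lt_add_of_pos_right _ hε))), nhdsWithin_le_nhds (a2.continuousAt.eventually (gt_mem_nhds
      (lt_add_of_pos_right _ hε)))] with s h k1 k2
    have k1' : g₁ s < g₁ s₀ + ε := k1
    have k2' : g₂ s < g₂ s₀ + ε := k2
    rcases h with h | h <;> linarith [h.1, h.2]
  · filter_upwards [hr, (side a1 (c1 hv).2).1, (side a2 (c2 hv).2).1] with s h k1 k2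
    rcases h with h | h <;> linarith [h.1, (c1 hv).1, (c2 hv).1]

theorem two {F g₁ g₂ : ℝ → ℝ} {s₀ : ℝ} {van : Prop} (h1 : Br g₁ s₀ van) (h2 : Br g₂ s₀ van)
    (e1 : g₁ s₀ = F s₀) (e2 : g₂ s₀ = F s₀) (h : ∀ᶠ s in 𝓝 s₀, F s = g₁ s ∨ F s = g₂ s) :
    Con F s₀ van :=
  fin h1 h2 (nhdsWithin_le_nhds (h.mono fun _ k => k.imp (⟨·, e1.ge⟩) (⟨·, e2.ge⟩)))
    (nhdsWithin_le_nhds (h.mono fun _ k => k.imp (⟨·, e1.le⟩) (⟨·, e2.le⟩)))

theorem one {F g : ℝ → ℝ} {s₀ : ℝ} {van : Prop} (h1 : Br g s₀ van) (h : ∀ᶠ s in 𝓝 s₀, F s = g s) :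
    Con F s₀ van :=
  two h1 h1 h.self_of_nhds.symm h.self_of_nhds.symm (h.mono fun _ k => Or.inl k)

/-- a jump at the level `t s₀`, crossed in the direction of `τ` -/
theorem jump {F g₁ g₂ t : ℝ → ℝ} {s₀ τ c : ℝ} {van : Prop} (h1 : Br g₁ s₀ van) (h2 : Br g₂ s₀ van)
    (ht : HasDerivAt t τ s₀) (hc : 0 ≤ c) (e1 : g₁ s₀ = F s₀ - c * τ) (e2 : g₂ s₀ = F s₀)
    (h : ∀ᶠ s in 𝓝 s₀, (t s < t s₀ ∧ F s = g₁ s) ∨ F s = g₂ s) : Con F s₀ van := by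
  refine fin h1 h2 ?_ ?_
  · rcases le_or_gt τ 0 with k | k
    · exact nhdsWithin_le_nhds (h.mono fun _ j => j.imp (⟨·.2, by nlinarith⟩) (⟨·, e2.ge⟩))
    · filter_upwards [nhdsWithin_le_nhds h, (side ht k).1] with s j l
      exact Or.inr ⟨j.resolve_left fun j => by linarith [j.1], e2.ge⟩
  · rcases le_or_gt 0 τ with k | k
    · exact nhdsWithin_le_nhds (h.mono fun _ j => j.imp (⟨·.2, by nlinarith⟩) (⟨·, e2.le⟩))
    · filter_upwards [nhdsWithin_le_nhds h, (side ht.neg (neg_pos.2 k)).2] with s j l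
      simp only [Pi.neg_apply] at l
      exact Or.inr ⟨j.resolve_left fun j => by linarith [j.1], e2.le⟩

theorem branch {t τ a x y T ν X V1 : ℝ → ℝ} {s₀ V2 X' Y' P Q U W N ν' : ℝ} {S : Set ℝ}
    (ht : HasDerivAt t (τ s₀) s₀) (hτ : HasDerivAt τ (-V1 (t s₀) / 2) s₀)
    (ha : HasDerivAt a (T s₀) s₀) (hx : HasDerivAt x (X' * a s₀ + (U * P + W * Q)) s₀)
    (hy : HasDerivAt y (Y' * a s₀ + (W * P + N * Q)) s₀)
    (hT : HasDerivAt T (-(V2 / 2 * a s₀ + X' * P + Y' * Q)) s₀) (hX : HasDerivAt X X' (t s₀))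
    (hV : HasDerivAt V1 V2 (t s₀))
    (hQ : ∀ u v : ℝ, u ≠ 0 ∨ v ≠ 0 → 0 < U * u ^ 2 + 2 * W * u * v + N * v ^ 2)
    (hS : UniqueDiffWithinAt ℝ S (t s₀)) (hm : t s₀ ∈ S) (e : ∀ r ∈ S, ν r * X r ^ 2 = V1 r / 2)
    (hν : HasDerivAt ν ν' (t s₀)) (e3 : ν' + U * ν (t s₀) ^ 2 ≤ 0) :
    Br (fun s => a s * T s + x s * P + y s * Q
      - ν (t s) * (τ s * x s ^ 2 - 2 * X (t s) * a s * x s)) s₀
      (a s₀ = 0 ∧ x s₀ = 0 ∧ y s₀ = 0 ∧ (T s₀ ≠ 0 ∨ P ≠ 0 ∨ Q ≠ 0)) := by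
  have e1 := e _ hm
  have e2 := hS.eq_deriv _ ((hν.mul (hX.pow 2)).hasDerivWithinAt)
    (((hV.div_const 2).hasDerivWithinAt).congr e e1)
  have hQ' : ∀ u v : ℝ, 0 ≤ U * u ^ 2 + 2 * W * u * v + N * v ^ 2 := fun u v => by
    by_cases c : u ≠ 0 ∨ v ≠ 0
    · exact (hQ u v c).le
    · push Not at c
      simp [c.1, c.2]
  have hd := (((ha.mul hT).add (hx.mul_const P)).add (hy.mul_const Q)).sub
    ((hν.comp s₀ ht).mul ((hτ.mul (hx.pow 2)).sub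
      ((((hX.comp s₀ ht).const_mul 2).mul ha).mul hx)))
  refine ⟨(T s₀ + ν (t s₀) * X (t s₀) * x s₀) ^ 2
    + (U * (P - ν (t s₀) * (τ s₀ * x s₀ - X (t s₀) * a s₀)) ^ 2
      + 2 * W * (P - ν (t s₀) * (τ s₀ * x s₀ - X (t s₀) * a s₀)) * Q + N * Q ^ 2)
    - (ν' + U * ν (t s₀) ^ 2) * (X (t s₀) * a s₀ - τ s₀ * x s₀) ^ 2, hd.congr_deriv ?_, ?_, ?_⟩
  · simp only [Pi.pow_apply, Pi.mul_apply, Pi.sub_apply, Function.comp_apply] at e2 ⊢
    push_cast at e2 ⊢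
    linear_combination (a s₀) ^ 2 * e2 - ν (t s₀) * x s₀ ^ 2 * e1
  · have := hQ' (P - ν (t s₀) * (τ s₀ * x s₀ - X (t s₀) * a s₀)) Q
    have := mul_nonpos_of_nonpos_of_nonneg e3 (sq_nonneg (X (t s₀) * a s₀ - τ s₀ * x s₀))
    nlinarith [sq_nonneg (T s₀ + ν (t s₀) * X (t s₀) * x s₀)]
  · rintro ⟨h1, h2, h3, h4⟩
    simp only [h1, h2, h3, mul_zero, zero_mul, sub_zero, add_zero, sub_self, ne_eq,
      OfNat.ofNat_ne_zero, not_false_eq_true, zero_pow, true_and]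
    rcases h4 with h | h
    · linarith [hQ' P Q, sq_pos_of_ne_zero h]
    · linarith [hQ P Q h, sq_nonneg (T s₀)]

theorem dd {f : ℝ → ℝ} (h : ContDiff ℝ ∞ f) (r : ℝ) :
    HasDerivAt f (deriv f r) r ∧ HasDerivAt (deriv f) (deriv (deriv f) r) r :=
  ⟨((contDiff_infty_iff_deriv.1 h).1 r).hasDerivAt,
    ((contDiff_infty_iff_deriv.1 (contDiff_infty_iff_deriv.1 h).2).1 r).hasDerivAt⟩

theorem quo {V1 X : ℝ → ℝ} {r V2 X' U : ℝ} (hV : HasDerivAt V1 V2 r) (hX : HasDerivAt X X' r)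
    (h0 : X r ≠ 0) (h : 2 * V2 * X r ^ 2 - 4 * V1 r * X r * X' + U * V1 r ^ 2 ≤ 0) :
    ∃ ν', HasDerivAt (fun z => V1 z / (2 * X z ^ 2)) ν' r ∧
      ν' + U * (V1 r / (2 * X r ^ 2)) ^ 2 ≤ 0 := by
  refine ⟨_, hV.div ((hX.pow 2).const_mul 2) (by simpa using h0), ?_⟩
  refine le_of_eq_of_le (b := (2 * V2 * X r ^ 2 - 4 * V1 r * X r * X' + U * V1 r ^ 2) / (4 * X r ^ 4))
    ?_ (div_nonpos_of_nonpos_of_nonneg h (by positivity))
  push_cast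
  field_simp
  ring

theorem quo1 {k : ℝ → ℝ} (hk : ContDiff ℝ ∞ k) (r : ℝ) (h0 : 0 < k r)
    (h : 2 * k r * deriv (deriv k) r ≤ 3 * deriv k r ^ 2) :
    ∃ ν', HasDerivAt (fun z => deriv k z / (2 * k z ^ 2)) ν' r ∧
      ν' + k r * (deriv k r / (2 * k r ^ 2)) ^ 2 ≤ 0 :=
  quo (dd hk r).2 (dd hk r).1 h0.ne' (by nlinarith [mul_le_mul_of_nonneg_left h h0.le])

section prof

variable {k n σ : ℝ → ℝ} {t₁ t₄ : ℝ} (h : Prof k n σ t₁ t₄) (p q : ℝ)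
include h

theorem sV : ContDiff ℝ ∞ (V k n σ p q) := by
  have := h.sk; have := h.sn; have := h.sσ
  unfold V
  fun_prop

theorem sX : ContDiff ℝ ∞ (xp k n σ p q) := by
  have := h.sk; have := h.sn; have := h.sσ
  unfold xp
  fun_prop

theorem sY : ContDiff ℝ ∞ (yp n σ p q) := by
  have := h.sn; have := h.sσ
  unfold yp
  fun_prop

theorem dV (r : ℝ) : deriv (V k n σ p q) r = deriv k r * p ^ 2 +
    (deriv n r * (q + σ r * p) ^ 2 + n r * (2 * (q + σ r * p) * (deriv σ r * p))) := by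
  have := (((dd h.sk r).1.mul_const (p ^ 2)).add ((dd h.sn r).1.mul
    ((((dd h.sσ r).1.mul_const p).const_add q).pow 2))).deriv
  simp only [Pi.pow_apply, Nat.cast_ofNat, Nat.add_one_sub_one, pow_one] at this
  exact this

theorem lo : ∃ t₂ > t₁, ∀ r < t₂, σ r = 0 ∧ deriv σ r = 0 := by
  obtain ⟨t₂, h1, h2⟩ := h.σ0
  refine ⟨t₂, h1, fun r hr => ⟨h2 r hr, ?_⟩⟩
  rw [EventuallyEq.deriv_eq (f := fun _ => 0) (mem_of_superset (Iio_mem_nhds hr) h2), deriv_const]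

theorem hi : ∃ t₃ < t₄, ∀ r, t₃ < r → σ r = 1 ∧ deriv σ r = 0 := by
  obtain ⟨t₃, h1, h2⟩ := h.σ1
  refine ⟨t₃, h1, fun r hr => ⟨h2 r hr, ?_⟩⟩
  rw [EventuallyEq.deriv_eq (f := fun _ => 1) (mem_of_superset (Ioi_mem_nhds hr) h2), deriv_const]

theorem kd (r : ℝ) : 0 ≤ deriv k r := (lt_or_ge r t₄).elim (fun c => (h.k1 r c).le)
  fun c => (h.k0 r c).ge

theorem nd (r : ℝ) : deriv n r ≤ 0 := (lt_or_ge t₁ r).elim (fun c => (h.n1 r c).le)
  fun c => (h.n0 r c).le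

theorem left {r : ℝ} (hr : r ≤ t₁) : σ r = 0 ∧ deriv (V k n σ p q) r = deriv k r * p ^ 2 ∧
    xp k n σ p q r = k r * p := by
  obtain ⟨t₂, h1, h2⟩ := lo h
  obtain ⟨h3, h4⟩ := h2 r (hr.trans_lt h1)
  simp [dV h, xp, h3, h4, h.n0 r hr]

theorem right {r : ℝ} (hr : t₄ ≤ r) : deriv (V k n σ p q) r = deriv n r * (q + p) ^ 2 ∧
    yp n σ p q r = n r * (q + p) := by
  obtain ⟨t₃, h1, h2⟩ := hi h
  obtain ⟨h3, h4⟩ := h2 r (h1.trans_le hr)
  simp [dV h, yp, h3, h4, h.k0 r hr]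

omit h in
theorem nuR_zero {r : ℝ} (hr : r ≤ t₄) (h0 : 0 ≤ deriv (V k n σ p q) r) :
    nuR k n σ t₄ p q r = 0 := by
  rw [nuR, if_neg (not_lt.2 hr), min_eq_right h0, zero_div]

omit h in
theorem nuL_zero {r : ℝ} (hr : t₁ ≤ r) (h0 : deriv (V k n σ p q) r ≤ 0) :
    nuL k n σ t₁ p q r = 0 := by
  rw [nuL, if_neg (not_lt.2 hr), max_eq_right h0, zero_div]

theorem nu_left {r : ℝ} (hr : r < t₁) :
    nuL k n σ t₁ p q r = deriv k r / (2 * k r ^ 2) ∧ nuR k n σ t₄ p q r = 0 :=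
  ⟨if_pos hr, nuR_zero p q (hr.trans h.lt).le (by
    rw [(left h p q hr.le).2.1]; exact mul_nonneg (kd h r) (sq_nonneg _))⟩

theorem nu_right {r : ℝ} (hr : t₄ < r) :
    nuR k n σ t₄ p q r = deriv n r / (2 * n r ^ 2) ∧ nuL k n σ t₁ p q r = 0 :=
  ⟨if_pos hr, nuL_zero p q (h.lt.trans hr).le (by
    rw [(right h p q hr.le).1]; exact mul_nonpos_of_nonpos_of_nonneg (nd h r) (sq_nonneg _))⟩

theorem nu_pos {r : ℝ} (h0 : 0 < deriv (V k n σ p q) r) :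
    nuL k n σ t₁ p q r = deriv (V k n σ p q) r / (2 * xp k n σ p q r ^ 2) ∧
      nuR k n σ t₄ p q r = 0 := by
  refine ⟨?_, nuR_zero p q (not_lt.1 fun c => ?_) h0.le⟩
  · unfold nuL
    split_ifs with c
    · obtain ⟨-, h1, h2⟩ := left h p q c.le
      have : p ≠ 0 := fun e => by rw [h1, e] at h0; simp at h0
      have := (h.pk r).ne'
      rw [h1, h2]
      field_simp
    · rw [max_eq_left h0.le]
  · rw [(right h p q c.le).1] at h0
    linarith [mul_nonpos_of_nonpos_of_nonneg (nd h r) (sq_nonneg (q + p))]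

theorem nu_neg {r : ℝ} (h0 : deriv (V k n σ p q) r < 0) :
    nuR k n σ t₄ p q r = deriv (V k n σ p q) r / (2 * yp n σ p q r ^ 2) ∧
      nuL k n σ t₁ p q r = 0 := by
  refine ⟨?_, nuL_zero p q (not_lt.1 fun c => ?_) h0.le⟩
  · unfold nuR
    split_ifs with c
    · obtain ⟨h1, h2⟩ := right h p q c.le
      have : q + p ≠ 0 := fun e => by rw [h1, e] at h0; simp at h0
      have := (h.pn r).ne'
      rw [h1, h2]
      field_simp
    · rw [min_eq_left h0.le]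
  · rw [(left h p q c.le).2.1] at h0
    linarith [mul_nonneg (kd h r) (sq_nonneg p)]

end prof

theorem cert : CertStmt := by
  intro k n σ t₁ t₄ h p q δp δq s₀ t τ δt δx δy δτ ht hτ ha hx hy hT
  suffices H : Con (fun s => fN k n σ t₁ t₄ p q (t s) (τ s) (δt s) (δx s) (δy s) (δτ s) δp δq) s₀
      (δt s₀ = 0 ∧ δx s₀ = 0 ∧ δy s₀ = 0 ∧ (δτ s₀ ≠ 0 ∨ δp ≠ 0 ∨ δq ≠ 0)) from
    ⟨H.1, fun h1 h2 h3 h4 => H.2 ⟨h1, h2, h3, h4⟩⟩
  have hV := (dd (sV h p q) (t s₀)).2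
  have hX := (dd (sX h p q) (t s₀)).1
  have hY := (dd (sY h p q) (t s₀)).1
  have pk := h.pk (t s₀)
  have pn := h.pn (t s₀)
  have hQ : ∀ u v : ℝ, u ≠ 0 ∨ v ≠ 0 → 0 < (k (t s₀) + n (t s₀) * σ (t s₀) ^ 2) * u ^ 2
      + 2 * (n (t s₀) * σ (t s₀)) * u * v + n (t s₀) * v ^ 2 := by
    intro u v c
    have e : (k (t s₀) + n (t s₀) * σ (t s₀) ^ 2) * u ^ 2 + 2 * (n (t s₀) * σ (t s₀)) * u * v
      + n (t s₀) * v ^ 2 = k (t s₀) * u ^ 2 + n (t s₀) * (v + σ (t s₀) * u) ^ 2 := by ring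
    rw [e]
    by_cases c' : u = 0
    · have := c.resolve_left (not_not.2 c')
      simp only [c', mul_zero, add_zero]
      positivity
    · positivity
  have hx' : HasDerivAt δx (deriv (xp k n σ p q) (t s₀) * δt s₀ +
      ((k (t s₀) + n (t s₀) * σ (t s₀) ^ 2) * δp + n (t s₀) * σ (t s₀) * δq)) s₀ :=
    hx.congr_deriv (by rw [xp]; ring)
  have hy' : HasDerivAt δy (deriv (yp n σ p q) (t s₀) * δt s₀ +
      (n (t s₀) * σ (t s₀) * δp + n (t s₀) * δq)) s₀ := hy.congr_deriv (by rw [yp]; ring)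
  obtain ⟨gL, eL⟩ : ∃ gL : (ℝ → ℝ) → ℝ → ℝ, ∀ ν s, gL ν s = δt s * δτ s + δx s * δp + δy s * δq
    - ν (t s) * (τ s * δx s ^ 2 - 2 * xp k n σ p q (t s) * δt s * δx s) := ⟨_, fun _ _ => rfl⟩
  obtain ⟨gR, eR⟩ : ∃ gR : (ℝ → ℝ) → ℝ → ℝ, ∀ ν s, gR ν s = δt s * δτ s + δy s * δq + δx s * δp
    - ν (t s) * (τ s * δy s ^ 2 - 2 * yp n σ p q (t s) * δt s * δy s) := ⟨_, fun _ _ => rfl⟩
  set van := δt s₀ = 0 ∧ δx s₀ = 0 ∧ δy s₀ = 0 ∧ (δτ s₀ ≠ 0 ∨ δp ≠ 0 ∨ δq ≠ 0)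
  set F := fun s => fN k n σ t₁ t₄ p q (t s) (τ s) (δt s) (δx s) (δy s) (δτ s) δp δq with hF
  have BL : ∀ (ν : ℝ → ℝ) (S : Set ℝ), UniqueDiffWithinAt ℝ S (t s₀) → t s₀ ∈ S →
      (∀ r ∈ S, ν r * xp k n σ p q r ^ 2 = deriv (V k n σ p q) r / 2) →
      (∃ ν', HasDerivAt ν ν' (t s₀) ∧
        ν' + (k (t s₀) + n (t s₀) * σ (t s₀) ^ 2) * ν (t s₀) ^ 2 ≤ 0) → Br (gL ν) s₀ van := by
    rintro ν S h1 h2 h3 ⟨ν', h4, h5⟩
    rw [show gL ν = _ from funext (eL ν)]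
    exact branch ht hτ ha hx' hy' hT hX hV hQ h1 h2 h3 h4 h5
  have BR : ∀ (ν : ℝ → ℝ) (S : Set ℝ), UniqueDiffWithinAt ℝ S (t s₀) → t s₀ ∈ S →
      (∀ r ∈ S, ν r * yp n σ p q r ^ 2 = deriv (V k n σ p q) r / 2) →
      (∃ ν', HasDerivAt ν ν' (t s₀) ∧ ν' + n (t s₀) * ν (t s₀) ^ 2 ≤ 0) → Br (gR ν) s₀ van := by
    rintro ν S h1 h2 h3 ⟨ν', h4, h5⟩
    rw [show gR ν = _ from funext (eR ν)]
    obtain ⟨d, a1, a2, a3⟩ := branch (W := n (t s₀) * σ (t s₀))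
      (N := k (t s₀) + n (t s₀) * σ (t s₀) ^ 2) ht hτ ha (hy'.congr_deriv (by rw [add_comm (_ * δp)]))
      (hx'.congr_deriv (by rw [add_comm (_ * δp)])) (hT.congr_deriv (by rw [add_right_comm])) hY hV
      (fun u v c => by linarith [hQ v u c.symm]) h1 h2 h3 h4 h5
    exact ⟨d, a1, a2, fun c => a3 ⟨c.1, c.2.2.1, c.2.1, c.2.2.2.imp_right Or.symm⟩⟩
  have FL : ∀ (ν : ℝ → ℝ) s, nuL k n σ t₁ p q (t s) = ν (t s) ∧ nuR k n σ t₄ p q (t s) = 0 →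
      F s = gL ν s := fun ν s c => by simp only [hF, fN, eL, c.1, c.2]; ring
  have FR : ∀ (ν : ℝ → ℝ) s, nuR k n σ t₄ p q (t s) = ν (t s) ∧ nuL k n σ t₁ p q (t s) = 0 →
      F s = gR ν s := fun ν s c => by simp only [hF, fN, eR, c.1, c.2]; ring
  have ev : ∀ {P : ℝ → Prop}, (∀ᶠ r in 𝓝 (t s₀), P r) → ∀ᶠ s in 𝓝 s₀, P (t s) :=
    fun c => ht.continuousAt.eventually c
  have B1 : t s₀ ≤ t₁ → Br (gL fun z => deriv k z / (2 * k z ^ 2)) s₀ van := fun c =>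
    BL _ (Iic t₁) (uniqueDiffOn_Iic t₁ _ c) c (fun r hr => by
      have := (h.pk r).ne'
      rw [(left h p q hr).2.1, (left h p q hr).2.2]
      field_simp) (by simpa [(left h p q c).1] using quo1 h.sk _ pk (h.k2 _))
  have B4 : t₄ ≤ t s₀ → Br (gR fun z => deriv n z / (2 * n z ^ 2)) s₀ van := fun c =>
    BR _ (Ici t₄) (uniqueDiffOn_Ici t₄ _ c) c (fun r hr => by
      have := (h.pn r).ne'
      rw [(right h p q hr).1, (right h p q hr).2]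
      field_simp) (quo1 h.sn _ pn (h.n2 _))
  have B2 : xp k n σ p q (t s₀) ≠ 0 → _ →
      Br (gL fun z => deriv (V k n σ p q) z / (2 * xp k n σ p q z ^ 2)) s₀ van := fun c c' =>
    BL _ {r | xp k n σ p q r ≠ 0} (uniqueDiffWithinAt_of_mem_nhds (hX.continuousAt.eventually_ne c))
      c (fun r hr => by have : xp k n σ p q r ≠ 0 := hr; field_simp) (quo hV hX c c')
  have B3 : yp n σ p q (t s₀) ≠ 0 → _ →
      Br (gR fun z => deriv (V k n σ p q) z / (2 * yp n σ p q z ^ 2)) s₀ van := fun c c' =>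
    BR _ {r | yp n σ p q r ≠ 0} (uniqueDiffWithinAt_of_mem_nhds (hY.continuousAt.eventually_ne c))
      c (fun r hr => by have : yp n σ p q r ≠ 0 := hr; field_simp) (quo hV hY c c')
  have Z : p = 0 → q = 0 → (∀ r, deriv (V k n σ p q) r = 0) ∧ Br (gL fun _ => 0) s₀ van ∧
      Br (gR fun _ => 0) s₀ van := by
    intro hp hq
    have e : ∀ r, deriv (V k n σ p q) r = 0 := fun r => by simp [dV h, hp, hq]
    exact ⟨e, BL _ univ uniqueDiffWithinAt_univ trivial (fun r _ => by simp [e])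
      ⟨0, hasDerivAt_const _ _, by simp⟩, BR _ univ uniqueDiffWithinAt_univ trivial
      (fun r _ => by simp [e]) ⟨0, hasDerivAt_const _ _, by simp⟩⟩
  rcases lt_or_ge (t s₀) t₁ with c1 | c1
  · exact one (B1 c1.le) ((ev (gt_mem_nhds c1)).mono fun s c => FL _ s (nu_left h p q c))
  rcases lt_or_ge t₄ (t s₀) with c4 | c4
  · exact one (B4 c4.le) ((ev (lt_mem_nhds c4)).mono fun s c => FR _ s (nu_right h p q c))
  rcases lt_trichotomy 0 (deriv (V k n σ p q) (t s₀)) with c | c | c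
  · obtain ⟨a1, a2⟩ := h.c1 _ ⟨c1, c4⟩ p q c
    exact one (B2 a1 a2) ((ev (hV.continuousAt.eventually (lt_mem_nhds c))).mono fun s c =>
      FL _ s (nu_pos h p q c))
  swap
  · obtain ⟨a1, a2⟩ := h.c2 _ ⟨c1, c4⟩ p q c
    exact one (B3 a1 a2) ((ev (hV.continuousAt.eventually (gt_mem_nhds c))).mono fun s c =>
      FR _ s (nu_neg h p q c))
  have F0 : F s₀ = δt s₀ * δτ s₀ + δx s₀ * δp + δy s₀ * δq := by
    simp only [hF, fN, nuL_zero p q c1 c.ge, nuR_zero p q c4 c.le]; ring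
  rcases c1.eq_or_lt with e1 | c1'
  · have hp : p = 0 := by
      rw [(left h p q e1.ge).2.1] at c
      exact pow_eq_zero_iff two_ne_zero |>.1
        ((mul_eq_zero.1 c.symm).resolve_left (h.k1 _ (e1 ▸ h.lt)).ne')
    have a0 : ∀ r, deriv (V k n σ p q) r = deriv n r * q ^ 2 := fun r => by simp [dV h, hp]
    have a1 : ∀ r, deriv (V k n σ p q) r ≤ 0 := fun r => by
      rw [a0]; exact mul_nonpos_of_nonpos_of_nonneg (nd h r) (sq_nonneg _)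
    obtain ⟨ν, b1, b2, b3⟩ : ∃ ν : ℝ → ℝ, Br (gR ν) s₀ van ∧ ν (t s₀) = 0 ∧
        ∀ r ≤ t₄, nuR k n σ t₄ p q r = ν r := by
      by_cases hq : q = 0
      · exact ⟨_, (Z hp hq).2.2, rfl, fun r hr => nuR_zero p q hr ((Z hp hq).1 r).ge⟩
      · refine ⟨fun z => deriv (V k n σ p q) z / (2 * yp n σ p q z ^ 2), B3 ?_ ?_, by simp [← c],
          fun r hr => by rw [nuR, if_neg (not_lt.2 hr), min_eq_left (a1 r)]⟩
        · simp [yp, hp, hq, pn.ne']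
        · have := h.n2 (t s₀)
          rw [h.n0 _ e1.ge] at this
          have a2 : deriv (deriv (V k n σ p q)) (t s₀) = deriv (deriv n) (t s₀) * q ^ 2 := by
            rw [show deriv (V k n σ p q) = _ from funext a0]
            exact ((dd h.sn _).2.mul_const _).deriv
          have a3 : deriv (deriv n) (t s₀) ≤ 0 := by nlinarith
          rw [← c, a2]
          nlinarith [mul_nonpos_of_nonpos_of_nonneg a3
            (mul_nonneg (sq_nonneg q) (sq_nonneg (yp n σ p q (t s₀))))]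
    refine jump (c := deriv k (t s₀) / (2 * k (t s₀) ^ 2) * δx s₀ ^ 2) (B1 e1.ge) b1 ht
      (mul_nonneg (div_nonneg (kd h _) (by positivity)) (sq_nonneg _)) ?_ ?_ ?_
    · rw [eL, F0, (left h p q e1.ge).2.2, hp]; ring
    · rw [eR, F0, b2]; ring
    · filter_upwards [ev (gt_mem_nhds (e1 ▸ h.lt : t s₀ < t₄))] with s hs
      rcases lt_or_ge (t s) t₁ with d | d
      · exact Or.inl ⟨e1 ▸ d, FL _ s (nu_left h p q d)⟩
      · exact Or.inr (FR _ s ⟨b3 _ hs.le, nuL_zero p q d (a1 _)⟩)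
  rcases c4.eq_or_lt with e4 | c4'
  · have hp : q + p = 0 := by
      rw [(right h p q e4.ge).1] at c
      exact pow_eq_zero_iff two_ne_zero |>.1 ((mul_eq_zero.1 c.symm).resolve_left (h.n1 _ c1').ne)
    obtain ⟨t₃, d1, d2⟩ := hi h
    have d3 : t₃ < t s₀ := e4 ▸ d1
    have a0 : ∀ r, t₃ < r → deriv (V k n σ p q) r = deriv k r * p ^ 2 := fun r hr => by
      simp [dV h, d2 r hr, hp]
    have a1 : ∀ r, t₃ < r → 0 ≤ deriv (V k n σ p q) r := fun r hr => by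
      rw [a0 r hr]; exact mul_nonneg (kd h r) (sq_nonneg _)
    obtain ⟨ν, b1, b2, b3⟩ : ∃ ν : ℝ → ℝ, Br (gL ν) s₀ van ∧ ν (t s₀) = 0 ∧
        ∀ r, t₁ ≤ r → t₃ < r → nuL k n σ t₁ p q r = ν r := by
      by_cases hq : p = 0
      · have hq' : q = 0 := by linarith
        exact ⟨_, (Z hq hq').2.1, rfl, fun r hr _ => nuL_zero p q hr ((Z hq hq').1 r).le⟩
      · refine ⟨fun z => deriv (V k n σ p q) z / (2 * xp k n σ p q z ^ 2), B2 ?_ ?_, by simp [← c],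
          fun r hr hr' => by rw [nuL, if_neg (not_lt.2 hr), max_eq_left (a1 r hr')]⟩
        · simp [xp, hp, hq, pk.ne', d2 _ d3]
        · have := h.k2 (t s₀)
          rw [h.k0 _ e4.ge] at this
          have a2 : deriv (deriv (V k n σ p q)) (t s₀) = deriv (deriv k) (t s₀) * p ^ 2 := by
            rw [EventuallyEq.deriv_eq (f := fun r => deriv k r * p ^ 2)
              (mem_of_superset (Ioi_mem_nhds d3) a0)]
            exact ((dd h.sk _).2.mul_const _).deriv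
          have a3 : deriv (deriv k) (t s₀) ≤ 0 := by nlinarith
          rw [← c, a2]
          nlinarith [mul_nonpos_of_nonpos_of_nonneg a3
            (mul_nonneg (sq_nonneg p) (sq_nonneg (xp k n σ p q (t s₀))))]
    refine jump (c := -(deriv n (t s₀) / (2 * n (t s₀) ^ 2)) * δy s₀ ^ 2) (B4 e4.ge) b1 ht.neg
      (mul_nonneg (neg_nonneg.2 (div_nonpos_of_nonpos_of_nonneg (nd h _) (by positivity)))
        (sq_nonneg _)) ?_ ?_ ?_
    · rw [eR, F0, (right h p q e4.ge).2, hp]; ring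
    · rw [eL, F0, b2]; ring
    · filter_upwards [ev (lt_mem_nhds c1'), ev (lt_mem_nhds d3)] with s hs hs'
      rcases lt_or_ge t₄ (t s) with d | d
      · exact Or.inl ⟨neg_lt_neg (e4 ▸ d), FR _ s (nu_right h p q d)⟩
      · exact Or.inr (FL _ s ⟨b3 _ hs.le hs', nuR_zero p q d (a1 _ hs')⟩)
  have mid := (ev (lt_mem_nhds c1')).and (ev (gt_mem_nhds c4'))
  by_cases z : p ≠ 0 ∨ q ≠ 0
  · obtain ⟨a1, a2, a3⟩ := h.c3 _ ⟨c1', c4'⟩ p q c.symm z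
    refine two (B2 a1 ?_) (B3 a2 ?_) ?_ ?_ (mid.mono fun s hs => ?_)
    · rw [← c]
      nlinarith [mul_nonpos_of_nonpos_of_nonneg a3 (sq_nonneg (xp k n σ p q (t s₀)))]
    · rw [← c]
      nlinarith [mul_nonpos_of_nonpos_of_nonneg a3 (sq_nonneg (yp n σ p q (t s₀)))]
    · rw [eL, F0, ← c]; ring
    · rw [eR, F0, ← c]; ring
    · rcases le_total 0 (deriv (V k n σ p q) (t s)) with d | d
      · exact Or.inl (FL _ s ⟨by rw [nuL, if_neg (not_lt.2 hs.1.le), max_eq_left d],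
          nuR_zero p q hs.2.le d⟩)
      · exact Or.inr (FR _ s ⟨by rw [nuR, if_neg (not_lt.2 hs.2.le), min_eq_left d],
          nuL_zero p q hs.1.le d⟩)
  · push Not at z
    obtain ⟨a1, a2, -⟩ := Z z.1 z.2
    exact one a2 (mid.mono fun s hs => FL _ s ⟨nuL_zero p q hs.1.le (a1 _).le,
      nuR_zero p q hs.2.le (a1 _).ge⟩)

end Rm

theorem rStmt : RStmt := ⟨Rm.mono, Rm.cert⟩

end Vale.Agent.P255
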