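import Vale.Agent.P255.Defs

/-! Module statements for P255 (closed 3-manifold with a metric without conjugate points and no
metric of nonpositive curvature).  Every `...Stmt` below is one module. -/

open scoped Manifold ContDiff Topology
open Set Filter

namespace Vale.Agent.P255

abbrev Bil : Type := E3 →L[ℝ] E3 →L[ℝ] ℝ

/-- unbundling of a coordinate metric -/
noncomputable def ub (G : E3 → Bil) : E3 → E3 → E3 → ℝ := fun y u v => G y u v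

/-- a smooth Riemannian metric on an open set of the model space -/
structure CM (G : E3 → Bil) (Ω : Set E3) : Prop where
  isOpen : IsOpen Ω
  smooth : ContDiffOn ℝ ∞ G Ω
  symm : ∀ y ∈ Ω, ∀ u v, G y u v = G y v u
  pos : ∀ y ∈ Ω, ∀ u, u ≠ 0 → 0 < G y u u

/-- `Γ` is a bundled version of the Christoffel symbols on `Ω` -/
structure IsGam (G : E3 → Bil) (Ω : Set E3) (Γ : E3 → E3 →L[ℝ] E3 →L[ℝ] E3) : Prop where
  smooth : ContDiffOn ℝ ∞ Γ Ω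
  eq : ∀ y ∈ Ω, ∀ u v, chr (ub G) y u v = Γ y u v
  symm : ∀ y ∈ Ω, ∀ u v, Γ y u v = Γ y v u
  low : ∀ y ∈ Ω, ∀ u v w, G y (Γ y u v) w =
    (fderiv ℝ G y u v w + fderiv ℝ G y v u w - fderiv ℝ G y w u v) / 2

/-! ### Module A: calculus in one chart -/

def GamStmt : Prop := ∀ G Ω, CM G Ω → ∃ Γ, IsGam G Ω Γ

/-- isometries map geodesics to geodesics -/
def NatStmt : Prop := ∀ (G₁ G₂ : E3 → Bil) (Ω₁ Ω₂ : Set E3) (τ : E3 → E3), CM G₁ Ω₁ → CM G₂ Ω₂ →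
  ContDiffOn ℝ ∞ τ Ω₁ → MapsTo τ Ω₁ Ω₂ →
  (∀ y ∈ Ω₁, ∀ u v, G₁ y u v = G₂ (τ y) (fderiv ℝ τ y u) (fderiv ℝ τ y v)) →
  ∀ (c : ℝ → E3) (s : ℝ), c s ∈ Ω₁ → (∀ᶠ r in 𝓝 s, DifferentiableAt ℝ c r) →
    GeoAt (ub G₁) c s → GeoAt (ub G₂) (fun r => τ (c r)) s

/-- Jacobi equation = linearized geodesic equation -/
def LinStmt : Prop := ∀ G Ω Γ, CM G Ω → IsGam G Ω Γ → ∀ (c j : ℝ → E3) (s : ℝ),
  (∀ᶠ r in 𝓝 s, c r ∈ Ω ∧ GeoAt (ub G) c r ∧ DifferentiableAt ℝ j r) →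
  (JacAt (ub G) c j s ↔ HasDerivAt (deriv j)
    (-(fderiv ℝ Γ (c s) (j s) (deriv c s) (deriv c s))
      - (2 : ℝ) • Γ (c s) (deriv c s) (deriv j s)) s)

/-- Euler-Lagrange form of the geodesic and Jacobi equations -/
def LagStmt : Prop := ∀ G Ω, CM G Ω → ∀ (c : ℝ → E3) (s : ℝ),
  (c s ∈ Ω → GeoAt (ub G) c s → ∀ w, HasDerivAt (fun r => G (c r) (deriv c r) w)
    (fderiv ℝ G (c s) w (deriv c s) (deriv c s) / 2) s) ∧
  ∀ j : ℝ → E3, (∀ᶠ r in 𝓝 s, c r ∈ Ω ∧ GeoAt (ub G) c r ∧ DifferentiableAt ℝ j r) →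
    JacAt (ub G) c j s → DifferentiableAt ℝ (deriv j) s ∧ ∀ w, HasDerivAt
      (fun r => G (c r) (deriv j r) w + fderiv ℝ G (c r) (j r) (deriv c r) w)
      (fderiv ℝ (fun z => fderiv ℝ G z w (deriv c s) (deriv c s)) (c s) (j s) / 2
        + fderiv ℝ G (c s) w (deriv c s) (deriv j s)) s

/-- metric compatibility -/
def CompatStmt : Prop := ∀ G Ω, CM G Ω → ∀ (c j k : ℝ → E3) (s : ℝ), c s ∈ Ω →
  DifferentiableAt ℝ c s → DifferentiableAt ℝ j s → DifferentiableAt ℝ k s →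
  HasDerivAt (fun r => G (c r) (j r) (k r))
    (G (c s) (covD (ub G) c j s) (k s) + G (c s) (j s) (covD (ub G) c k s)) s

def SkewStmt : Prop := ∀ G Ω, CM G Ω → ∀ y ∈ Ω, ∀ u v w, G y (riem (ub G) y u v w) w = 0

def AStmt : Prop := GamStmt ∧ NatStmt ∧ LinStmt ∧ LagStmt ∧ CompatStmt ∧ SkewStmt

/-! ### Module O: a `C^1` local flow with its linearization -/

def OStmt : Prop := ∀ (V : Type) [NormedAddCommGroup V] [NormedSpace ℝ V] [FiniteDimensional ℝ V]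
  (F : V → V) (Ω : Set V), IsOpen Ω → ContDiffOn ℝ ∞ F Ω → ∀ z₀ ∈ Ω,
  ∃ ε > 0, ∃ W : Set V, IsOpen W ∧ z₀ ∈ W ∧ ∃ (Φ : ℝ → V → V) (Y : ℝ → V → V →L[ℝ] V),
    (∀ s ∈ Ioo (-ε) ε, ContDiffOn ℝ 1 (Φ s) W) ∧
    ∀ z ∈ W, Φ 0 z = z ∧ Y 0 z = ContinuousLinearMap.id ℝ V ∧ ∀ s ∈ Ioo (-ε) ε,
      Φ s z ∈ Ω ∧ HasDerivAt (fun r => Φ r z) (F (Φ s z)) s ∧ HasFDerivAt (Φ s) (Y s z) z ∧
      HasDerivAt (fun r => Y r z) ((fderiv ℝ F (Φ s z)).comp (Y s z)) s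

/-! ### Manifold level notions -/

section
variable {M : Type} [TopologicalSpace M] [ChartedSpace E3 M]

/-- unbundling of a metric on `M` -/
noncomputable def un (g : M → Bil) : (x : M) → TangentSpace 𝓘(ℝ, E3) x → TangentSpace 𝓘(ℝ, E3) x → ℝ :=
  fun x v w => g x v w

/-- differential of the chart at `a`, at the point `p` -/
noncomputable def D (a p : M) : E3 →L[ℝ] E3 := mfderiv 𝓘(ℝ, E3) 𝓘(ℝ, E3) (chartAt E3 a) p

/-- differential of the inverse chart -/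
noncomputable def Di (a : M) (y : E3) : E3 →L[ℝ] E3 :=
  mfderiv 𝓘(ℝ, E3) 𝓘(ℝ, E3) (chartAt E3 a).symm y

noncomputable def locB (g : M → Bil) (a : M) (y : E3) : Bil :=
  (g ((chartAt E3 a).symm y)).bilinearComp (Di a y) (Di a y)

theorem loc_un (g : M → Bil) (a : M) : loc (un g) a = ub (locB g a) := rfl

theorem locVec_eq (a : M) (γ : ℝ → M) (J : ℝ → E3) (s : ℝ) :
    locVec a γ J s = D a (γ s) (J s) := rfl

structure IsMet (g : M → Bil) : Prop where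
  symm : ∀ x u v, g x u v = g x v u
  pos : ∀ x u, u ≠ 0 → 0 < g x u u
  smooth : ∀ a, ContDiffOn ℝ ∞ (locB g a) (chartAt E3 a).target

/-- velocity of a curve, in the chart at the point -/
noncomputable def vel (γ : ℝ → M) (s : ℝ) : E3 := deriv (fun r => chartAt E3 (γ s) (γ r)) s

/-- a choice of the geodesic with given initial data -/
def GeoFam (g : M → Bil) (geo : M → E3 → ℝ → M) : Prop :=
  ∀ p v, IsGeodesic (un g) (geo p v) ∧ geo p v 0 = p ∧ vel (geo p v) 0 = v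

/-- chart facts -/
structure ChartFacts (g : M → Bil) : Prop where
  cm : ∀ a, CM (locB g a) (chartAt E3 a).target
  pull : ∀ a p, p ∈ (chartAt E3 a).source → ∀ u v,
    locB g a (chartAt E3 a p) (D a p u) (D a p v) = g p u v
  self : ∀ a : M, D a a = ContinuousLinearMap.id ℝ E3
  bij : ∀ a p : M, p ∈ (chartAt E3 a).source → Function.Bijective (D a p)
  chg : ∀ a b p : M, p ∈ (chartAt E3 a).source → p ∈ (chartAt E3 b).source →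
    D b p = (fderiv ℝ (fun y => chartAt E3 b ((chartAt E3 a).symm y)) (chartAt E3 a p)).comp (D a p)
  sm : ∀ a b : M, ContDiffOn ℝ ∞ (fun y => chartAt E3 b ((chartAt E3 a).symm y))
    ((chartAt E3 a).target ∩ (chartAt E3 a).symm ⁻¹' (chartAt E3 b).source)
  law : ∀ a b : M, ∀ y ∈ (chartAt E3 a).target ∩ (chartAt E3 a).symm ⁻¹' (chartAt E3 b).source,
    ∀ u v, locB g a y u v = locB g b (chartAt E3 b ((chartAt E3 a).symm y))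
      (fderiv ℝ (fun y => chartAt E3 b ((chartAt E3 a).symm y)) y u)
      (fderiv ℝ (fun y => chartAt E3 b ((chartAt E3 a).symm y)) y v)

/-- facts on geodesics that do not need existence -/
structure GeoFacts (g : M → Bil) : Prop where
  uchart : ∀ γ, IsGeodesic (un g) γ → ∀ (a : M) (c : ℝ → E3) (s₀ l u : ℝ), s₀ ∈ Ioo l u →
    (∀ s ∈ Ioo l u, c s ∈ (chartAt E3 a).target ∧ GeoAt (ub (locB g a)) c s) →
    γ s₀ ∈ (chartAt E3 a).source → chartAt E3 a (γ s₀) = c s₀ →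
    deriv (fun r => chartAt E3 a (γ r)) s₀ = deriv c s₀ →
    ∀ s ∈ Ioo l u, γ s = (chartAt E3 a).symm (c s)
  uniq : ∀ γ₁ γ₂, IsGeodesic (un g) γ₁ → IsGeodesic (un g) γ₂ → γ₁ 0 = γ₂ 0 →
    vel γ₁ 0 = vel γ₂ 0 → γ₁ = γ₂
  speed : ∀ γ, IsGeodesic (un g) γ → ∀ s,
    g (γ s) (vel γ s) (vel γ s) = g (γ 0) (vel γ 0) (vel γ 0)
  rep : ∀ γ, IsGeodesic (un g) γ → ∀ α β : ℝ, IsGeodesic (un g) (fun s => γ (α * s + β)) ∧
    ∀ s, vel (fun s => γ (α * s + β)) s = α • vel γ (α * s + β)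
  one : ∀ γ : ℝ → M, Continuous γ → (∀ s, ∃ a, γ s ∈ (chartAt E3 a).source ∧
    ∀ᶠ r in 𝓝 s, GeoAt (ub (locB g a)) (fun r => chartAt E3 a (γ r)) r) → IsGeodesic (un g) γ
  dv : ∀ γ, IsGeodesic (un g) γ → ∀ a s, γ s ∈ (chartAt E3 a).source →
    deriv (fun r => chartAt E3 a (γ r)) s = D a (γ s) (vel γ s)
  ju : ∀ (γ : ℝ → M) (J : ℝ → E3), IsGeodesic (un g) γ → IsJacobi (un g) γ J → ∀ s₁, J s₁ = 0 →
    deriv (locVec (γ s₁) γ J) s₁ = 0 → ∀ s, J s = 0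

/-- `C^1` dependence on the initial vector, with Jacobi fields as derivative -/
def ExpC1 (g : M → Bil) (geo : M → E3 → ℝ → M) : Prop :=
  ∀ p v, ContinuousAt (fun v' => geo p v' 1) v ∧
    ContDiffAt ℝ 1 (fun v' => chartAt E3 (geo p v 1) (geo p v' 1)) v ∧
    ∀ w, ∃ J : ℝ → E3, IsJacobi (un g) (geo p v) J ∧ J 0 = 0 ∧
      deriv (locVec p (geo p v) J) 0 = w ∧
      J 1 = fderiv ℝ (fun v' => chartAt E3 (geo p v 1) (geo p v' 1)) v w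

end

/-! ### Module B: bridge to Mathlib's Riemannian metrics, and chart facts -/

def BStmt : Prop := ∀ (M : Type) [TopologicalSpace M] [ChartedSpace E3 M]
  [IsManifold 𝓘(ℝ, E3) ∞ M],
  (∀ g : Metric E3 M, ∃ g' : M → Bil, IsMet g' ∧ un g' = ip g) ∧
  (∀ g' : M → Bil, IsMet g' → ∃ g : Metric E3 M, un g' = ip g) ∧
  (∀ g : M → Bil, IsMet g → ChartFacts g)

/-! ### Module G: uniqueness etc.; module E: existence; module J: `C^1` dependence -/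

def GStmt : Prop := ∀ (M : Type) [TopologicalSpace M] [ChartedSpace E3 M] [T2Space M]
  (g : M → Bil), ChartFacts g → GeoFacts g

def EStmt : Prop := ∀ (M : Type) [TopologicalSpace M] [ChartedSpace E3 M] [T2Space M]
  [CompactSpace M] (g : M → Bil), ChartFacts g → ∃ geo, GeoFam g geo

def JStmt : Prop := ∀ (M : Type) [TopologicalSpace M] [ChartedSpace E3 M] [T2Space M]
  (g : M → Bil) (geo : M → E3 → ℝ → M), ChartFacts g → GeoFacts g → GeoFam g geo → ExpC1 g geo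

/-! ### Module C: Cartan-Hadamard; module K: nonpositive curvature -/

def CStmt : Prop := ∀ (M : Type) [TopologicalSpace M] [ChartedSpace E3 M] [T2Space M]
  (g : M → Bil) (geo : M → E3 → ℝ → M), ChartFacts g → GeoFacts g → GeoFam g geo → ExpC1 g geo →
  NoConjugatePoints (un g) → ∀ p, IsCoveringMap (fun v => geo p v 1)

def KStmt : Prop := ∀ (M : Type) [TopologicalSpace M] [ChartedSpace E3 M] [T2Space M]
  (g : M → Bil) (geo : M → E3 → ℝ → M), ChartFacts g → GeoFacts g → GeoFam g geo → ExpC1 g geo →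
  NonposCurvature (un g) → NoConjugatePoints (un g) ∧
    ∀ (p q : M) (v : E3) (c : ℝ → E3), Continuous c → (∀ s, geo p (c s) 1 = geo q v s) →
      g p (c 1 - c 0) (c 1 - c 0) ≤ g q v v

/-! ### Module X: the CAT(0) universal cover; module N: group theory; module T: relations -/

structure ExpFam {M : Type} [TopologicalSpace M] (ex : M → E3 → M) (g : M → Bil) : Prop where
  cov : ∀ p, IsCoveringMap (ex p)
  zero : ∀ p, ex p 0 = p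
  symm : ∀ p u v, g p u v = g p v u
  pos : ∀ p u, u ≠ 0 → 0 < g p u u
  contr : ∀ (p q : M) (v : E3) (c : ℝ → E3), Continuous c → (∀ s, ex p (c s) = ex q (s • v)) →
    g p (c 1 - c 0) (c 1 - c 0) ≤ g q v v
  mid : ∀ q v, ∃ u, g (ex q ((1 / 2 : ℝ) • v)) u u = g q v v ∧
    ∀ s : ℝ, ex (ex q ((1 / 2 : ℝ) • v)) (s • u) = ex q ((1 / 2 + s) • v)

structure CN {X : Type} (d : X → X → ℝ) : Prop where
  self : ∀ a, d a a = 0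
  nonneg : ∀ a b, 0 ≤ d a b
  symm : ∀ a b, d a b = d b a
  tri : ∀ a b c, d a c ≤ d a b + d b c
  mid : ∀ a b, ∃ m, ∀ z, 2 * d m z ^ 2 + d a b ^ 2 / 2 ≤ d a z ^ 2 + d b z ^ 2

/-- deck transformations -/
def Deck {M : Type} (f : E3 → M) (φ : E3 ≃ₜ E3) : Prop := ∀ z, f (φ z) = f z

def XStmt : Prop := ∀ (M : Type) [TopologicalSpace M] [T2Space M] [CompactSpace M]
  (ex : M → E3 → M) (g : M → Bil), ExpFam ex g → ∀ o : M, ∃ d : E3 → E3 → ℝ, CN d ∧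
    (∀ φ, Deck (ex o) φ → ∀ a b, d (φ a) (φ b) = d a b) ∧
    ∃ δ > 0, ∀ φ, Deck (ex o) φ → ∀ z, d z (φ z) < δ → φ z = z

def NStmt : Prop := ∀ (X : Type) (d : X → X → ℝ), CN d → Nonempty X →
  ∀ (Γ : Type) [Group Γ] [MulAction Γ X], (∀ (φ : Γ) a b, d (φ • a) (φ • b) = d a b) →
  ∀ x y a₁ b₁ a₂ b₂ : Γ, Commute x y → Commute a₁ y → Commute b₁ y → x = a₁⁻¹ * b₁⁻¹ * a₁ * b₁ →
    Commute a₂ x → Commute b₂ x → x * y = a₂⁻¹ * b₂⁻¹ * a₂ * b₂ →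
    ∀ ε > 0, ∃ z, d z (x • z) < ε

/-- `ℝ³` minus the closed tubes of radius `ρ` around the lines over the lattice `6ρℤ²` -/
def Ur (ρ : ℝ) : Set E3 := {z | ∀ m n : ℤ, ρ ^ 2 < (z 0 - 6 * ρ * m) ^ 2 + (z 1 - 6 * ρ * n) ^ 2}

/-- a continuous map on `Ur ρ` with periods `6ρ e₀`, `6ρ e₁`, `2π e₂` -/
structure Piece {M : Type} [TopologicalSpace M] (ρ : ℝ) (ψ : E3 → M) : Prop where
  cont : ContinuousOn ψ (Ur ρ)
  per0 : ∀ z : E3, ψ (z + !₂[6 * ρ, 0, 0]) = ψ z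
  per1 : ∀ z : E3, ψ (z + !₂[0, 6 * ρ, 0]) = ψ z
  per2 : ∀ z : E3, ψ (z + !₂[0, 0, 2 * Real.pi]) = ψ z

def TStmt : Prop := ∀ (M : Type) [TopologicalSpace M] (f : E3 → M), IsCoveringMap f →
  ∀ (ρ : ℝ) (ψ : E3 → M), 0 < ρ → Piece ρ ψ → ∀ lam : ℝ × ℝ → E3, Continuous lam →
  (∀ θ y, f (lam (θ, y)) = ψ !₂[2 * ρ * Real.cos θ, 2 * ρ * Real.sin θ, y]) →
  ∀ h φ : E3 ≃ₜ E3, Deck f h → Deck f φ →
  (∀ θ y, lam (θ + 2 * Real.pi, y) = h (lam (θ, y))) →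
  (∀ θ y, lam (θ, y + 2 * Real.pi) = φ (lam (θ, y))) →
  ∃ a b : E3 ≃ₜ E3, Deck f a ∧ Deck f b ∧ (∀ z, a (φ z) = φ (a z)) ∧ (∀ z, b (φ z) = φ (b z)) ∧
    ∀ z, h z = a.symm (b.symm (a (b z)))

/-! ### Module Q: gluing; module M: the manifold -/

/-- A manifold from local parametrizations `ψ i : U i → M`. -/
def QStmt : Prop := ∀ (M ι : Type) (U K : ι → Set E3) (ψ : ι → E3 → M) (G : ι → E3 → Bil)
  (pi : M → ι) (py : M → E3), Finite ι → (∀ i, CM (G i) (U i)) →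
  (∀ p, py p ∈ U (pi p) ∧ ψ (pi p) (py p) = p) →
  (∀ i j, ∀ y ∈ U i, ∀ y' ∈ U j, ψ i y = ψ j y' → ∃ τ : E3 → E3, ContDiffAt ℝ ∞ τ y ∧ τ y = y' ∧
    (∀ᶠ z in 𝓝 y, ψ j (τ z) = ψ i z) ∧
    ∀ u v, G i y u v = G j y' (fderiv ℝ τ y u) (fderiv ℝ τ y v)) →
  (∀ i, ∀ y ∈ U i, ∃ O ∈ 𝓝 y, InjOn (ψ i) O) →
  (∀ i j, ∀ y ∈ U i, ∀ y' ∈ U j, ψ i y ≠ ψ j y' →
    ∀ᶠ z : E3 × E3 in 𝓝 (y, y'), ψ i z.1 ≠ ψ j z.2) →
  (∀ i, IsCompact (K i) ∧ K i ⊆ U i) → (∀ p, ∃ i, ∃ y ∈ K i, ψ i y = p) →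
  ∃ (_ : TopologicalSpace M) (_ : ChartedSpace E3 M), IsManifold 𝓘(ℝ, E3) ∞ M ∧ T2Space M ∧
    CompactSpace M ∧ (∀ i, ContinuousOn (ψ i) (U i)) ∧
    (∀ i, ∀ O ⊆ U i, IsOpen O → IsOpen (ψ i '' O)) ∧
    IsMet (fun p => G (pi p) (py p)) ∧
    ∀ a : M, chartAt E3 a a = py a ∧ ∀ y ∈ (chartAt E3 a).target, y ∈ U (pi a) ∧
      (chartAt E3 a).symm y = ψ (pi a) y ∧ locB (fun p => G (pi p) (py p)) a y = G (pi a) y

/-- profile functions of the neck `dt² + a²(dx - σ dy)² + b² dy²` -/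
structure Neck (a b σ : ℝ → ℝ) (tL tR ρL ρR A B : ℝ) : Prop where
  sa : ContDiff ℝ ∞ a
  sb : ContDiff ℝ ∞ b
  sσ : ContDiff ℝ ∞ σ
  pa : ∀ t, 0 < a t
  pb : ∀ t, 0 < b t
  hρL : 0 < ρL
  hρR : 0 < ρR
  lt : tL < tR
  left : ∀ t ≤ tL, a t = ρL + (tL - t) ∧ b t = B ∧ σ t = 0
  right : ∀ t, tR ≤ t → b t = ρR + (t - tR) ∧ a t = A ∧ σ t = 1

def neckF (a b σ : ℝ → ℝ) (t : ℝ) (u v : E3) : ℝ :=
  u 0 * v 0 + a t ^ 2 * ((u 1 - σ t * u 2) * (v 1 - σ t * v 2)) + b t ^ 2 * (u 2 * v 2)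

/-- what the no-conjugate-point proof needs from the atlas -/
structure NeckAtlas {M : Type} [TopologicalSpace M] [ChartedSpace E3 M] (g : M → Bil)
    (a b σ : ℝ → ℝ) (tL tR : ℝ) (mid : M → Prop) : Prop where
  flat : ∀ x, ¬ mid x → (∃ G₀ : Bil, ∀ y ∈ (chartAt E3 x).target, locB g x y = G₀) ∧
    ∀ᶠ p in 𝓝 x, ¬ mid p
  neck : ∀ x, mid x → ∀ y ∈ (chartAt E3 x).target, ∀ u v, locB g x y u v = neckF a b σ (y 0) u v
  tr : ∀ x, mid x → ∀ p ∈ (chartAt E3 x).source,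
    (mid p → chartAt E3 x p 0 = chartAt E3 p p 0 ∧ D x p = ContinuousLinearMap.id ℝ E3) ∧
    (¬ mid p → chartAt E3 x p 0 < tL ∨ tR < chartAt E3 x p 0)

/-- what the topological part needs -/
structure Param {M : Type} [TopologicalSpace M] [ChartedSpace E3 M] (tL tR ρL ρR : ℝ)
    (mid : M → Prop) (ψN ψL ψR : E3 → M) : Prop where
  cN : ContinuousOn ψN {z | tL - 2 * ρL < z 0 ∧ z 0 < tR + 2 * ρR}
  per1 : ∀ z : E3, ψN (z + !₂[0, 2 * Real.pi, 0]) = ψN z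
  per2 : ∀ z : E3, ψN (z + !₂[0, 0, 2 * Real.pi]) = ψN z
  pL : Piece ρL ψL
  pR : Piece ρR ψR
  gL : ∀ θ y, ψN !₂[tL - ρL, θ, y] = ψL !₂[2 * ρL * Real.cos θ, 2 * ρL * Real.sin θ, y]
  gR : ∀ θ u, ψN !₂[tR + ρR, u + θ, θ] = ψR !₂[2 * ρR * Real.cos θ, 2 * ρR * Real.sin θ, u]
  geo : ∀ s : ℝ, mid (ψN !₂[tR, s, 0]) ∧ ∃ k : E3, k 0 = 0 ∧
    ∀ᶠ z in 𝓝 (!₂[tR, s, 0] : E3), chartAt E3 (ψN !₂[tR, s, 0]) (ψN z) = z + k

def MStmt : Prop := ∀ (a b σ : ℝ → ℝ) (tL tR ρL ρR A B : ℝ), Neck a b σ tL tR ρL ρR A B →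
  ∃ (M : Type) (_ : TopologicalSpace M) (_ : ChartedSpace E3 M), IsManifold 𝓘(ℝ, E3) ∞ M ∧
    T2Space M ∧ CompactSpace M ∧ ConnectedSpace M ∧ ∃ (g : M → Bil) (mid : M → Prop)
    (ψN ψL ψR : E3 → M), IsMet g ∧ NeckAtlas g a b σ tL tR mid ∧ Param tL tR ρL ρR mid ψN ψL ψR

/-! ### Module F: profile functions; module R: the monotone quantity in the neck -/

/-- dual metric on momenta `(p,q)`, with `k = 1/a²`, `n = 1/b²` -/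
def V (k n σ : ℝ → ℝ) (p q t : ℝ) : ℝ := k t * p ^ 2 + n t * (q + σ t * p) ^ 2
/-- `x' = V_p / 2` -/
def xp (k n σ : ℝ → ℝ) (p q t : ℝ) : ℝ := k t * p + n t * σ t * (q + σ t * p)
/-- `y' = V_q / 2` -/
def yp (n σ : ℝ → ℝ) (p q t : ℝ) : ℝ := n t * (q + σ t * p)

structure Prof (k n σ : ℝ → ℝ) (t₁ t₄ : ℝ) : Prop where
  sk : ContDiff ℝ ∞ k
  sn : ContDiff ℝ ∞ n
  sσ : ContDiff ℝ ∞ σ
  pk : ∀ t, 0 < k t
  pn : ∀ t, 0 < n t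
  lt : t₁ < t₄
  k1 : ∀ t < t₄, 0 < deriv k t
  k0 : ∀ t, t₄ ≤ t → deriv k t = 0
  n1 : ∀ t, t₁ < t → deriv n t < 0
  n0 : ∀ t ≤ t₁, deriv n t = 0
  k2 : ∀ t, 2 * k t * deriv (deriv k) t ≤ 3 * deriv k t ^ 2
  n2 : ∀ t, 2 * n t * deriv (deriv n) t ≤ 3 * deriv n t ^ 2
  σ0 : ∃ t₂ > t₁, ∀ t < t₂, σ t = 0
  σ1 : ∃ t₃ < t₄, ∀ t, t₃ < t → σ t = 1
  c1 : ∀ t ∈ Icc t₁ t₄, ∀ p q, 0 < deriv (V k n σ p q) t → xp k n σ p q t ≠ 0 ∧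
    2 * deriv (deriv (V k n σ p q)) t * xp k n σ p q t ^ 2
      - 4 * deriv (V k n σ p q) t * xp k n σ p q t * deriv (xp k n σ p q) t
      + (k t + n t * σ t ^ 2) * deriv (V k n σ p q) t ^ 2 ≤ 0
  c2 : ∀ t ∈ Icc t₁ t₄, ∀ p q, deriv (V k n σ p q) t < 0 → yp n σ p q t ≠ 0 ∧
    2 * deriv (deriv (V k n σ p q)) t * yp n σ p q t ^ 2
      - 4 * deriv (V k n σ p q) t * yp n σ p q t * deriv (yp n σ p q) t
      + n t * deriv (V k n σ p q) t ^ 2 ≤ 0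
  c3 : ∀ t ∈ Ioo t₁ t₄, ∀ p q, deriv (V k n σ p q) t = 0 → (p ≠ 0 ∨ q ≠ 0) →
    xp k n σ p q t ≠ 0 ∧ yp n σ p q t ≠ 0 ∧ deriv (deriv (V k n σ p q)) t ≤ 0

def FStmt : Prop := ∃ (a b σ : ℝ → ℝ) (tL tR ρL ρR A B t₁ t₄ : ℝ), Neck a b σ tL tR ρL ρR A B ∧
  tL < t₁ ∧ t₄ < tR ∧ Prof (fun t => 1 / a t ^ 2) (fun t => 1 / b t ^ 2) σ t₁ t₄

noncomputable def nuL (k n σ : ℝ → ℝ) (t₁ p q t : ℝ) : ℝ :=
  if t < t₁ then deriv k t / (2 * k t ^ 2)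
  else max (deriv (V k n σ p q) t) 0 / (2 * xp k n σ p q t ^ 2)

noncomputable def nuR (k n σ : ℝ → ℝ) (t₄ p q t : ℝ) : ℝ :=
  if t₄ < t then deriv n t / (2 * n t ^ 2)
  else min (deriv (V k n σ p q) t) 0 / (2 * yp n σ p q t ^ 2)

/-- the monotone quantity -/
noncomputable def fN (k n σ : ℝ → ℝ) (t₁ t₄ p q t τ δt δx δy δτ δp δq : ℝ) : ℝ :=
  δt * δτ + δx * δp + δy * δq
    - nuL k n σ t₁ p q t * (τ * δx ^ 2 - 2 * xp k n σ p q t * δt * δx)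
    - nuR k n σ t₄ p q t * (τ * δy ^ 2 - 2 * yp n σ p q t * δt * δy)

def LocMono (F : ℝ → ℝ) (s₀ : ℝ) : Prop :=
  (∀ ε > 0, ∀ᶠ s in 𝓝[>] s₀, F s₀ - ε * (s - s₀) ≤ F s) ∧ ∀ ε > 0, ∀ᶠ s in 𝓝[<] s₀, F s ≤ F s₀ + ε

def MonoStmt : Prop := ∀ F : ℝ → ℝ, (∀ s, LocMono F s) → Monotone F

def CertStmt : Prop := ∀ (k n σ : ℝ → ℝ) (t₁ t₄ : ℝ), Prof k n σ t₁ t₄ →
  ∀ (p q δp δq s₀ : ℝ) (t τ δt δx δy δτ : ℝ → ℝ),
  HasDerivAt t (τ s₀) s₀ → HasDerivAt τ (-(deriv (V k n σ p q) (t s₀)) / 2) s₀ →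
  HasDerivAt δt (δτ s₀) s₀ →
  HasDerivAt δx (deriv (xp k n σ p q) (t s₀) * δt s₀ + xp k n σ δp δq (t s₀)) s₀ →
  HasDerivAt δy (deriv (yp n σ p q) (t s₀) * δt s₀ + yp n σ δp δq (t s₀)) s₀ →
  HasDerivAt δτ (-(deriv (deriv (V k n σ p q)) (t s₀) / 2 * δt s₀
    + deriv (xp k n σ p q) (t s₀) * δp + deriv (yp n σ p q) (t s₀) * δq)) s₀ →
  LocMono (fun s => fN k n σ t₁ t₄ p q (t s) (τ s) (δt s) (δx s) (δy s) (δτ s) δp δq) s₀ ∧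
  (δt s₀ = 0 → δx s₀ = 0 → δy s₀ = 0 → (δτ s₀ ≠ 0 ∨ δp ≠ 0 ∨ δq ≠ 0) →
    ∀ᶠ s in 𝓝[>] s₀, 0 < fN k n σ t₁ t₄ p q (t s) (τ s) (δt s) (δx s) (δy s) (δτ s) δp δq)

def RStmt : Prop := MonoStmt ∧ CertStmt

/-! ### Module Z: no conjugate points -/

def ZStmt : Prop := ∀ (M : Type) [TopologicalSpace M] [ChartedSpace E3 M]
  (g : M → Bil) (a b σ : ℝ → ℝ) (tL tR ρL ρR A B t₁ t₄ : ℝ) (mid : M → Prop),
  ChartFacts g → GeoFacts g → Neck a b σ tL tR ρL ρR A B → tL < t₁ → t₄ < tR →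
  Prof (fun t => 1 / a t ^ 2) (fun t => 1 / b t ^ 2) σ t₁ t₄ → NeckAtlas g a b σ tL tR mid →
  NoConjugatePoints (un g)

end Vale.Agent.P255
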