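import Vale.Agent.P255.Deck

/-! Module T: the commutator relation coming from a punctured torus piece. -/

open Set Real

namespace Vale.Agent.P255
namespace Tm

variable {M : Type} [TopologicalSpace M] {f : E3 → M}

/-- a point from its coordinates -/
def pt (q : ℝ × ℝ × ℝ) : E3 := !₂[q.1, q.2.1, q.2.2]

theorem pt_cont : Continuous pt := by unfold pt; fun_prop

theorem strip (hf : IsCoveringMap f) {L : ℝ × ℝ × ℝ → E3} (hL : Continuous L) {s t q : ℝ × ℝ × ℝ}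
    (hs : ∀ z, f (L (z + s)) = f (L z)) (ht : ∀ z, f (L (z + t)) = f (L z)) {φ : E3 ≃ₜ E3}
    (hφ : Deck f φ) (h0 : L (q + t) = φ (L q)) :
    ∃ a : E3 ≃ₜ E3, Deck f a ∧ (∀ z, L (z + s) = a (L z)) ∧ ∀ z, a (φ z) = φ (a z) := by
  obtain ⟨a, ha, a0⟩ := exists_deck hf (hs q).symm
  have h1 := lift_unique hf (F₁ := fun z => L (z + s)) (F₂ := fun z => a (L z)) (by fun_prop)
    (by fun_prop) (fun z => by rw [hs, ha]) q a0.symm
  have h2 := lift_unique hf (F₁ := fun z => L (z + t)) (F₂ := fun z => φ (L z)) (by fun_prop)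
    (by fun_prop) (fun z => by rw [ht, hφ]) q h0
  refine ⟨a, ha, h1, deck_ext hf (by fun_prop) (by fun_prop) (fun z => by rw [ha, hφ])
    (fun z => by rw [hφ, ha]) (L q) ?_⟩
  rw [← h2, ← h1, ← h1, ← h2, add_right_comm]

theorem arc (hf : IsCoveringMap f) {F G : ℝ → E3} (hF : Continuous F) (hG : Continuous G)
    {s t : ℝ} (h : ∀ θ ∈ Icc s t, f (F θ) = f (G θ)) {u v : ℝ} (hu : u ∈ Icc s t) (hv : v ∈ Icc s t)
    (e : F u = G u) : F v = G v :=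
  hf.eqOn_of_comp_eqOn isPreconnected_Icc hF.continuousOn hG.continuousOn h hu e hv

theorem cos_ge {u : ℝ} (h1 : -(π / 4) ≤ u) (h2 : u ≤ π / 4) : 3 / 5 ≤ cos u := by
  have := one_sub_sq_div_two_le_cos (x := u)
  have := pi_lt_d2
  nlinarith

/-- clamping to the safe interval -/
noncomputable def cl (ρ x : ℝ) : ℝ := max (6 * ρ / 5) (min x (24 * ρ / 5))

theorem cl_eq {ρ x : ℝ} (h1 : 6 * ρ / 5 ≤ x) (h2 : x ≤ 24 * ρ / 5) : cl ρ x = x := by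
  rw [cl, min_eq_left h2, max_eq_right h1]

theorem cl_cl {ρ : ℝ} (h : 0 < ρ) (x : ℝ) : cl ρ (cl ρ x) = cl ρ x :=
  cl_eq (le_max_left _ _) (max_le (by linarith) (min_le_right _ _))

theorem far {ρ : ℝ} (h : 0 < ρ) (x : ℝ) (n : ℤ) : ρ ^ 2 < (cl ρ x - 6 * ρ * n) ^ 2 := by
  have h1 : 6 * ρ / 5 ≤ cl ρ x := le_max_left _ _
  have h2 : cl ρ x ≤ 24 * ρ / 5 := max_le (by linarith) (min_le_right _ _)
  rcases le_or_gt n 0 with hn | hn
  · have : (n : ℝ) ≤ 0 := by exact_mod_cast hn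
    nlinarith [mul_nonneg h.le (neg_nonneg.2 this)]
  · have : (1 : ℝ) ≤ n := by exact_mod_cast hn
    nlinarith [mul_nonneg h.le (sub_nonneg.2 this)]

end Tm

open Tm in
theorem tStmt : TStmt := by
  intro M _ f hf ρ ψ hρ hP lam hl hfl h φ hh hφ l1 l2
  have cc : Continuous (cl ρ) := by unfold cl; fun_prop
  have p0 : ∀ x y w, ψ (pt (x + 6 * ρ, y, w)) = ψ (pt (x, y, w)) := fun x y w => by
    rw [← hP.per0 (pt (x, y, w))]; congr 1; ext i; fin_cases i <;> simp [pt]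
  have p1 : ∀ x y w, ψ (pt (x, y + 6 * ρ, w)) = ψ (pt (x, y, w)) := fun x y w => by
    rw [← hP.per1 (pt (x, y, w))]; congr 1; ext i; fin_cases i <;> simp [pt]
  have p2 : ∀ x y w, ψ (pt (x, y, w + 2 * π)) = ψ (pt (x, y, w)) := fun x y w => by
    rw [← hP.per2 (pt (x, y, w))]; congr 1; ext i; fin_cases i <;> simp [pt]
  have kH : Continuous fun z : ℝ × ℝ × ℝ => ψ (pt (z.1, cl ρ z.2.1, z.2.2)) :=
    hP.cont.comp_continuous (pt_cont.comp (by fun_prop)) fun z m n =>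
      (far hρ z.2.1 n).trans_le (le_add_of_nonneg_left (sq_nonneg _))
  have kV : Continuous fun z : ℝ × ℝ × ℝ => ψ (pt (cl ρ z.1, z.2.1, z.2.2)) :=
    hP.cont.comp_continuous (pt_cont.comp (by fun_prop)) fun z m n =>
      (far hρ z.1 m).trans_le (le_add_of_nonneg_right (sq_nonneg _))
  have hπ := pi_pos
  have A0 : ∀ θ ∈ Icc (-(π / 4)) (π / 4), cl ρ (2 * ρ * cos θ) = 2 * ρ * cos θ := fun θ hθ =>
    cl_eq (by nlinarith [cos_ge hθ.1 hθ.2]) (by nlinarith [cos_le_one θ])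
  have A1 : ∀ θ ∈ Icc (π / 4) (3 * π / 4), cl ρ (2 * ρ * sin θ) = 2 * ρ * sin θ := fun θ hθ => by
    have := cos_ge (u := θ - π / 2) (by linarith [hθ.1]) (by linarith [hθ.2])
    rw [cos_sub_pi_div_two] at this
    exact cl_eq (by nlinarith) (by nlinarith [sin_le_one θ])
  have A2 : ∀ θ ∈ Icc (3 * π / 4) (5 * π / 4),
      cl ρ (2 * ρ * cos θ + 6 * ρ) = 2 * ρ * cos θ + 6 * ρ := fun θ hθ => by
    have := cos_ge (u := θ - π) (by linarith [hθ.1]) (by linarith [hθ.2])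
    rw [cos_sub_pi] at this
    exact cl_eq (by nlinarith [neg_one_le_cos θ]) (by nlinarith)
  have A3 : ∀ θ ∈ Icc (5 * π / 4) (7 * π / 4),
      cl ρ (2 * ρ * sin θ + 6 * ρ) = 2 * ρ * sin θ + 6 * ρ := fun θ hθ => by
    have := cos_ge (u := θ - π / 2 - π) (by linarith [hθ.1]) (by linarith [hθ.2])
    rw [cos_sub_pi, cos_sub_pi_div_two] at this
    exact cl_eq (by nlinarith [neg_one_le_sin θ]) (by nlinarith)
  have m0 : -(π / 4) ∈ Icc (-(π / 4)) (π / 4) := ⟨le_rfl, by linarith⟩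
  have m1 : π / 4 ∈ Icc (-(π / 4)) (π / 4) := ⟨by linarith, le_rfl⟩
  have m1' : π / 4 ∈ Icc (π / 4) (3 * π / 4) := ⟨le_rfl, by linarith⟩
  have m2 : 3 * π / 4 ∈ Icc (π / 4) (3 * π / 4) := ⟨by linarith, le_rfl⟩
  have m2' : 3 * π / 4 ∈ Icc (3 * π / 4) (5 * π / 4) := ⟨le_rfl, by linarith⟩
  have m3 : 5 * π / 4 ∈ Icc (3 * π / 4) (5 * π / 4) := ⟨by linarith, le_rfl⟩
  have m3' : 5 * π / 4 ∈ Icc (5 * π / 4) (7 * π / 4) := ⟨le_rfl, by linarith⟩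
  have m4 : 7 * π / 4 ∈ Icc (5 * π / 4) (7 * π / 4) := ⟨by linarith, le_rfl⟩
  have hfl' : ∀ θ y, f (lam (θ, y)) = ψ (pt (2 * ρ * cos θ, 2 * ρ * sin θ, y)) := hfl
  obtain ⟨H, ⟨H0, H1⟩, -⟩ := hf.existsUnique_continuousMap_lifts ⟨_, kH⟩
    (2 * ρ * cos (π / 4), 2 * ρ * sin (π / 4), 0) (lam (π / 4, 0))
    (by rw [hfl', ContinuousMap.coe_mk, A1 _ m1'])
  obtain ⟨V, ⟨V0, V1⟩, -⟩ := hf.existsUnique_continuousMap_lifts ⟨_, kV⟩
    (2 * ρ * cos (π / 4), 2 * ρ * sin (π / 4), 0) (lam (π / 4, 0))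
    (by rw [hfl', ContinuousMap.coe_mk, A0 _ m1])
  replace H1 : ∀ x y w, f (H (x, y, w)) = ψ (pt (x, cl ρ y, w)) := fun x y w => congrFun H1 _
  replace V1 : ∀ x y w, f (V (x, y, w)) = ψ (pt (cl ρ x, y, w)) := fun x y w => congrFun V1 _
  have sq : ∀ x y, cl ρ x = x → cl ρ y = y → H (x, y, 0) = V (x, y, 0) := fun x y hx hy => by
    have := lift_unique hf (F₁ := fun z : ℝ × ℝ => H (cl ρ z.1, cl ρ z.2, 0))
      (F₂ := fun z : ℝ × ℝ => V (cl ρ z.1, cl ρ z.2, 0)) (by fun_prop) (by fun_prop)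
      (fun z => by rw [H1, V1, cl_cl hρ, cl_cl hρ]) (2 * ρ * cos (π / 4), 2 * ρ * sin (π / 4))
      (by simp only [A0 _ m1, A1 _ m1', H0, V0]) (x, y)
    rwa [hx, hy] at this
  have up : ∀ L : C(ℝ × ℝ × ℝ, E3), L (2 * ρ * cos (π / 4), 2 * ρ * sin (π / 4), 0) =
      lam (π / 4, 0) → (∀ w, f (L (2 * ρ * cos (π / 4), 2 * ρ * sin (π / 4), w)) =
        f (lam (π / 4, w))) → L ((2 * ρ * cos (π / 4), 2 * ρ * sin (π / 4), 0) + (0, 0, 2 * π)) =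
        φ (L (2 * ρ * cos (π / 4), 2 * ρ * sin (π / 4), 0)) := fun L a b => by
    rw [a, ← l2, ← lift_unique hf (F₁ := fun w => L (2 * ρ * cos (π / 4), 2 * ρ * sin (π / 4), w))
      (F₂ := fun w => lam (π / 4, w)) (by fun_prop) (by fun_prop) b 0 a]
    simp
  obtain ⟨a, ha, a1, a2⟩ := strip hf H.continuous (s := (6 * ρ, 0, 0)) (t := (0, 0, 2 * π))
    (fun ⟨x, y, w⟩ => by simp only [Prod.mk_add_mk, add_zero, H1, p0])
    (fun ⟨x, y, w⟩ => by simp only [Prod.mk_add_mk, add_zero, H1, p2]) hφ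
    (up H H0 fun w => by rw [H1, hfl', A1 _ m1'])
  obtain ⟨b, hb, b1, b2⟩ := strip hf V.continuous (s := (0, 6 * ρ, 0)) (t := (0, 0, 2 * π))
    (fun ⟨x, y, w⟩ => by simp only [Prod.mk_add_mk, add_zero, V1, p1])
    (fun ⟨x, y, w⟩ => by simp only [Prod.mk_add_mk, add_zero, V1, p2]) hφ
    (up V V0 fun w => by rw [V1, hfl', A0 _ m1])
  replace a1 : ∀ x y, H (x + 6 * ρ, y, 0) = a (H (x, y, 0)) := fun x y => by
    simpa using a1 (x, y, 0)
  replace b1 : ∀ x y, V (x, y + 6 * ρ, 0) = b (V (x, y, 0)) := fun x y => by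
    simpa using b1 (x, y, 0)
  have hγ : Continuous fun θ => lam (θ, 0) := by fun_prop
  have w0 := arc hf (F := fun θ => V (2 * ρ * cos θ, 2 * ρ * sin θ, 0)) (by fun_prop) hγ
    (fun θ hθ => by rw [V1, hfl', A0 θ hθ]) m1 m0 V0
  have w1 := arc hf (F := fun θ => H (2 * ρ * cos θ, 2 * ρ * sin θ, 0)) (by fun_prop) hγ
    (fun θ hθ => by rw [H1, hfl', A1 θ hθ]) m1' m2 H0
  have w2 := arc hf (F := fun θ => a.symm (V (2 * ρ * cos θ + 6 * ρ, 2 * ρ * sin θ, 0)))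
    (by fun_prop) hγ (fun θ hθ => by rw [ha.symm, V1, hfl', A2 θ hθ, p0]) m2' m3
    (by rw [← sq _ _ (A2 _ m2') (A1 _ m2), a1, a.symm_apply_apply, w1])
  have w3 := arc hf
    (F := fun θ => a.symm (b.symm (a (H (2 * ρ * cos θ, 2 * ρ * sin θ + 6 * ρ, 0)))))
    (by fun_prop) hγ (fun θ hθ => by rw [ha.symm, hb.symm, ha, H1, hfl', A3 θ hθ, p1]) m3' m4
    (by rw [← a1, sq _ _ (A2 _ m3) (A3 _ m3'), b1, b.symm_apply_apply, w2])
  have e4 : 7 * π / 4 = -(π / 4) + 2 * π := by ring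
  have c4 : cos (7 * π / 4) = cos (-(π / 4)) := by rw [e4, cos_add_two_pi]
  have s4 : sin (7 * π / 4) = sin (-(π / 4)) := by rw [e4, sin_add_two_pi]
  rw [sq _ _ (by rw [c4, A0 _ m0]) (A3 _ m4), b1, c4, s4, w0, e4, l1] at w3
  exact ⟨a, b, ha, hb, a2, b2, deck_ext hf h.continuous (by fun_prop) hh
    (fun z => by rw [ha.symm, hb.symm, ha, hb]) _ w3.symm⟩

end Vale.Agent.P255
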