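import Vale.Agent.P255.Deck

/-! Module X: the distance on the universal cover. -/

open Set Filter Topology

namespace Vale.Agent.P255

namespace Xx

section form
variable {B : Bil} (hs : ∀ u v, B u v = B v u) (hp : ∀ u, u ≠ 0 → 0 < B u u)
include hp

lemma nn (u : E3) : 0 ≤ B u u := by
  rcases eq_or_ne u 0 with rfl | h
  · simp
  · exact (hp u h).le

lemma coer : ∃ l > 0, ∀ u, l * ‖u‖ ^ 2 ≤ B u u := by
  obtain ⟨x, hx, m⟩ := (isCompact_sphere (0 : E3) 1).exists_isMinOn
    (NormedSpace.sphere_nonempty.2 zero_le_one) (f := fun u => B u u) (by fun_prop)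
  have x0 : x ≠ 0 := by rintro rfl; simp at hx
  refine ⟨B x x, hp x x0, fun u => ?_⟩
  rcases eq_or_ne u 0 with rfl | h
  · simp
  have n := norm_pos_iff.2 h
  have : B x x ≤ B (‖u‖⁻¹ • u) (‖u‖⁻¹ • u) := m (by simp [norm_smul, n.ne'])
  simp only [map_smul, ContinuousLinearMap.smul_apply, smul_eq_mul] at this
  calc _ ≤ ‖u‖⁻¹ * (‖u‖⁻¹ * B u u) * ‖u‖ ^ 2 := by gcongr
    _ = _ := by field_simp

include hs

lemma tri (u v : E3) : √(B (u + v) (u + v)) ≤ √(B u u) + √(B v v) := by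
  have c : B u v ^ 2 ≤ B u u * B v v := by
    have := discrim_le_zero (a := B u u) (b := 2 * B u v) (c := B v v) fun t => by
      have := nn hp (t • u + v)
      simp only [map_add, map_smul, ContinuousLinearMap.add_apply, ContinuousLinearMap.smul_apply,
        smul_eq_mul, hs v u] at this
      linarith
    rw [discrim] at this; linarith
  have c2 : B u v ≤ √(B u u) * √(B v v) := by
    rw [← Real.sqrt_mul (nn hp u)]; exact Real.le_sqrt_of_sq_le c
  refine Real.sqrt_le_iff.2 ⟨by positivity, ?_⟩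
  simp only [map_add, ContinuousLinearMap.add_apply, hs v u]
  nlinarith [Real.sq_sqrt (nn hp u), Real.sq_sqrt (nn hp v)]

end form

variable {M : Type} [TopologicalSpace M]

lemma closed_range {f : E3 → M} (hf : IsCoveringMap f) : IsClosed (range f) := by
  refine isOpen_compl_iff.1 (isOpen_iff_mem_nhds.2 fun x hx => ?_)
  obtain ⟨-, U, xU, hU, -, H, -⟩ := hf x
  refine mem_of_superset (hU.mem_nhds xU) ?_
  rintro _ hy ⟨z, rfl⟩
  exact hx ⟨_, (H ⟨z, hy⟩).2.2⟩

lemma fund [CompactSpace M] {f : E3 → M} (hf : IsCoveringMap f) :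
    ∃ R : ℝ, ∀ z, ∃ z' ∈ Metric.closedBall (0 : E3) R, f z = f z' := by
  obtain ⟨n, hn⟩ := (closed_range hf).isCompact.elim_directed_cover
    (fun n : ℕ => f '' Metric.ball 0 n) (fun n => hf.isOpenMap _ Metric.isOpen_ball)
    (by
      rintro _ ⟨z, rfl⟩
      obtain ⟨n, hn⟩ := exists_nat_gt ‖z‖
      exact mem_iUnion.2 ⟨n, z, by simpa using hn, rfl⟩)
    (Monotone.directed_le fun m n h => image_mono (Metric.ball_subset_ball (Nat.cast_le.2 h)))
  refine ⟨n, fun z => ?_⟩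
  obtain ⟨z', a, b⟩ := hn ⟨z, rfl⟩
  exact ⟨z', Metric.ball_subset_closedBall a, b.symm⟩

lemma unif {f : E3 → M} (hf : IsCoveringMap f) {K : Set E3} (hK : IsCompact K) :
    ∃ δ > 0, ∀ z ∈ K, ∀ z', dist z' z < δ → f z' = f z → z' = z := by
  choose U h1 h2 h3 using hf.isLocalHomeomorph.isLocallyInjective
  obtain ⟨δ, δ0, h⟩ := lebesgue_number_lemma_of_metric hK h1 fun z _ => mem_iUnion.2 ⟨z, h2 z⟩
  refine ⟨δ, δ0, fun z hz z' a b => ?_⟩
  obtain ⟨i, hi⟩ := h z hz
  exact h3 i (hi a) (hi (Metric.mem_ball_self δ0)) b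

end Xx

open Xx in
theorem xStmt : XStmt := by
  intro M _ _ _ ex g h o
  have hf := h.cov o
  choose F F0 F1 using fun a : E3 => exists_homeo hf (h.cov (ex o a)) 0 a (h.zero _).symm
  have S0 : ∀ a, (F a).symm a = 0 := fun a => (F a).symm_apply_eq.2 (F0 a).symm
  obtain ⟨d, hd⟩ : ∃ d : E3 → E3 → ℝ,
    ∀ a b, d a b = √(g (ex o a) ((F a).symm b) ((F a).symm b)) := ⟨_, fun _ _ => rfl⟩
  have key0 : ∀ m a b, g (ex o m) ((F m).symm b - (F m).symm a) ((F m).symm b - (F m).symm a) ≤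
      g (ex o a) ((F a).symm b) ((F a).symm b) := fun m a b => by
    have := h.contr (ex o m) (ex o a) ((F a).symm b) (fun s => (F m).symm (F a (s • (F a).symm b)))
      (by fun_prop) fun s => by rw [← F1, Homeomorph.apply_symm_apply, F1]
    simpa only [one_smul, zero_smul, Homeomorph.apply_symm_apply, F0] using this
  have key : ∀ m a b, √(g (ex o m) ((F m).symm b - (F m).symm a) ((F m).symm b - (F m).symm a)) ≤
      d a b := fun m a b => hd a b ▸ Real.sqrt_le_sqrt (key0 m a b)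
  have sq : ∀ a b, d a b ^ 2 = g (ex o a) ((F a).symm b) ((F a).symm b) := fun a b => by
    rw [hd, Real.sq_sqrt (nn (h.pos _) _)]
  have sy : ∀ a b, d b a ≤ d a b := fun a b => by
    have := key b a b
    simpa only [S0, zero_sub, map_neg, ContinuousLinearMap.neg_apply, neg_neg, ← hd] using this
  have dk : ∀ φ, Deck (ex o) φ → ∀ a b, d (φ a) (φ b) = d a b := fun φ hφ a b => by
    have e : ∀ z, F (φ a) z = φ (F a z) := lift_unique hf (F _).continuous
      (φ.continuous.comp (F a).continuous) (fun z => by rw [F1, hφ, hφ, F1]) 0 (by rw [F0, F0])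
    have : (F (φ a)).symm (φ b) = (F a).symm b :=
      (F _).symm_apply_eq.2 (by rw [e, Homeomorph.apply_symm_apply])
    rw [hd, hd, this, hφ]
  refine ⟨d, ⟨fun a => by simp [hd, S0], fun a b => hd a b ▸ Real.sqrt_nonneg _,
    fun a b => (sy b a).antisymm (sy a b), fun a b c => ?_, fun a b => ?_⟩, dk, ?_⟩
  · have := tri (h.symm (ex o a)) (h.pos _) ((F a).symm b) ((F a).symm c - (F a).symm b)
    rw [add_sub_cancel, ← hd, ← hd] at this
    linarith [key a b c]
  · obtain ⟨v, hv⟩ : ∃ v, v = (F a).symm b := ⟨_, rfl⟩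
    obtain ⟨u, u1, u2⟩ := h.mid (ex o a) v
    obtain ⟨m, hm⟩ : ∃ m, m = F a ((1 / 2 : ℝ) • v) := ⟨_, rfl⟩
    rw [← F1, ← hm] at u1 u2
    have e : ∀ s : ℝ, F m (s • u) = F a ((1 / 2 + s) • v) := lift_unique hf (by fun_prop)
      (by fun_prop) (fun s => by rw [F1, F1, u2]) 0 (by rw [zero_smul, F0, add_zero, hm])
    have e1 : (F m).symm b = (1 / 2 : ℝ) • u := (F m).symm_apply_eq.2 (by
      rw [e, add_halves, one_smul, hv, Homeomorph.apply_symm_apply])
    have e2 : (F m).symm a = (-(1 / 2) : ℝ) • u := (F m).symm_apply_eq.2 (by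
      rw [e, add_neg_cancel, zero_smul, F0])
    refine ⟨m, fun z => ?_⟩
    have k1 := key0 m a z
    have k2 := key0 m b z
    rw [e1] at k2
    rw [e2] at k1
    rw [sq, sq, sq, sq, ← hv, ← u1]
    simp only [map_sub, map_smul, ContinuousLinearMap.sub_apply, ContinuousLinearMap.smul_apply,
      smul_eq_mul] at k1 k2
    linarith
  · obtain ⟨R, hR⟩ := fund hf
    obtain ⟨δ, δ0, hδ⟩ := unif hf (isCompact_closedBall (0 : E3) R)
    obtain ⟨l, l0, hl⟩ := coer (h.pos (ex o 0))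
    have e : ∀ z, F 0 z = z := deck_fix hf (fun z => by rw [F1, h.zero]) (F0 0)
    have e' : ∀ z, (F 0).symm z = z := fun z => (F 0).symm_apply_eq.2 (e z).symm
    refine ⟨√l * δ, by positivity, fun φ hφ z hz => ?_⟩
    obtain ⟨z', a, b⟩ := hR z
    obtain ⟨ψ, ψ1, rfl⟩ := exists_deck hf b
    refine ψ.injective (hδ _ a _ ?_ (by rw [ψ1, ψ1, hφ]))
    have := (Real.sqrt_le_sqrt (hl _)).trans (key 0 (ψ z) (ψ (φ z)))
    rw [e', e', dk ψ ψ1, Real.sqrt_mul l0.le, Real.sqrt_sq (norm_nonneg _), ← dist_eq_norm] at this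
    exact lt_of_mul_lt_mul_left (this.trans_lt hz) (Real.sqrt_nonneg _)

end Vale.Agent.P255
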