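import Vale.Agent.P255.Z2

open scoped ContDiff Topology
open Set Filter

namespace Vale.Agent.P255.Z

theorem locMono_of_deriv {F : ℝ → ℝ} {d s : ℝ} (h : HasDerivAt F d s) (hd : 0 ≤ d) :
    LocMono F s := by
  refine ⟨fun ε hε => ?_, fun ε hε => ?_⟩
  · have := (hasDerivAt_iff_tendsto_slope.1 h).mono_left (nhdsGT_le_nhdsNE s)
    filter_upwards [this.eventually (lt_mem_nhds (show -ε < d by linarith)),
      self_mem_nhdsWithin] with r h1 h2
    have h3 : 0 < r - s := sub_pos.2 h2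
    rw [slope_def_field, lt_div_iff₀ h3] at h1
    linarith
  · exact nhdsWithin_le_nhds ((h.continuousAt.tendsto.eventually
      (gt_mem_nhds (show F s < F s + ε by linarith))).mono fun r hr => hr.le)

theorem pos_of_deriv {F : ℝ → ℝ} {d s : ℝ} (h : HasDerivAt F d s) (hd : 0 < d) (h0 : F s = 0) :
    ∀ᶠ r in 𝓝[>] s, 0 < F r := by
  have := (hasDerivAt_iff_tendsto_slope.1 h).mono_left (nhdsGT_le_nhdsNE s)
  filter_upwards [this.eventually (lt_mem_nhds hd), self_mem_nhdsWithin] with r h1 h2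
  have h3 : 0 < r - s := sub_pos.2 h2
  rw [slope_def_field, lt_div_iff₀ h3] at h1
  linarith

theorem flat_local (hA : AStmt) {G : E3 → Bil} {Ω : Set E3} (hG : CM G Ω) {G₀ : Bil}
    (hN : ∀ y ∈ Ω, G y = G₀) {c j : ℝ → E3} {s₀ : ℝ}
    (hev : ∀ᶠ r in 𝓝 s₀, c r ∈ Ω ∧ GeoAt (ub G) c r ∧ JacAt (ub G) c j r) (F : ℝ → ℝ)
    (hF : ∀ᶠ s in 𝓝 s₀, F s = deriv (fun r => G (c r) (j r) (j r)) s / 2) :
    LocMono F s₀ ∧ (j s₀ = 0 → F s₀ = 0 ∧ (deriv j s₀ ≠ 0 → ∀ᶠ s in 𝓝[>] s₀, 0 < F s)) := by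
  have h0 := hev.self_of_nhds
  have hz : ∀ y ∈ Ω, ∀ w u v, fderiv ℝ G y w u v = 0 := fun y hy w u v => by
    have : G =ᶠ[𝓝 y] fun _ => G₀ := by
      filter_upwards [hG.isOpen.mem_nhds hy] with z hz using hN z hz
    rw [this.fderiv_eq]; simp
  obtain ⟨hj2, hl⟩ := (hA.2.2.2.1 G Ω hG c s₀).2 j
    (hev.mono fun r hr => ⟨hr.1, hr.2.1, hr.2.2.1⟩) h0.2.2
  have a1 : HasDerivAt (fun r => G₀ (deriv j r)) (G₀ (deriv (deriv j) s₀)) s₀ :=
    G₀.hasFDerivAt.comp_hasDerivAt s₀ hj2.hasDerivAt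
  have z2 : ∀ w, G₀ (deriv (deriv j) s₀) w = 0 := fun w => by
    have b1 := a1.clm_apply (hasDerivAt_const s₀ w)
    have b2 := hl w
    have e : (fun z => fderiv ℝ G z w (deriv c s₀) (deriv c s₀)) =ᶠ[𝓝 (c s₀)] fun _ => 0 := by
      filter_upwards [hG.isOpen.mem_nhds h0.1] with z hz' using hz z hz' _ _ _
    rw [e.fderiv_eq, hz _ h0.1] at b2
    have b3 : (fun r => G₀ (deriv j r) w) =ᶠ[𝓝 s₀]
        fun r => G (c r) (deriv j r) w + fderiv ℝ G (c r) (j r) (deriv c r) w := by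
      filter_upwards [hev] with r hr
      rw [hz _ hr.1, hN _ hr.1, add_zero]
    simpa using b1.unique (b2.congr_of_eventuallyEq b3)
  have key : F =ᶠ[𝓝 s₀] fun s => G₀ (deriv j s) (j s) := by
    filter_upwards [hF, hev] with s hs hr
    rw [hs, (hsq hA hG hr.1 hr.2.1.1 hr.2.2.1).deriv, hz _ hr.1, hN _ hr.1]
    ring
  have hd : HasDerivAt F (G₀ (deriv j s₀) (deriv j s₀)) s₀ :=
    ((a1.clm_apply h0.2.2.1.hasDerivAt).congr_of_eventuallyEq key).congr_deriv (by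
      rw [z2, zero_add])
  have hp : deriv j s₀ ≠ 0 → 0 < G₀ (deriv j s₀) (deriv j s₀) := fun h => by
    rw [← hN _ h0.1]; exact hG.pos _ h0.1 _ h
  have hF0 : j s₀ = 0 → F s₀ = 0 := fun hj => by rw [key.eq_of_nhds]; simp [hj]
  refine ⟨locMono_of_deriv hd ?_, fun hj => ⟨hF0 hj, fun hj' => pos_of_deriv hd (hp hj') (hF0 hj)⟩⟩
  by_cases h : deriv j s₀ = 0
  · simp [h]
  · exact (hp h).le

end Vale.Agent.P255.Z

namespace Vale.Agent.P255
open Z

theorem zStmt (hA : AStmt) (hR : RStmt) : ZStmt := by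
  classical
  intro M _ _ g a b σ tL tR ρL ρR A B t₁ t₄ mid hC hG hN h1 h4 hP hT γ J hγ hJ
  set k : ℝ → ℝ := fun t => 1 / a t ^ 2 with hk
  set n : ℝ → ℝ := fun t => 1 / b t ^ 2 with hn
  let f : ℝ → ℝ := fun s => deriv (fun r => g (γ r) (J r) (J r)) s / 2 -
    if mid (γ s) then corr k n σ t₁ t₄ (chartAt E3 (γ s) (γ s) 0) (vel γ s) (J s) else 0
  have loc : ∀ s₀, LocMono f s₀ ∧ (J s₀ = 0 → f s₀ = 0 ∧
      (deriv (locVec (γ s₀) γ J) s₀ ≠ 0 → ∀ᶠ s in 𝓝[>] s₀, 0 < f s)) := by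
    intro s₀
    set x := γ s₀ with hx
    have hsrc : ∀ᶠ r in 𝓝 s₀, γ r ∈ (chartAt E3 x).source :=
      hγ.1.continuousAt.eventually ((chartAt E3 x).open_source.mem_nhds (mem_chart_source E3 x))
    have hev : ∀ᶠ r in 𝓝 s₀, chartAt E3 x (γ r) ∈ (chartAt E3 x).target ∧
        GeoAt (ub (locB g x)) (fun r => chartAt E3 x (γ r)) r ∧
        JacAt (ub (locB g x)) (fun r => chartAt E3 x (γ r)) (locVec x γ J) r :=
      hsrc.mono fun r hr => ⟨(chartAt E3 x).map_source hr, hγ.2 x r hr, hJ x r hr⟩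
    have hh : ∀ᶠ s in 𝓝 s₀, deriv (fun r => g (γ r) (J r) (J r)) s =
        deriv (fun r => locB g x (chartAt E3 x (γ r)) (locVec x γ J r) (locVec x γ J r)) s := by
      filter_upwards [hsrc.eventually_nhds] with s hs
      refine Filter.EventuallyEq.deriv_eq ?_
      filter_upwards [hs] with r hr
      exact (hC.pull x (γ r) hr (J r) (J r)).symm
    have hj0 : J s₀ = 0 → locVec x γ J s₀ = 0 := fun h => by
      have : locVec x γ J s₀ = D x (γ s₀) (J s₀) := rfl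
      rw [this, h]; exact map_zero _
    by_cases hm : mid x
    · have := neck_local hA hR hP (hC.cm x) (fun y hy u v => by
        rw [hT.neck x hm y hy]; simp [neckF, nk, hk, hn]) hev f (by
        filter_upwards [hh, hsrc] with s hs hr
        simp only [f]
        rw [hs]
        congr 1
        obtain ⟨t1, t2⟩ := hT.tr x hm (γ s) hr
        split_ifs with hs'
        · obtain ⟨u1, u2⟩ := t1 hs'
          have : locVec x γ J s = D x (γ s) (J s) := rfl
          rw [hG.dv γ hγ x s hr, this, u2, u1]; rfl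
        · exact (corr_zero hP ((t2 hs').imp (fun h => h.trans h1) fun h => h4.trans h) _ _).symm)
      exact ⟨this.1, fun h => this.2 (hj0 h)⟩
    · obtain ⟨⟨G₀, hG₀⟩, hnm⟩ := hT.flat x hm
      have := flat_local hA (hC.cm x) hG₀ hev f (by
        filter_upwards [hh, hγ.1.continuousAt.eventually hnm] with s hs hr
        simp only [f]
        rw [hs, if_neg hr, sub_zero])
      exact ⟨this.1, fun h => this.2 (hj0 h)⟩
  have mono : Monotone f := hR.1 f fun s => (loc s).1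
  have main : ∀ s₁ s₂, s₁ < s₂ → J s₁ = 0 → J s₂ = 0 → ∀ s, J s = 0 := by
    intro s₁ s₂ hlt e1 e2
    refine hG.ju γ J hγ hJ s₁ e1 ?_
    by_contra hne
    obtain ⟨s, p1, p2⟩ := ((((loc s₁).2 e1).2 hne).and
      (nhdsWithin_le_nhds (gt_mem_nhds hlt))).exists
    have := mono p2.le
    rw [((loc s₂).2 e2).1] at this
    linarith
  intro s₁ s₂ hne e1 e2
  rcases lt_or_gt_of_ne hne with h | h
  · exact main s₁ s₂ h e1 e2
  · exact main s₂ s₁ h e2 e1

end Vale.Agent.P255
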