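import Vale.Agent.P255.Spec

open scoped ContDiff Topology
open Set Filter

namespace Vale.Agent.P255.Z

/-- the neck metric in terms of `k`, `n` -/
noncomputable def nk (k n σ : ℝ → ℝ) (t : ℝ) (u v : E3) : ℝ :=
  u 0 * v 0 + (k t)⁻¹ * ((u 1 - σ t * u 2) * (v 1 - σ t * v 2)) + (n t)⁻¹ * (u 2 * v 2)

noncomputable def nk1 (k n σ : ℝ → ℝ) (t : ℝ) (u v : E3) : ℝ :=
  -deriv k t / k t ^ 2 * ((u 1 - σ t * u 2) * (v 1 - σ t * v 2))
    - (k t)⁻¹ * deriv σ t * (u 2 * (v 1 - σ t * v 2) + (u 1 - σ t * u 2) * v 2)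
    - deriv n t / n t ^ 2 * (u 2 * v 2)

noncomputable def nk2 (k n σ : ℝ → ℝ) (t : ℝ) (u v : E3) : ℝ :=
  (-deriv (deriv k) t / k t ^ 2 + 2 * deriv k t ^ 2 / k t ^ 3)
      * ((u 1 - σ t * u 2) * (v 1 - σ t * v 2))
    + (2 * deriv k t / k t ^ 2 * deriv σ t - (k t)⁻¹ * deriv (deriv σ) t)
      * (u 2 * (v 1 - σ t * v 2) + (u 1 - σ t * u 2) * v 2)
    + 2 * (k t)⁻¹ * deriv σ t ^ 2 * (u 2 * v 2)
    + (-deriv (deriv n) t / n t ^ 2 + 2 * deriv n t ^ 2 / n t ^ 3) * (u 2 * v 2)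

theorem hd {f : ℝ → ℝ} (hf : ContDiff ℝ ∞ f) (t : ℝ) : HasDerivAt f (deriv f t) t :=
  (hf.differentiable (by simp) t).hasDerivAt

theorem hd2 {f : ℝ → ℝ} (hf : ContDiff ℝ ∞ f) (t : ℝ) :
    HasDerivAt (deriv f) (deriv (deriv f) t) t :=
  hd (contDiff_infty_iff_deriv.1 hf).2 t

variable {k n σ : ℝ → ℝ} {t₁ t₄ : ℝ}

theorem hasD_nk (h : Prof k n σ t₁ t₄) (t : ℝ) (u v : E3) :
    HasDerivAt (fun t => nk k n σ t u v) (nk1 k n σ t u v) t := by
  have hk := hd h.sk t; have hn := hd h.sn t; have hσ := hd h.sσ t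
  have := ((hasDerivAt_const t (u 0 * v 0)).add ((hk.inv (h.pk t).ne').mul
    (((hasDerivAt_const t (u 1)).sub (hσ.mul_const (u 2))).mul
      ((hasDerivAt_const t (v 1)).sub (hσ.mul_const (v 2)))))).add
    ((hn.inv (h.pn t).ne').mul_const (u 2 * v 2))
  refine HasDerivAt.congr_deriv this ?_
  simp only [nk1, Pi.inv_apply, Pi.sub_apply, Pi.mul_apply]
  ring

theorem hasD_nk1 (h : Prof k n σ t₁ t₄) (t : ℝ) (u v : E3) :
    HasDerivAt (fun t => nk1 k n σ t u v) (nk2 k n σ t u v) t := by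
  have hk := hd h.sk t; have hn := hd h.sn t; have hσ := hd h.sσ t
  have hk2 := hd2 h.sk t; have hn2 := hd2 h.sn t; have hσ2 := hd2 h.sσ t
  have a1 := (hasDerivAt_const t (u 1)).sub (hσ.mul_const (u 2))
  have a2 := (hasDerivAt_const t (v 1)).sub (hσ.mul_const (v 2))
  have k0 := (h.pk t).ne'; have n0 := (h.pn t).ne'
  have := (((hk2.neg.div (hk.pow 2) (pow_ne_zero 2 k0)).mul (a1.mul a2)).sub
    (((hk.inv k0).mul hσ2).mul ((a2.const_mul (u 2)).add (a1.mul_const (v 2))))).sub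
    ((hn2.div (hn.pow 2) (pow_ne_zero 2 n0)).mul_const (u 2 * v 2))
  refine HasDerivAt.congr_deriv this ?_
  simp only [nk2, Pi.inv_apply, Pi.sub_apply, Pi.mul_apply, Pi.neg_apply, Pi.pow_apply,
    Pi.div_apply, Pi.add_apply]
  field_simp
  ring

theorem dV (h : Prof k n σ t₁ t₄) (p q t : ℝ) : deriv (V k n σ p q) t =
    deriv k t * p ^ 2 + deriv n t * (q + σ t * p) ^ 2
      + 2 * n t * deriv σ t * (q + σ t * p) * p := by
  have hk := hd h.sk t; have hn := hd h.sn t; have hσ := hd h.sσ t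
  have := (hk.mul_const (p ^ 2)).add (hn.mul (((hσ.mul_const p).const_add q).pow 2))
  refine (HasDerivAt.deriv this).trans ?_
  simp only [Pi.pow_apply]
  ring

theorem ddV (h : Prof k n σ t₁ t₄) (p q t : ℝ) : deriv (deriv (V k n σ p q)) t =
    deriv (deriv k) t * p ^ 2 + deriv (deriv n) t * (q + σ t * p) ^ 2
      + (4 * deriv n t * deriv σ t + 2 * n t * deriv (deriv σ) t) * (q + σ t * p) * p
      + 2 * n t * deriv σ t ^ 2 * p ^ 2 := by
  have hn := hd h.sn t; have hσ := hd h.sσ t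
  have hk2 := hd2 h.sk t; have hn2 := hd2 h.sn t; have hσ2 := hd2 h.sσ t
  have r := (hσ.mul_const p).const_add q
  have := ((hk2.mul_const (p ^ 2)).add (hn2.mul (r.pow 2))).add
    ((((hn.const_mul 2).mul hσ2).mul r).mul_const p)
  rw [show deriv (V k n σ p q) = _ from funext (dV h p q)]
  refine (HasDerivAt.deriv this).trans ?_
  simp only [Pi.pow_apply, Pi.mul_apply]
  ring

theorem dxp (h : Prof k n σ t₁ t₄) (p q t : ℝ) : deriv (xp k n σ p q) t =
    deriv k t * p + (deriv n t * σ t + n t * deriv σ t) * (q + σ t * p)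
      + n t * σ t * deriv σ t * p := by
  have hk := hd h.sk t; have hn := hd h.sn t; have hσ := hd h.sσ t
  have := (hk.mul_const p).add ((hn.mul hσ).mul ((hσ.mul_const p).const_add q))
  refine (HasDerivAt.deriv this).trans ?_
  simp only [Pi.mul_apply]
  ring

theorem dyp (h : Prof k n σ t₁ t₄) (p q t : ℝ) : deriv (yp n σ p q) t =
    deriv n t * (q + σ t * p) + n t * deriv σ t * p := by
  have hn := hd h.sn t; have hσ := hd h.sσ t
  have := hn.mul ((hσ.mul_const p).const_add q)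
  refine (HasDerivAt.deriv this).trans ?_
  ring

/-- momenta of a velocity vector -/
noncomputable def mp (k σ : ℝ → ℝ) (t : ℝ) (v : E3) : ℝ := (k t)⁻¹ * (v 1 - σ t * v 2)
noncomputable def mq (k n σ : ℝ → ℝ) (t : ℝ) (v : E3) : ℝ :=
  (n t)⁻¹ * v 2 - σ t * mp k σ t v

/-- the correction term -/
noncomputable def corr (k n σ : ℝ → ℝ) (t₁ t₄ t : ℝ) (v J : E3) : ℝ :=
  v 0 * nk1 k n σ t J J / 2 - J 0 * nk1 k n σ t v J
    + nuL k n σ t₁ (mp k σ t v) (mq k n σ t v) t * (v 0 * J 1 ^ 2 - 2 * v 1 * J 0 * J 1)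
    + nuR k n σ t₄ (mp k σ t v) (mq k n σ t v) t * (v 0 * J 2 ^ 2 - 2 * v 2 * J 0 * J 2)

theorem xp_m (h : Prof k n σ t₁ t₄) (t : ℝ) (v : E3) :
    xp k n σ (mp k σ t v) (mq k n σ t v) t = v 1 := by
  have k0 := (h.pk t).ne'; have n0 := (h.pn t).ne'
  simp only [xp, mq, mp]; field_simp; ring

theorem yp_m (h : Prof k n σ t₁ t₄) (t : ℝ) (v : E3) :
    yp n σ (mp k σ t v) (mq k n σ t v) t = v 2 := by
  have k0 := (h.pk t).ne'; have n0 := (h.pn t).ne'
  simp only [yp, mq, mp]; field_simp; ring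

theorem corr_zero (h : Prof k n σ t₁ t₄) {t : ℝ} (ht : t < t₁ ∨ t₄ < t) (v J : E3) :
    corr k n σ t₁ t₄ t v J = 0 := by
  have k0 := (h.pk t).ne'; have n0 := (h.pn t).ne'
  have hlt := h.lt
  rcases ht with ht | ht
  · obtain ⟨t₂, h12, h2⟩ := h.σ0
    have s0 : σ t = 0 := h2 t (by linarith)
    have s1 : deriv σ t = 0 := by
      have : σ =ᶠ[𝓝 t] fun _ => 0 := by
        filter_upwards [Iio_mem_nhds (show t < t₂ by linarith)] with r hr using h2 r hr
      rw [this.deriv_eq]; simp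
    have n1 := h.n0 t ht.le
    have k1 := h.k1 t (by linarith)
    have hR : nuR k n σ t₄ (mp k σ t v) (mq k n σ t v) t = 0 := by
      rw [nuR, if_neg (by linarith), dV h, s1, n1, min_eq_right (by
        have := mul_nonneg k1.le (sq_nonneg (mp k σ t v)); simpa using this)]
      simp
    rw [corr, hR, nuL, if_pos ht]
    simp only [nk1, s0, s1, n1]
    field_simp
    ring
  · obtain ⟨t₃, h34, h3⟩ := h.σ1
    have s0 : σ t = 1 := h3 t (by linarith)
    have s1 : deriv σ t = 0 := by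
      have : σ =ᶠ[𝓝 t] fun _ => 1 := by
        filter_upwards [Ioi_mem_nhds (show t₃ < t by linarith)] with r hr using h3 r hr
      rw [this.deriv_eq]; simp
    have k1 := h.k0 t ht.le
    have n1 := h.n1 t (by linarith)
    have hL : nuL k n σ t₁ (mp k σ t v) (mq k n σ t v) t = 0 := by
      rw [nuL, if_neg (by linarith), dV h, s1, k1, max_eq_right (by
        have := mul_nonpos_of_nonpos_of_nonneg n1.le
          (sq_nonneg (mq k n σ t v + σ t * mp k σ t v)); simpa using this)]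
      simp
    rw [corr, hL, nuR, if_pos ht]
    simp only [nk1, s0, s1, k1]
    field_simp
    ring

theorem fd_ap {G : E3 → Bil} {y : E3} (hd : DifferentiableAt ℝ G y) (w u v : E3) :
    fderiv ℝ (fun z => G z u v) y w = fderiv ℝ G y w u v := by
  have h1 := fderiv_clm_apply (𝕜 := ℝ) (c := G) (u := fun _ => u) (x := y) hd
    (differentiableAt_const u)
  have h0 : DifferentiableAt ℝ (fun z => G z u) y := hd.clm_apply (differentiableAt_const u)
  have h2 := fderiv_clm_apply (𝕜 := ℝ) (c := fun z => G z u) (u := fun _ => v) (x := y) h0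
    (differentiableAt_const v)
  rw [h2, h1]
  simp

theorem fd1 (h : Prof k n σ t₁ t₄) {G : E3 → Bil} {Ω : Set E3} (hG : CM G Ω)
    (hN : ∀ y ∈ Ω, ∀ u v, G y u v = nk k n σ (y 0) u v) {y : E3} (hy : y ∈ Ω) (w u v : E3) :
    fderiv ℝ G y w u v = w 0 * nk1 k n σ (y 0) u v := by
  have hd : DifferentiableAt ℝ G y :=
    (hG.smooth.contDiffAt (hG.isOpen.mem_nhds hy)).differentiableAt (by simp)
  have h2 := (hasD_nk h (y 0) u v).comp_hasFDerivAt y
    (EuclideanSpace.proj (𝕜 := ℝ) (0 : Fin 3)).hasFDerivAt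
  have h3 : (fun z => G z u v) =ᶠ[𝓝 y] fun z : E3 => nk k n σ (z 0) u v := by
    filter_upwards [hG.isOpen.mem_nhds hy] with z hz using hN z hz u v
  rw [← fd_ap hd, (h2.congr_of_eventuallyEq h3).fderiv]
  simp [mul_comm]

theorem fd2 (h : Prof k n σ t₁ t₄) {G : E3 → Bil} {Ω : Set E3} (hG : CM G Ω)
    (hN : ∀ y ∈ Ω, ∀ u v, G y u v = nk k n σ (y 0) u v) {y : E3} (hy : y ∈ Ω) (j w u v : E3) :
    fderiv ℝ (fun z => fderiv ℝ G z w u v) y j = j 0 * w 0 * nk2 k n σ (y 0) u v := by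
  have h2 := ((hasD_nk1 h (y 0) u v).const_mul (w 0)).comp_hasFDerivAt y
    (EuclideanSpace.proj (𝕜 := ℝ) (0 : Fin 3)).hasFDerivAt
  have h3 : (fun z => fderiv ℝ G z w u v) =ᶠ[𝓝 y] fun z : E3 => w 0 * nk1 k n σ (z 0) u v := by
    filter_upwards [hG.isOpen.mem_nhds hy] with z hz using fd1 h hG hN hz w u v
  rw [(h2.congr_of_eventuallyEq h3).fderiv]
  simp; ring

end Vale.Agent.P255.Z
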