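import Vale.Agent.P255.Z1

open scoped ContDiff Topology
open Set Filter

namespace Vale.Agent.P255.Z

theorem ev_const {f : ℝ → ℝ} {s₀ : ℝ} (h : ∀ᶠ r in 𝓝 s₀, HasDerivAt f 0 r) :
    ∀ᶠ r in 𝓝 s₀, f r = f s₀ := by
  obtain ⟨ε, hε, hb⟩ := Metric.eventually_nhds_iff_ball.1 h
  filter_upwards [Metric.ball_mem_nhds s₀ hε] with r hr
  exact Metric.isOpen_ball.is_const_of_deriv_eq_zero (convex_ball s₀ ε).isPreconnected
    (fun x hx => (hb x hx).differentiableAt.differentiableWithinAt)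
    (fun x hx => (hb x hx).deriv) hr (Metric.mem_ball_self hε)

theorem hdc {c : ℝ → E3} {s : ℝ} (h : DifferentiableAt ℝ c s) (i : Fin 3) :
    HasDerivAt (fun r => c r i) (deriv c s i) s :=
  (EuclideanSpace.proj (𝕜 := ℝ) i).hasFDerivAt.comp_hasDerivAt s h.hasDerivAt

theorem LocMono.congr {F F' : ℝ → ℝ} {s : ℝ} (h : LocMono F s) (e : F' =ᶠ[𝓝 s] F) :
    LocMono F' s := by
  have e0 : F' s = F s := e.eq_of_nhds
  refine ⟨fun ε hε => ?_, fun ε hε => ?_⟩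
  · filter_upwards [h.1 ε hε, nhdsWithin_le_nhds e] with r h1 h2
    rw [e0, h2]; exact h1
  · filter_upwards [h.2 ε hε, nhdsWithin_le_nhds e] with r h1 h2
    rw [e0, h2]; exact h1

theorem hsq (hA : AStmt) {G : E3 → Bil} {Ω : Set E3} (hG : CM G Ω) {c j : ℝ → E3} {s : ℝ}
    (hs : c s ∈ Ω) (hc : DifferentiableAt ℝ c s) (hj : DifferentiableAt ℝ j s) :
    HasDerivAt (fun r => G (c r) (j r) (j r))
      (2 * G (c s) (deriv j s) (j s) + fderiv ℝ G (c s) (deriv c s) (j s) (j s)) s := by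
  obtain ⟨Γ, hΓ⟩ := hA.1 G Ω hG
  refine (hA.2.2.2.2.1 G Ω hG c j j s hs hc hj hj).congr_deriv ?_
  rw [hG.symm _ hs (j s), covD, hΓ.eq _ hs, map_add, ContinuousLinearMap.add_apply,
    hΓ.low _ hs]
  ring

variable {k n σ : ℝ → ℝ} {t₁ t₄ : ℝ}

noncomputable def e0 : E3 := !₂[1, 0, 0]
noncomputable def e1 : E3 := !₂[0, 1, 0]
noncomputable def e2 : E3 := !₂[0, 0, 1]

theorem nk_e0 (t : ℝ) (v : E3) : nk k n σ t v e0 = v 0 := by simp [nk, e0]
theorem nk_e1 (t : ℝ) (v : E3) : nk k n σ t v e1 = mp k σ t v := by simp [nk, e1, mp]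
theorem nk_e2 (t : ℝ) (v : E3) : nk k n σ t v e2 = mq k n σ t v := by
  simp [nk, e2, mp, mq]; ring
theorem nk1_e0 (t : ℝ) (v : E3) : nk1 k n σ t v e0 = 0 := by simp [nk1, e0]

theorem alg1 (h : Prof k n σ t₁ t₄) (t : ℝ) (v : E3) :
    nk1 k n σ t v v = -deriv (V k n σ (mp k σ t v) (mq k n σ t v)) t := by
  have k0 := (h.pk t).ne'; have n0 := (h.pn t).ne'
  rw [dV h]; simp only [nk1, mq, mp]; field_simp; ring

theorem alg2 (h : Prof k n σ t₁ t₄) (t δt : ℝ) (v w : E3) :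
    w 1 = deriv (xp k n σ (mp k σ t v) (mq k n σ t v)) t * δt
      + xp k n σ (mp k σ t w + δt * nk1 k n σ t v e1) (mq k n σ t w + δt * nk1 k n σ t v e2) t := by
  have k0 := (h.pk t).ne'; have n0 := (h.pn t).ne'
  rw [dxp h]; simp [nk1, mq, mp, xp, e1, e2]; field_simp; ring

theorem alg3 (h : Prof k n σ t₁ t₄) (t δt : ℝ) (v w : E3) :
    w 2 = deriv (yp n σ (mp k σ t v) (mq k n σ t v)) t * δt
      + yp n σ (mp k σ t w + δt * nk1 k n σ t v e1) (mq k n σ t w + δt * nk1 k n σ t v e2) t := by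
  have k0 := (h.pk t).ne'; have n0 := (h.pn t).ne'
  rw [dyp h]; simp [nk1, mq, mp, yp, e1, e2]; field_simp; ring

theorem alg4 (h : Prof k n σ t₁ t₄) (t δt : ℝ) (v w : E3) :
    δt * nk2 k n σ t v v / 2 + nk1 k n σ t v w =
    -(deriv (deriv (V k n σ (mp k σ t v) (mq k n σ t v))) t / 2 * δt
      + deriv (xp k n σ (mp k σ t v) (mq k n σ t v)) t * (mp k σ t w + δt * nk1 k n σ t v e1)
      + deriv (yp n σ (mp k σ t v) (mq k n σ t v)) t
        * (mq k n σ t w + δt * nk1 k n σ t v e2)) := by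
  have k0 := (h.pk t).ne'; have n0 := (h.pn t).ne'
  rw [dyp h, dxp h, ddV h]; simp [nk1, nk2, mq, mp, e1, e2]; field_simp; ring

theorem alg5 (h : Prof k n σ t₁ t₄) (t : ℝ) (v w J : E3) :
    (2 * nk k n σ t w J + v 0 * nk1 k n σ t J J) / 2 - corr k n σ t₁ t₄ t v J =
      fN k n σ t₁ t₄ (mp k σ t v) (mq k n σ t v) t (v 0) (J 0) (J 1) (J 2) (w 0)
        (mp k σ t w + J 0 * nk1 k n σ t v e1) (mq k n σ t w + J 0 * nk1 k n σ t v e2) := by
  have k0 := (h.pk t).ne'; have n0 := (h.pn t).ne'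
  rw [fN, corr, xp_m h, yp_m h]
  generalize nuL k n σ t₁ (mp k σ t v) (mq k n σ t v) t = a
  generalize nuR k n σ t₄ (mp k σ t v) (mq k n σ t v) t = b
  simp [nk, nk1, mq, mp, e1, e2]; field_simp; ring

theorem neck_local (hA : AStmt) (hR : RStmt) (h : Prof k n σ t₁ t₄) {G : E3 → Bil} {Ω : Set E3}
    (hG : CM G Ω) (hN : ∀ y ∈ Ω, ∀ u v, G y u v = nk k n σ (y 0) u v) {c j : ℝ → E3} {s₀ : ℝ}
    (hev : ∀ᶠ r in 𝓝 s₀, c r ∈ Ω ∧ GeoAt (ub G) c r ∧ JacAt (ub G) c j r) (F : ℝ → ℝ)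
    (hF : ∀ᶠ s in 𝓝 s₀, F s = deriv (fun r => G (c r) (j r) (j r)) s / 2
      - corr k n σ t₁ t₄ (c s 0) (deriv c s) (j s)) :
    LocMono F s₀ ∧ (j s₀ = 0 → F s₀ = 0 ∧ (deriv j s₀ ≠ 0 → ∀ᶠ s in 𝓝[>] s₀, 0 < F s)) := by
  have lag := hA.2.2.2.1 G Ω hG c
  have hev2 : ∀ᶠ s in 𝓝 s₀, ∀ᶠ r in 𝓝 s,
      c r ∈ Ω ∧ GeoAt (ub G) c r ∧ DifferentiableAt ℝ j r :=
    (hev.mono fun r hr => ⟨hr.1, hr.2.1, hr.2.2.1⟩).eventually_nhds
  have L1 : ∀ w : E3, w 0 = 0 → ∀ᶠ r in 𝓝 s₀,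
      G (c r) (deriv c r) w = G (c s₀) (deriv c s₀) w := fun w hw => ev_const <| by
    filter_upwards [hev] with r hr
    have := (lag r).1 hr.1 hr.2.1 w
    rwa [fd1 h hG hN hr.1, hw, zero_mul, zero_div] at this
  have L2 : ∀ w : E3, w 0 = 0 → ∀ᶠ r in 𝓝 s₀,
      G (c r) (deriv j r) w + fderiv ℝ G (c r) (j r) (deriv c r) w =
      G (c s₀) (deriv j s₀) w + fderiv ℝ G (c s₀) (j s₀) (deriv c s₀) w :=
    fun w hw => ev_const <| by
    filter_upwards [hev, hev2] with r hr hr2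
    have := ((lag r).2 j hr2 hr.2.2).2 w
    rwa [fd2 h hG hN hr.1, fd1 h hG hN hr.1, hw, zero_mul, mul_zero, zero_mul, zero_div,
      add_zero] at this
  have h0 := hev.self_of_nhds
  set p := mp k σ (c s₀ 0) (deriv c s₀) with hp
  set q := mq k n σ (c s₀ 0) (deriv c s₀) with hq
  set δp := mp k σ (c s₀ 0) (deriv j s₀) + j s₀ 0 * nk1 k n σ (c s₀ 0) (deriv c s₀) e1 with hδp
  set δq := mq k n σ (c s₀ 0) (deriv j s₀) + j s₀ 0 * nk1 k n σ (c s₀ 0) (deriv c s₀) e2 with hδq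
  have hτ : HasDerivAt (fun r => deriv c r 0) (-(deriv (V k n σ p q) (c s₀ 0)) / 2) s₀ := by
    have := (lag s₀).1 h0.1 h0.2.1 e0
    rw [fd1 h hG hN h0.1, alg1 h] at this
    refine (this.congr_of_eventuallyEq ?_).congr_deriv (by simp [e0, hp, hq])
    filter_upwards [hev] with r hr
    rw [hN _ hr.1, nk_e0]
  have hδτ : HasDerivAt (fun r => deriv j r 0) (-(deriv (deriv (V k n σ p q)) (c s₀ 0) / 2 * j s₀ 0
      + deriv (xp k n σ p q) (c s₀ 0) * δp + deriv (yp n σ p q) (c s₀ 0) * δq)) s₀ := by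
    have := ((lag s₀).2 j hev2.self_of_nhds h0.2.2).2 e0
    rw [fd2 h hG hN h0.1, fd1 h hG hN h0.1] at this
    refine (this.congr_of_eventuallyEq ?_).congr_deriv ?_
    · filter_upwards [hev] with r hr
      rw [hN _ hr.1, nk_e0, fd1 h hG hN hr.1, nk1_e0, mul_zero, add_zero]
    · rw [← alg4 h]; simp [e0]
  have cert := hR.2 k n σ t₁ t₄ h p q δp δq s₀ (fun r => c r 0) (fun r => deriv c r 0)
    (fun r => j r 0) (fun r => j r 1) (fun r => j r 2) (fun r => deriv j r 0)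
    (hdc h0.2.1.1 0) hτ (hdc h0.2.2.1 0)
    ((hdc h0.2.2.1 1).congr_deriv (alg2 h _ _ _ _)) ((hdc h0.2.2.1 2).congr_deriv (alg3 h _ _ _ _))
    hδτ
  have key : F =ᶠ[𝓝 s₀] fun s => fN k n σ t₁ t₄ p q (c s 0) (deriv c s 0) (j s 0) (j s 1) (j s 2)
      (deriv j s 0) δp δq := by
    filter_upwards [hF, hev, L1 e1 (by simp [e1]), L1 e2 (by simp [e2]), L2 e1 (by simp [e1]),
      L2 e2 (by simp [e2])] with s hs hr a1 a2 b1 b2
    rw [hN _ hr.1, hN _ h0.1, nk_e1, nk_e1] at a1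
    rw [hN _ hr.1, hN _ h0.1, nk_e2, nk_e2] at a2
    rw [hN _ hr.1, hN _ h0.1, nk_e1, nk_e1, fd1 h hG hN hr.1, fd1 h hG hN h0.1] at b1
    rw [hN _ hr.1, hN _ h0.1, nk_e2, nk_e2, fd1 h hG hN hr.1, fd1 h hG hN h0.1] at b2
    rw [hs, (hsq hA hG hr.1 hr.2.1.1 hr.2.2.1).deriv, fd1 h hG hN hr.1, hN _ hr.1, alg5 h,
      a1, a2, b1, b2]
  refine ⟨LocMono.congr cert.1 key, fun hj => ⟨?_, fun hj' => ?_⟩⟩
  · rw [key.eq_of_nhds]; simp [fN, hj]
  · have := cert.2 (by simp [hj]) (by simp [hj]) (by simp [hj]) (by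
      by_contra hc
      push Not at hc
      obtain ⟨c0, c1, c2⟩ := hc
      have x1 := xp_m h (c s₀ 0) (deriv j s₀)
      have x2 := yp_m h (c s₀ 0) (deriv j s₀)
      simp only [hδp, hδq, hj, PiLp.zero_apply, zero_mul, add_zero] at c1 c2
      rw [c1, c2] at x1 x2
      apply hj'
      ext i
      fin_cases i
      · simpa using c0
      · simpa [xp] using x1.symm
      · simpa [yp] using x2.symm)
    filter_upwards [this, nhdsWithin_le_nhds key] with s h1 h2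
    rw [h2]; exact h1

end Vale.Agent.P255.Z
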